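import Crest.Agent.R316.Int

/-!
Row 316: the sign of a big integer, and extension of the residues from large primes to all primes.

Let `S` be the set of primes in `(lo, hi)`, `M = ∏ S ≥ 16 * 2 ^ 2 ^ m`, `r p ∈ [0, p)` the residue
of `F * (M / p)⁻¹` modulo `p` (`M / p` modulo `p` is a `CHF.prodMod`, the inverse is the power
`p - 2`). Then `F ≡ ∑ r p * (M / p)` modulo `M`, i.e. `∑ r p / p - F / M` is an integer `ρ`.
With `2 ^ K ≥ 64 * hi`, `A j = ∑ p, 2 ^ K * (2 ^ j * r p % p) / p` approximates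
`2 ^ K * ∑ (2 ^ j * r p % p) / p` from below within `2 ^ K / 64`.
-/

set_option autoImplicit false

namespace Crest.Agent.R316

open Crest.Agent.Lib.PT

variable {α : Type} [Enc α]

theorem crt_pi_lower {n t : ℕ} (h : n + 1 ≤ 2 ^ t) : n ≤ t * ((Nat.primesLE n).card + 1) := by
  rw [Nat.primesLE_card_eq_primeCounting]
  have h1 := Chebyshev.psi_ge n
  have h2 := Chebyshev.psi_le_primeCounting_mul_log n
  have hl2 : 0 < Real.log 2 := Real.log_pos (by norm_num)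
  have h3 : Real.log (n + 1) ≤ t * Real.log 2 := by
    rw [← Real.log_pow]
    apply Real.log_le_log (by positivity)
    exact_mod_cast h
  have h4 : Real.log n ≤ Real.log (n + 1) := by
    rcases Nat.eq_zero_or_pos n with rfl | hn
    · simp
    · exact Real.log_le_log (by exact_mod_cast hn) (by linarith)
  have h5 : (0 : ℝ) ≤ (Nat.primeCounting n : ℝ) := by positivity
  have h6 : (n : ℝ) * Real.log 2 ≤ (t * ((Nat.primeCounting n : ℝ) + 1)) * Real.log 2 := by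
    have : (Nat.primeCounting n : ℝ) * Real.log n ≤ Nat.primeCounting n * (t * Real.log 2) := by
      gcongr
      linarith
    nlinarith
  have h7 := le_of_mul_le_mul_right h6 hl2
  exact_mod_cast h7

theorem crt_sq_lt (t : ℕ) : (t + 5) * (t + 5) + 1 ≤ 2 ^ (t + 5) := by
  induction t with
  | zero => norm_num
  | succ t ih =>
    rw [show t + 1 + 5 = (t + 5) + 1 by ring, pow_succ]
    nlinarith

theorem crt_many_primes (lo k : ℕ) :
    16 * 2 ^ k ≤ ∏ p ∈ (Finset.range ((lo + k + 6) * (lo + k + 6) + 1)).filter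
      (fun p => p.Prime ∧ lo < p), p := by
  have h1 := crt_pi_lower (crt_sq_lt (lo + k + 1))
  rw [show lo + k + 1 + 5 = lo + k + 6 by ring] at h1
  have h2 := Nat.le_of_mul_le_mul_left h1 (by omega)
  set S := (Finset.range ((lo + k + 6) * (lo + k + 6) + 1)).filter
      (fun p => p.Prime ∧ lo < p) with hS
  have h3 : Nat.primesLE ((lo + k + 6) * (lo + k + 6)) ⊆ S ∪ Finset.range (lo + 1) := by
    intro p hp
    rw [Nat.mem_primesLE] at hp
    simp only [hS, Finset.mem_union, Finset.mem_filter, Finset.mem_range]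
    by_cases h : lo < p
    · exact Or.inl ⟨by omega, hp.2, h⟩
    · exact Or.inr (by omega)
  have h4 := (Finset.card_le_card h3).trans (Finset.card_union_le _ _)
  rw [Finset.card_range] at h4
  calc 16 * 2 ^ k = 2 ^ (k + 4) := by ring
    _ ≤ 2 ^ S.card := Nat.pow_le_pow_right (by norm_num) (by omega)
    _ ≤ _ := Finset.pow_card_le_prod S (fun q => q) 2 fun q hq =>
        (Finset.mem_filter.1 hq).2.1.two_le

/-- the product of the primes in `(lo, hi)` -/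
def crtM (lo hi : ℕ) : ℤ := ∏ y ∈ Finset.range hi, if y.Prime ∧ lo < y then (y : ℤ) else 1

/-- the cofactor of `p` -/
def crtCof (lo hi p : ℕ) : ℤ :=
  ∏ y ∈ Finset.range hi, if (y.Prime ∧ lo < y) ∧ y ≠ p then (y : ℤ) else 1

/-- the coefficient of the cofactor of `p` -/
def crtR (lo hi p : ℕ) (v : ℤ) : ℕ :=
  (v % (p : ℤ)).toNat *
    ((if p.Prime then crtCof lo hi p % (p : ℤ) else 0).toNat ^ (p - 2) % max p 1) % p

/-- the Chinese remainder sum -/
def crtT (lo hi : ℕ) (g : ℕ → ℤ) : ℤ :=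
  ∑ p ∈ Finset.range hi, if p.Prime ∧ lo < p then (crtR lo hi p (g p) : ℤ) * crtCof lo hi p else 0

/-- the approximation of `64 * hi * crtT / crtM` -/
def crtA (lo hi : ℕ) (g : ℕ → ℤ) : ℕ :=
  ∑ p ∈ Finset.range hi, if p.Prime ∧ lo < p then 64 * hi * crtR lo hi p (g p) / p else 0

theorem crtM_eq (lo hi : ℕ) :
    crtM lo hi = ((∏ p ∈ (Finset.range hi).filter (fun p => p.Prime ∧ lo < p), p : ℕ) : ℤ) := by
  rw [crtM, Nat.cast_prod, Finset.prod_filter]

theorem crtCof_eq (lo hi p : ℕ) : crtCof lo hi p =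
    ∏ y ∈ ((Finset.range hi).filter (fun p => p.Prime ∧ lo < p)).erase p, (y : ℤ) := by
  rw [crtCof, ← Finset.prod_filter, ← Finset.filter_ne', Finset.filter_filter]

theorem crtCof_nonneg (lo hi p : ℕ) : 0 ≤ crtCof lo hi p := by
  rw [crtCof_eq]
  exact Finset.prod_nonneg fun _ _ => by positivity

theorem crtCof_mul {lo hi p : ℕ} (h1 : p < hi) (h2 : p.Prime ∧ lo < p) :
    (p : ℤ) * crtCof lo hi p = crtM lo hi := by
  rw [crtCof_eq, crtM_eq, Nat.cast_prod,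
    Finset.mul_prod_erase _ (fun y : ℕ => (y : ℤ)) (Finset.mem_filter.2 ⟨Finset.mem_range.2 h1, h2⟩)]

theorem crtCof_dvd {lo hi p q : ℕ} (h1 : q < hi) (h2 : q.Prime ∧ lo < q) (h : q ≠ p) :
    (q : ℤ) ∣ crtCof lo hi p := by
  rw [crtCof_eq]
  exact Finset.dvd_prod_of_mem (fun y : ℕ => (y : ℤ))
    (Finset.mem_erase.2 ⟨h, Finset.mem_filter.2 ⟨Finset.mem_range.2 h1, h2⟩⟩)

theorem crtCof_ne_zero {lo hi p : ℕ} (hp : p.Prime) : ((crtCof lo hi p : ℤ) : ZMod p) ≠ 0 := by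
  haveI := Fact.mk hp
  rw [crtCof_eq]
  push_cast
  refine Finset.prod_ne_zero_iff.2 fun y hy => ?_
  rw [Finset.mem_erase, Finset.mem_filter] at hy
  rw [Ne, ZMod.natCast_eq_zero_iff, Nat.prime_dvd_prime_iff_eq hp hy.2.2.1]
  exact fun h => hy.1 h.symm

theorem crt_toNat_cast {p : ℕ} (hp : p.Prime) (v : ℤ) :
    (((v % (p : ℤ)).toNat : ℕ) : ZMod p) = (v : ZMod p) := by
  have h0 : 0 ≤ v % (p : ℤ) := Int.emod_nonneg _ (by exact_mod_cast hp.ne_zero)
  rw [← Int.cast_natCast, Int.toNat_of_nonneg h0, ZMod.intCast_mod]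

theorem crtR_mul {lo hi p : ℕ} (hp : p.Prime) (v : ℤ) :
    ((crtR lo hi p v : ℕ) : ZMod p) * ((crtCof lo hi p : ℤ) : ZMod p) = (v : ZMod p) := by
  haveI := Fact.mk hp
  have h := ZMod.pow_card_sub_one_eq_one (crtCof_ne_zero (lo := lo) (hi := hi) hp)
  have e : p - 1 = p - 2 + 1 := by have := hp.two_le; omega
  rw [crtR, if_pos hp, max_eq_left hp.one_le, ZMod.natCast_mod, Nat.cast_mul, ZMod.natCast_mod,
    Nat.cast_pow, crt_toNat_cast hp, crt_toNat_cast hp, mul_assoc, ← pow_succ, ← e, h, mul_one]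

theorem crt_dvd {lo hi : ℕ} {g : ℕ → ℤ} {F : ℤ}
    (hg : ∀ p : ℕ, p.Prime → lo < p → g p ≡ F [ZMOD p]) : crtM lo hi ∣ crtT lo hi g - F := by
  rw [crtM_eq, Nat.cast_prod]
  refine Finset.prod_dvd_of_coprime (fun p hp q hq hpq => ?_) fun q hq => ?_
  · rw [Finset.mem_coe, Finset.mem_filter] at hp hq
    exact Nat.isCoprime_iff_coprime.2 ((Nat.coprime_primes hp.2.1 hq.2.1).2 hpq)
  · rw [Finset.mem_filter, Finset.mem_range] at hq
    rw [← ZMod.intCast_zmod_eq_zero_iff_dvd, Int.cast_sub, sub_eq_zero,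
      ← (ZMod.intCast_eq_intCast_iff _ _ _).2 (hg q hq.2.1 hq.2.2), crtT, Int.cast_sum,
      Finset.sum_eq_single_of_mem q (Finset.mem_range.2 hq.1), if_pos hq.2, Int.cast_mul,
      Int.cast_natCast, crtR_mul hq.2.1]
    intro p _ hpq
    split_ifs
    · rw [Int.cast_mul,
        (ZMod.intCast_zmod_eq_zero_iff_dvd _ _).2 (crtCof_dvd hq.1 hq.2 hpq.symm), mul_zero]
    · simp

theorem crtM_pos (lo hi : ℕ) : 0 < crtM lo hi := by
  refine Finset.prod_pos fun y _ => ?_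
  split_ifs with h
  · exact_mod_cast h.1.pos
  · exact one_pos

theorem crt_approx (lo hi : ℕ) (g : ℕ → ℤ) :
    crtM lo hi * crtA lo hi g ≤ 64 * hi * crtT lo hi g ∧
      64 * hi * crtT lo hi g ≤ crtM lo hi * (crtA lo hi g + hi) := by
  have key : ∀ p ∈ Finset.range hi,
      crtM lo hi * ((if p.Prime ∧ lo < p then 64 * hi * crtR lo hi p (g p) / p else 0 : ℕ) : ℤ) ≤
        64 * hi * (if p.Prime ∧ lo < p then (crtR lo hi p (g p) : ℤ) * crtCof lo hi p else 0) ∧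
      64 * hi * (if p.Prime ∧ lo < p then (crtR lo hi p (g p) : ℤ) * crtCof lo hi p else 0) ≤
        crtM lo hi *
          (((if p.Prime ∧ lo < p then 64 * hi * crtR lo hi p (g p) / p else 0 : ℕ) : ℤ) + 1) := by
    intro p hp
    split_ifs with h
    · rw [← crtCof_mul (Finset.mem_range.1 hp) h]
      have h0 := crtCof_nonneg lo hi p
      have h1 : p * (64 * hi * crtR lo hi p (g p) / p) ≤ 64 * hi * crtR lo hi p (g p) :=
        Nat.mul_div_le _ _
      have h2 : 64 * hi * crtR lo hi p (g p) ≤ p * (64 * hi * crtR lo hi p (g p) / p + 1) :=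
        (Nat.lt_mul_div_succ _ h.1.pos).le
      generalize 64 * hi * crtR lo hi p (g p) / p = d at h1 h2
      have h1' : (p : ℤ) * d ≤ 64 * hi * crtR lo hi p (g p) := by exact_mod_cast h1
      have h2' : (64 : ℤ) * hi * crtR lo hi p (g p) ≤ p * (d + 1) := by exact_mod_cast h2
      constructor
      · nlinarith [mul_le_mul_of_nonneg_right h1' h0]
      · nlinarith [mul_le_mul_of_nonneg_right h2' h0]
    · simp [(crtM_pos lo hi).le]
  rw [crtA, crtT, Nat.cast_sum]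
  constructor
  · rw [Finset.mul_sum, Finset.mul_sum]
    exact Finset.sum_le_sum fun p hp => (key p hp).1
  · refine le_trans (le_of_eq (Finset.mul_sum _ _ _))
      ((Finset.sum_le_sum fun p hp => (key p hp).2).trans (le_of_eq ?_))
    rw [← Finset.mul_sum, Finset.sum_add_distrib]
    simp

/-- the approximation in normal form -/
theorem crt_core {lo hi : ℕ} {g : ℕ → ℤ} {F : ℤ}
    (hg : ∀ p : ℕ, p.Prime → lo < p → g p ≡ F [ZMOD p]) :
    ∃ ρ : ℤ, crtT lo hi g = F + ρ * crtM lo hi ∧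
      crtM lo hi * (crtA lo hi g - 64 * hi * ρ) ≤ 64 * hi * F ∧
      64 * hi * F ≤ crtM lo hi * (crtA lo hi g - 64 * hi * ρ + hi) := by
  obtain ⟨ρ, hρ⟩ := crt_dvd (hi := hi) hg
  obtain ⟨h1, h2⟩ := crt_approx lo hi g
  have e : crtT lo hi g = F + ρ * crtM lo hi := by linarith
  rw [e] at h1 h2
  exact ⟨ρ, e, by linarith, by linarith⟩

theorem crt_hi_pos {lo hi : ℕ} (h : 2 ≤ crtM lo hi) : 0 < hi := by
  rcases Nat.eq_zero_or_pos hi with rfl | h'
  · simp [crtM] at h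
  · exact h'

theorem crtM_le (lo hi : ℕ) : crtM lo hi ≤ 2 ^ (hi * hi) := by
  rw [crtM_eq]
  have h := Finset.prod_le_pow_card ((Finset.range hi).filter (fun p => p.Prime ∧ lo < p))
    (fun p => p) (2 ^ hi) fun p hp =>
      ((Finset.mem_range.1 (Finset.mem_filter.1 hp).1).trans Nat.lt_two_pow_self).le
  have h2 : ((Finset.range hi).filter (fun p => p.Prime ∧ lo < p)).card ≤ hi :=
    (Finset.card_filter_le _ _).trans (by simp)
  have h3 : (2 ^ hi) ^ ((Finset.range hi).filter (fun p => p.Prime ∧ lo < p)).card ≤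
      2 ^ (hi * hi) := by
    rw [pow_mul]
    exact Nat.pow_le_pow_right (by positivity) h2
  exact_mod_cast h.trans h3

theorem crt_eq {lo hi : ℕ} {g : ℕ → ℤ} {F : ℤ}
    (hg : ∀ p : ℕ, p.Prime → lo < p → g p ≡ F [ZMOD p]) (hM : 2 ≤ crtM lo hi)
    (hF : 16 * |F| ≤ crtM lo hi) :
    F = crtT lo hi g - (((crtA lo hi g + 32 * hi) / (64 * hi) : ℕ) : ℤ) * crtM lo hi := by
  obtain ⟨ρ, e, h1, h2⟩ := crt_core (hi := hi) hg
  have hh : (0 : ℤ) < hi := by exact_mod_cast crt_hi_pos hM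
  have hMp := crtM_pos lo hi
  have a1 := le_abs_self F
  have a2 := neg_abs_le F
  have b1 : (crtA lo hi g : ℤ) - 64 * hi * ρ ≤ 4 * hi := by
    refine le_of_mul_le_mul_left (h1.trans ?_) hMp
    nlinarith
  have b2 : -(4 * hi) ≤ (crtA lo hi g : ℤ) - 64 * hi * ρ + hi := by
    refine le_of_mul_le_mul_left (le_trans ?_ h2) hMp
    nlinarith
  have : (((crtA lo hi g + 32 * hi) / (64 * hi) : ℕ) : ℤ) = ρ := by
    push_cast
    refine ((Int.ediv_emod_unique (r := crtA lo hi g + 32 * hi - 64 * hi * ρ)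
      (by positivity)).2 ⟨by ring, by linarith, by linarith⟩).1
  rw [this, e]
  ring

/-- residues of the approximation when `|F / M| < 3 / 8` -/
theorem crt_mod {lo hi : ℕ} {g : ℕ → ℤ} {F : ℤ}
    (hg : ∀ p : ℕ, p.Prime → lo < p → g p ≡ F [ZMOD p]) (hM : 2 ≤ crtM lo hi)
    (hF : 8 * |F| < 3 * crtM lo hi) :
    (3 * crtM lo hi ≤ 16 * |F| →
      8 * hi ≤ crtA lo hi g % (64 * hi) ∧ crtA lo hi g % (64 * hi) ≤ 56 * hi) ∧
    (8 * hi ≤ crtA lo hi g % (64 * hi) ∧ crtA lo hi g % (64 * hi) ≤ 56 * hi →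
      (0 < F ↔ crtA lo hi g % (64 * hi) < 32 * hi) ∧ F ≠ 0) := by
  obtain ⟨ρ, -, h1, h2⟩ := crt_core (hi := hi) hg
  have hh : (0 : ℤ) < hi := by exact_mod_cast crt_hi_pos hM
  have hMp := crtM_pos lo hi
  have a1 := le_abs_self F
  have a2 := neg_abs_le F
  set M := crtM lo hi
  set D : ℤ := crtA lo hi g - 64 * hi * ρ with hD
  have b1 : D ≤ 24 * hi := by
    refine le_of_mul_le_mul_left (h1.trans ?_) hMp
    nlinarith
  have b2 : -(24 * hi) ≤ D + hi := by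
    refine le_of_mul_le_mul_left (le_trans ?_ h2) hMp
    nlinarith
  have hr : (((crtA lo hi g % (64 * hi) : ℕ) : ℤ) = D ∧ 0 ≤ D) ∨
      (((crtA lo hi g % (64 * hi) : ℕ) : ℤ) = D + 64 * hi ∧ D < 0) := by
    push_cast
    rcases le_or_gt 0 D with h | h
    · exact Or.inl ⟨((Int.ediv_emod_unique (q := ρ) (by positivity)).2
        ⟨by rw [hD]; ring, h, by linarith⟩).2, h⟩
    · exact Or.inr ⟨((Int.ediv_emod_unique (q := ρ - 1) (by positivity)).2
        ⟨by rw [hD]; ring, by linarith, by linarith⟩).2, h⟩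
  have c1 : 0 ≤ F → -hi ≤ D := fun h => by
    have : 0 ≤ D + hi := le_of_mul_le_mul_left (le_trans (by nlinarith) h2) hMp
    linarith
  have c2 : F ≤ 0 → D ≤ 0 := fun h =>
    le_of_mul_le_mul_left (h1.trans (by nlinarith)) hMp
  have c3 : 3 * M ≤ 16 * F → 12 * hi ≤ D + hi := fun h =>
    le_of_mul_le_mul_left (le_trans (by nlinarith) h2) hMp
  have c4 : 3 * M ≤ 16 * (-F) → D ≤ -(12 * hi) := fun h =>
    le_of_mul_le_mul_left (h1.trans (by nlinarith)) hMp
  generalize crtA lo hi g % (64 * hi) = r at hr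
  refine ⟨fun h => ?_, fun h => ?_⟩
  · rcases abs_choice F with e | e <;> rw [e] at h
    · have := c3 h
      omega
    · have := c4 h
      omega
  · rcases lt_trichotomy F 0 with e | e | e
    · have := c2 e.le
      omega
    · have := c1 e.ge
      have := c2 e.le
      omega
    · have := c1 e.le
      omega

theorem crt_exists_scale {F M : ℤ} {J : ℕ} (hF : F ≠ 0) (h1 : 16 * |F| ≤ M) (h2 : M ≤ 2 ^ J) :
    ∃ j ≤ J, 3 * M ≤ 16 * |2 ^ j * F| ∧ ∀ i ≤ j, 8 * |2 ^ i * F| < 3 * M := by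
  have h0 : 1 ≤ |F| := Int.one_le_abs hF
  have e : ∀ j : ℕ, |2 ^ j * F| = 2 ^ j * |F| := fun j => by
    rw [abs_mul, abs_of_pos (by positivity : (0 : ℤ) < 2 ^ j)]
  have hJ : 3 * M ≤ 16 * |2 ^ J * F| := by
    rw [e]
    have : (0 : ℤ) < 2 ^ J := by positivity
    nlinarith
  have hex : ∃ j, 3 * M ≤ 16 * |2 ^ j * F| := ⟨J, hJ⟩
  refine ⟨Nat.find hex, Nat.find_min' hex hJ, Nat.find_spec hex, fun i hi => ?_⟩
  cases i with
  | zero => rw [pow_zero, one_mul]; linarith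
  | succ i =>
    have := Nat.find_min hex (show i < Nat.find hex by omega)
    rw [e] at this ⊢
    rw [pow_succ]
    linarith

theorem crt_sign {lo hi : ℕ} {g : ℕ → ℕ → ℤ} {F : ℤ}
    (hg : ∀ j p : ℕ, p.Prime → lo < p → g j p ≡ 2 ^ j * F [ZMOD p]) (hM : 2 ≤ crtM lo hi)
    (hF : 16 * |F| ≤ crtM lo hi) :
    0 < F ↔ ∃ j ≤ hi * hi,
      ((8 * hi ≤ crtA lo hi (g j) % (64 * hi) ∧ crtA lo hi (g j) % (64 * hi) ≤ 56 * hi) ∧
        crtA lo hi (g j) % (64 * hi) < 32 * hi) ∧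
      ∀ i < j, ¬ (8 * hi ≤ crtA lo hi (g i) % (64 * hi) ∧
        crtA lo hi (g i) % (64 * hi) ≤ 56 * hi) := by
  by_cases h0 : F = 0
  · subst h0
    refine ⟨fun h => absurd h (lt_irrefl _), fun ⟨j, _, h, _⟩ => ?_⟩
    exact absurd (mul_zero _) (((crt_mod (hg j) hM (by simp; omega)).2 h.1).2)
  · obtain ⟨j0, hj0, h1, h2⟩ := crt_exists_scale h0 hF (crtM_le lo hi)
    have hfar := (crt_mod (hg j0) hM (h2 j0 le_rfl)).1 h1
    have hpos : ∀ j : ℕ, 0 < 2 ^ j * F ↔ 0 < F := fun j =>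
      mul_pos_iff_of_pos_left (by positivity)
    constructor
    · intro h
      have hex : ∃ j, 8 * hi ≤ crtA lo hi (g j) % (64 * hi) ∧
        crtA lo hi (g j) % (64 * hi) ≤ 56 * hi := ⟨j0, hfar⟩
      have hle : Nat.find hex ≤ j0 := Nat.find_min' hex hfar
      refine ⟨Nat.find hex, hle.trans hj0, ⟨Nat.find_spec hex, ?_⟩,
        fun i hi => Nat.find_min hex hi⟩
      exact ((crt_mod (hg _) hM (h2 _ hle)).2 (Nat.find_spec hex)).1.1 ((hpos _).2 h)
    · rintro ⟨j, -, h3, h4⟩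
      have hle : j ≤ j0 := not_lt.1 fun h => h4 j0 h hfar
      exact (hpos j).1 (((crt_mod (hg j) hM (h2 j hle)).2 h3.1).1.2 h3.2)

theorem crtM_chz {lo hi : α → ℕ} (hlo : CHF lo) (hhi : CHF hi) :
    CHZ fun a => crtM (lo a) (hi a) := by
  unfold crtM
  exact CHZ.prod hhi (CHZ.ite (by fun_prop) (CHZ.natCast (by fun_prop)) (CHZ.const 1))

theorem crtCof_chz {lo hi p : α → ℕ} (hlo : CHF lo) (hhi : CHF hi) (hp : CHF p) :
    CHZ fun a => crtCof (lo a) (hi a) (p a) := by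
  unfold crtCof
  exact CHZ.prod hhi (CHZ.ite (by fun_prop) (CHZ.natCast (by fun_prop)) (CHZ.const 1))

theorem crtR_chf {lo hi p : α → ℕ} {v : α → ℤ} (hlo : CHF lo) (hhi : CHF hi) (hp : CHF p)
    (hv : CHF v) : CHF fun a => crtR (lo a) (hi a) (p a) (v a) := by
  unfold crtR
  have h1 := ((crtCof_chz hlo hhi hp).res hp).toNat
  have h2 := CHF.powMod h1 (hp.sub (CHF.const 2)) (hp.max (CHF.const 1))
    fun a => lt_of_lt_of_le one_pos (le_max_right _ _)
  exact (((hv.intMod hp.intNatCast).toNat).mul h2).mod hp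

theorem crtA_chf {lo hi : α → ℕ} {g : α → ℕ → ℤ} (hlo : CHF lo) (hhi : CHF hi)
    (hg : CHF fun q : α × ℕ => g q.1 q.2) : CHF fun a => crtA (lo a) (hi a) (g a) := by
  unfold crtA
  have h1 : CHF fun q : α × ℕ => crtR (lo q.1) (hi q.1) q.2 (g q.1 q.2) :=
    crtR_chf (by fun_prop) (by fun_prop) (by fun_prop) hg
  exact CHF.sum hhi (CHF.ite (by fun_prop)
    ((CHF.mul (by fun_prop) h1).div (by fun_prop)) (CHF.const 0))

theorem crtT_chz {lo hi : α → ℕ} {g : α → ℕ → ℤ} (hlo : CHF lo) (hhi : CHF hi)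
    (hg : CHF fun q : α × ℕ => g q.1 q.2) : CHZ fun a => crtT (lo a) (hi a) (g a) := by
  unfold crtT
  have h1 : CHF fun q : α × ℕ => crtR (lo q.1) (hi q.1) q.2 (g q.1 q.2) :=
    crtR_chf (by fun_prop) (by fun_prop) (by fun_prop) hg
  have h2 : CHZ fun q : α × ℕ => crtCof (lo q.1) (hi q.1) q.2 :=
    crtCof_chz (by fun_prop) (by fun_prop) (by fun_prop)
  exact CHZ.sum hhi (CHZ.ite (by fun_prop) ((CHZ.natCast h1).mul h2) (CHZ.const 0))

theorem crt_bounds {lo hi k : ℕ} {F : ℤ} (hF : |F| ≤ 2 ^ k)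
    (h : 16 * 2 ^ k ≤ ∏ p ∈ (Finset.range hi).filter (fun p => p.Prime ∧ lo < p), p) :
    2 ≤ crtM lo hi ∧ 16 * |F| ≤ crtM lo hi := by
  have h1 : (16 : ℤ) * 2 ^ k ≤ crtM lo hi := by
    rw [crtM_eq]
    exact_mod_cast h
  have h2 : (1 : ℤ) ≤ 2 ^ k := one_le_pow₀ (by norm_num)
  constructor <;> linarith


/-- enough primes above `lo` (`Chebyshev.pi_ge`, or `Chebyshev.two_pow_le_mul_lcmUpto`) -/
theorem exists_prime_range {lo m : α → ℕ} (hlo : CHF lo) (hm : PB m) :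
    ∃ hi : α → ℕ, CHF hi ∧ ∀ a,
      16 * 2 ^ 2 ^ m a ≤ ∏ p ∈ (Finset.range (hi a)).filter (fun p => p.Prime ∧ lo a < p), p := by
  obtain ⟨m', h1, h2, h3⟩ := pb_exists_pt hm
  have h4 : CHF fun a => lo a + 2 ^ m' a + 6 :=
    (hlo.add (CHF.pow (CHF.const 2) (CHF.of_pt h1) h2)).add (CHF.const 6)
  refine ⟨fun a => (lo a + 2 ^ m' a + 6) * (lo a + 2 ^ m' a + 6) + 1,
    (h4.mul h4).add (CHF.const 1), fun a => le_trans ?_ (crt_many_primes _ _)⟩
  have := h3 a
  gcongr <;> norm_num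

/-- `ρ` is the integer nearest to `A 0 / 2 ^ K`, and `F = ∑ r p * (M / p) - ρ * M` can be reduced
modulo any prime `q`. -/
protected theorem CHZ.of_large {F : α → ℤ} {m lo : α → ℕ} {g : α × ℕ → ℤ} (hm : PB m)
    (hF : ∀ a, |F a| ≤ 2 ^ 2 ^ m a) (hlo : CHF lo) (hg : CHF g)
    (h : ∀ a (p : ℕ), p.Prime → lo a < p → g (a, p) ≡ F a [ZMOD p]) : CHZ F := by
  obtain ⟨hi, hhi, hb⟩ := exists_prime_range hlo hm
  have hg' : CHF fun q : α × ℕ => (fun a p => g (a, p)) q.1 q.2 := hg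
  have hA := crtA_chf (g := fun a p => g (a, p)) hlo hhi hg'
  refine CHZ.congr ((crtT_chz (g := fun a p => g (a, p)) hlo hhi hg').sub ((CHZ.natCast
    ((hA.add ((CHF.const 32).mul hhi)).div ((CHF.const 64).mul hhi))).mul (crtM_chz hlo hhi)))
    fun a => ?_
  obtain ⟨b1, b2⟩ := crt_bounds (hF a) (hb a)
  exact crt_eq (h a) b1 b2

/-- Let `far j` say that `A j % 2 ^ K ∈ [2 ^ K / 8, 7 * 2 ^ K / 8]`. If `F ≠ 0` some `j ≤ hi ^ 2`
has `3 / 16 ≤ |2 ^ j F / M| < 3 / 8`, hence is far; at the least far `j` one has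
`|2 ^ j F / M| < 3 / 8`, and `0 < F` iff `A j % 2 ^ K < 2 ^ K / 2`. If `F = 0` no `j` is far. -/
protected theorem CH.zpos {F : α → ℤ} (h : CHZ F) : CH fun a => 0 < F a := by
  obtain ⟨m, -, hm, hF⟩ := h.bound
  obtain ⟨hi, hhi, hb⟩ := exists_prime_range (lo := fun _ : α => 0) (CHF.const 0) hm
  have h1 : CHZ fun q : (α × ℕ) × ℕ => 2 ^ q.1.2 * F q.1.1 :=
    ((CHZ.const 2).pow (by fun_prop)).mul (h.comp (by fun_prop))
  have h2 := h1.res (p := fun q => q.2) (by fun_prop)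
  have h3 : CHF fun q : α × ℕ => crtA 0 (hi q.1)
      (fun p => if p.Prime then 2 ^ q.2 * F q.1 % (p : ℤ) else 0) :=
    crtA_chf (g := fun (q : α × ℕ) p => if p.Prime then 2 ^ q.2 * F q.1 % (p : ℤ) else 0)
      (CHF.const 0) (by fun_prop) h2
  set A : α × ℕ → ℕ := fun q => crtA 0 (hi q.1)
      (fun p => if p.Prime then 2 ^ q.2 * F q.1 % (p : ℤ) else 0) with hA
  have h4 : CH fun a => ∃ j ≤ hi a * hi a,
      ((8 * hi a ≤ A (a, j) % (64 * hi a) ∧ A (a, j) % (64 * hi a) ≤ 56 * hi a) ∧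
        A (a, j) % (64 * hi a) < 32 * hi a) ∧
      ∀ i < j, ¬ (8 * hi a ≤ A (a, i) % (64 * hi a) ∧ A (a, i) % (64 * hi a) ≤ 56 * hi a) := by
    clear_value A
    refine CH.bex_le (hhi.mul hhi) (CH.and (by fun_prop) ?_)
    exact CH.ball (by fun_prop) (by fun_prop)
  refine h4.congr fun a => ?_
  obtain ⟨b1, b2⟩ := crt_bounds (hF a) (hb a)
  exact crt_sign (g := fun j p => if p.Prime then 2 ^ j * F a % (p : ℤ) else 0)
    (fun j p hp _ => by rw [if_pos hp]; exact Int.mod_modEq _ _) b1 b2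

protected theorem CH.zeq {F G : α → ℤ} (hF : CHZ F) (hG : CHZ G) : CH fun a => F a = G a := by
  refine ((CH.zpos (hF.sub hG)).not.and (CH.zpos (hG.sub hF)).not).congr fun a => ?_
  omega

protected theorem CH.zlt {F G : α → ℤ} (hF : CHZ F) (hG : CHZ G) : CH fun a => F a < G a :=
  (CH.zpos (hG.sub hF)).congr fun a => by omega

protected theorem CH.zle {F G : α → ℤ} (hF : CHZ F) (hG : CHZ G) : CH fun a => F a ≤ G a :=
  (CH.zlt hG hF).not.congr fun a => by omega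

end Crest.Agent.R316
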