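import Crest.Agent.R316.Defs

/-! Row 316: closure properties of `CHk`, `CH` and the bridge to `Crest.CountHier.level`. -/

set_option autoImplicit false

namespace Crest.Agent.R316

open Crest.Agent.Lib.PT

variable {α β γ : Type} [Enc α] [Enc β] [Enc γ]

theorem cnt_congr {N : ℕ} {B B' : ℕ → Prop} (h : ∀ y < N, B y ↔ B' y) : cnt N B = cnt N B' := by
  unfold cnt
  congr 1
  ext y
  simp only [Finset.mem_filter, Finset.mem_range]
  exact and_congr_right (h y)

theorem cnt_le (N : ℕ) (B : ℕ → Prop) : cnt N B ≤ N := by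
  classical
  unfold cnt
  exact (Finset.card_filter_le _ _).trans (Finset.card_range N).le

theorem cnt_not (N : ℕ) (B : ℕ → Prop) : cnt N (fun y => ¬ B y) = N - cnt N B := by
  classical
  have h := Finset.card_filter_add_card_filter_not (s := Finset.range N) B
  rw [Finset.card_range] at h
  have e1 : cnt N B = ((Finset.range N).filter B).card := by unfold cnt; congr
  have e2 : cnt N (fun y => ¬ B y) = ((Finset.range N).filter fun y => ¬ B y).card := by
    unfold cnt; congr
  omega

theorem cnt_pos_iff {N : ℕ} {B : ℕ → Prop} : 1 ≤ cnt N B ↔ ∃ y < N, B y := by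
  classical
  unfold cnt
  rw [Finset.one_le_card, Finset.filter_nonempty_iff]
  simp only [Finset.mem_range]

theorem cnt_eq_card (N : ℕ) (B : ℕ → Prop) [DecidablePred B] :
    cnt N B = ((Finset.range N).filter B).card := by
  unfold cnt; congr

protected theorem CHk.congr {j : ℕ} {P Q : α → Prop} (h : CHk j α Q) (e : ∀ a, P a ↔ Q a) : CHk j α P := by
  have : P = Q := funext fun a => propext (e a)
  rwa [this]

/-- induction on `j`, generalising the types -/
protected theorem CHk.comp {j : ℕ} {P : β → Prop} (h : CHk j β P) {g : α → β} (hg : PT g) :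
    CHk j α fun a => P (g a) := by
  induction j generalizing α β with
  | zero =>
    obtain ⟨f, hf, h⟩ := h
    exact ⟨fun a => f (g a), hf.comp hg, fun a => h _⟩
  | succ j ih =>
    obtain ⟨N, t, B, hN, ht, hB, h⟩ := h
    exact ⟨fun a => N (g a), fun a => t (g a), fun p => B (g p.1, p.2), hN.comp hg, ht.comp hg,
      ih hB (g := fun p : α × ℕ => (g p.1, p.2)) ((hg.comp PT.id.fst).pair PT.id.snd), fun a => h _⟩

/-- `P a ↔ 1 ≤ cnt 1 (fun _ => P a)` -/
protected theorem CHk.succ {j : ℕ} {P : α → Prop} (h : CHk j α P) : CHk (j + 1) α P := by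
  refine ⟨fun _ => 1, fun _ => 1, fun p => P p.1, PT.const _, PT.const _, h.comp PT.id.fst,
    fun a => ?_⟩
  rw [cnt_pos_iff]
  exact ⟨fun h => ⟨0, one_pos, h⟩, fun ⟨_, _, h⟩ => h⟩

protected theorem CHk.mono {j j' : ℕ} {P : α → Prop} (h : CHk j α P) (hj : j ≤ j') : CHk j' α P := by
  induction hj with
  | refl => exact h
  | step _ ih => exact ih.succ

/-- `¬ t ≤ cnt N B ↔ N + 1 - t ≤ cnt N (¬ B)` -/
protected theorem CHk.not {j : ℕ} {P : α → Prop} (h : CHk j α P) : CHk j α fun a => ¬ P a := by
  induction j generalizing α with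
  | zero =>
    obtain ⟨f, hf, h⟩ := h
    exact ⟨fun a => !f a, hf.not, fun a => by simp [h]⟩
  | succ j ih =>
    obtain ⟨N, t, B, hN, ht, hB, h⟩ := h
    refine ⟨N, fun a => N a + 1 - t a, fun p => ¬ B p, hN, by fun_prop, ih hB, fun a => ?_⟩
    have h1 := cnt_not (N a) (fun y => B (a, y))
    have h2 := cnt_le (N a) (fun y => B (a, y))
    beta_reduce
    rw [h, h1]
    omega

protected theorem CHk.cond {j : ℕ} {P Q : α → Prop} {c : α → Bool} (hc : PT c) (hP : CHk j α P)
    (hQ : CHk j α Q) : CHk j α fun a => if c a = true then P a else Q a := by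
  induction j generalizing α with
  | zero =>
    obtain ⟨f, hf, h⟩ := hP
    obtain ⟨g, hg, h'⟩ := hQ
    refine ⟨fun a => cond (c a) (f a) (g a), hc.cond hf hg, fun a => ?_⟩
    cases hca : c a <;> simp [hca, h, h']
  | succ j ih =>
    obtain ⟨N, t, B, hN, ht, hB, h⟩ := hP
    obtain ⟨N', t', B', hN', ht', hB', h'⟩ := hQ
    refine ⟨fun a => cond (c a) (N a) (N' a), fun a => cond (c a) (t a) (t' a),
      fun p => if c p.1 = true then B p else B' p, hc.cond hN hN', hc.cond ht ht',
      ih (hc.comp PT.id.fst) hB hB', fun a => ?_⟩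
    cases hca : c a <;> simp [hca, h, h']

/-- `PT.extendDec` at every level -/
protected theorem CHk.extend {ι : Type} [Enc ι] {j : ℕ} {P : ι → Prop} (h : CHk j ι P) (e : ι → α)
    (he : ∀ i, enc i = enc (e i)) : ∃ Q : α → Prop, CHk j α Q ∧ ∀ i, Q (e i) ↔ P i := by
  induction j generalizing α ι with
  | zero =>
    obtain ⟨f, hf, h⟩ := h
    obtain ⟨F, hF, hFe⟩ := hf.extendDec e he
    exact ⟨fun a => F a = true, ⟨F, hF, fun _ => Iff.rfl⟩, fun i => by beta_reduce; rw [h, hFe]⟩
  | succ j ih =>
    obtain ⟨N, t, B, hN, ht, hB, h⟩ := h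
    obtain ⟨N', hN', hNe⟩ := hN.extendDec e he
    obtain ⟨t', ht', hte⟩ := ht.extendDec e he
    obtain ⟨B', hB', hBe⟩ := ih hB (fun p : ι × ℕ => (e p.1, p.2))
      (fun p => by rw [enc_prod, enc_pair, he])
    refine ⟨fun a => t' a ≤ cnt (N' a) (fun y => B' (a, y)),
      ⟨N', t', B', hN', ht', hB', fun _ => Iff.rfl⟩, fun i => ?_⟩
    beta_reduce
    rw [h, hNe, hte, cnt_congr (B' := fun y => B (i, y)) fun y _ => hBe (i, y)]

theorem core_ofBits_inj {l l' : List Bool} (hl : l.length = l'.length) (h : ofBits l = ofBits l') :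
    l = l' := by
  induction l generalizing l' with
  | nil => cases l' with
    | nil => rfl
    | cons b m => simp at hl
  | cons a l ih => cases l' with
    | nil => simp at hl
    | cons b m =>
      simp only [ofBits_cons, Nat.bit_val] at h
      have h1 : a = b := by cases a <;> cases b <;> simp at h ⊢ <;> omega
      subst h1
      rw [ih (by simpa using hl) (by omega)]

theorem core_ofBits_surj (k z : ℕ) (hz : z < 2 ^ k) : ∃ l : List Bool, l.length = k ∧ ofBits l = z := by
  induction k generalizing z with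
  | zero => exact ⟨[], rfl, by simp at hz ⊢; omega⟩
  | succ k ih =>
    obtain ⟨l, h1, h2⟩ := ih z.div2 (by rw [Nat.div2_val]; rw [pow_succ] at hz; omega)
    exact ⟨z.bodd :: l, by simp [h1], by rw [ofBits_cons, h2, Nat.bit_bodd_div2]⟩

theorem core_ncard (k : ℕ) (Q : ℕ → Prop) :
    {y : List Bool | y.length = k ∧ Q (ofBits y)}.ncard = cnt (2 ^ k) Q := by
  classical
  rw [cnt_eq_card, ← Set.ncard_coe_finset]
  refine Set.ncard_congr (fun y _ => ofBits y) ?_ ?_ ?_
  · rintro y ⟨h1, h2⟩
    simp only [Finset.coe_filter, Finset.mem_range, Set.mem_ofPred_eq]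
    exact ⟨h1 ▸ ofBits_lt y, h2⟩
  · rintro y y' ⟨h1, _⟩ ⟨h2, _⟩ h
    exact core_ofBits_inj (h1.trans h2.symm) h
  · intro z hz
    simp only [Finset.coe_filter, Finset.mem_range, Set.mem_ofPred_eq] at hz
    obtain ⟨l, h1, rfl⟩ := core_ofBits_surj k z hz.1
    exact ⟨l, ⟨h1, hz.2⟩, rfl⟩

theorem core_cnt_pad {N m t : ℕ} {B : ℕ → Prop} (h : N < 2 ^ m) :
    cnt (2 ^ (m + 1)) (fun z => if z < N then B z else z + t ≤ N + 2 ^ m)
      = cnt N B + (2 ^ m + 1 - t) := by
  classical
  rw [cnt_eq_card, cnt_eq_card]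
  have e : (Finset.range (2 ^ (m + 1))).filter (fun z => if z < N then B z else z + t ≤ N + 2 ^ m)
      = (Finset.range N).filter B ∪ Finset.Ico N (N + (2 ^ m + 1 - t)) := by
    ext z
    simp only [Finset.mem_filter, Finset.mem_range, Finset.mem_union, Finset.mem_Ico, pow_succ]
    by_cases hz : z < N
    · simp only [hz, if_true, true_and]
      constructor
      · exact fun h => Or.inl h.2
      · rintro (h1 | h1)
        · exact ⟨by omega, h1⟩
        · omega
    · simp only [hz, if_false, false_and, false_or]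
      omega
  rw [e, Finset.card_union_of_disjoint, Nat.card_Ico]
  · omega
  · rw [Finset.disjoint_left]
    intro z h1 h2
    simp only [Finset.mem_filter, Finset.mem_range, Finset.mem_Ico] at h1 h2
    omega

/-- Induction on `j`, generalising `α`, `P`, `g`. Step: choose a polynomial `p` with
`N (g x) ≤ 2 ^ p |x|` (`PB.exists_poly` for `Nat.size`), count strings `c :: y` of length
`p |x| + 1`: those with `c = true`, `ofBits y < N`, `B (g x, ofBits y)` and those with `c = false`,
`ofBits y + t ≤ 2 ^ p |x|` (treat `t = 0` separately: accept everything). The pair is recovered from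
`pairBits x y` by a total `PT` parser (`SD.pairsFalse`, `SD.exists_parser`); the inner language is
obtained from the induction hypothesis applied to a `CHk.cond` predicate on `List Bool × List Bool`. -/
protected theorem CHk.mem_level {j : ℕ} {P : α → Prop} (h : CHk j α P) (g : List Bool → α) (hg : PT g) :
    {x | P (g x)} ∈ Crest.CountHier.level j := by
  induction j generalizing α with
  | zero =>
    obtain ⟨f, hf, h⟩ := h
    exact inP_iff_pt.2 ⟨fun x => f (g x), hf.comp hg, fun x => h _⟩
  | succ j ih =>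
    obtain ⟨N, t, B, hN, ht, hB, h⟩ := h
    obtain ⟨p, hp⟩ := PB.exists_poly (PB.size (hN.comp hg))
    obtain ⟨prs, hprs, hpe⟩ := SD.pairsFalse.exists_parser
    have hc : PT fun q : List Bool × List Bool => decide (ofBits q.2 < N (g q.1)) := by fun_prop
    have hd : PT fun q : List Bool × List Bool =>
        decide (ofBits q.2 + t (g q.1) ≤ N (g q.1) + 2 ^ p.eval q.1.length) := by fun_prop
    have h1 : CHk j (List Bool × List Bool) fun q => B (g q.1, ofBits q.2) :=
      hB.comp (g := fun q : List Bool × List Bool => (g q.1, ofBits q.2)) (by fun_prop)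
    have h2 : CHk j (List Bool × List Bool) fun q =>
        ofBits q.2 + t (g q.1) ≤ N (g q.1) + 2 ^ p.eval q.1.length :=
      CHk.mono (j := 0) ⟨_, hd, fun q => by simp⟩ (Nat.zero_le j)
    have h3 := ih (CHk.cond hc h1 h2) prs hprs
    refine ⟨_, h3, p + 1, fun x => ?_⟩
    have hx : ∀ y, prs (Crest.CountHier.pairBits x y) = (x, y) := fun y => by
      rw [← hpe x y, Crest.CountHier.pairBits, List.flatMap_def, List.append_assoc,
        List.singleton_append]
    have hlt : N (g x) < 2 ^ p.eval x.length :=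
      (Nat.lt_size_self _).trans_le (Nat.pow_le_pow_right (by norm_num) (hp x))
    simp only [Set.mem_ofPred_eq, hx, Polynomial.eval_add, Polynomial.eval_one, decide_eq_true_eq]
    rw [core_ncard (p.eval x.length + 1) (fun z => if z < N (g x) then B (g x, z)
      else z + t (g x) ≤ N (g x) + 2 ^ p.eval x.length), core_cnt_pad hlt, h]
    have := cnt_le (N (g x)) (fun y => B (g x, y))
    rw [pow_succ]
    omega

protected theorem CH.exists_level {P : List Bool → Prop} (h : CH P) :
    ∃ j, {x | P x} ∈ Crest.CountHier.level j := by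
  obtain ⟨j, h⟩ := h
  exact ⟨j, h.mem_level (fun x => x) PT.id⟩

protected theorem CH.congr {P Q : α → Prop} (h : CH Q) (e : ∀ a, P a ↔ Q a) : CH P := by
  obtain ⟨j, h⟩ := h
  exact ⟨j, h.congr e⟩

protected theorem CH.of_pt {f : α → Bool} (hf : PT f) : CH fun a => f a = true := by
  exact ⟨0, f, hf, fun _ => Iff.rfl⟩

protected theorem CH.of_decide {P : α → Prop} [∀ a, Decidable (P a)] (h : PT fun a => decide (P a)) :
    CH P := by
  exact ⟨0, _, h, fun a => by simp⟩

@[fun_prop] protected theorem CH.const (p : Prop) : CH fun _ : α => p := by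
  classical
  exact CH.of_decide (PT.const (decide p))

protected theorem CH.comp_pt {P : β → Prop} (h : CH P) {g : α → β} (hg : PT g) : CH fun a => P (g a) := by
  obtain ⟨j, h⟩ := h
  exact ⟨j, h.comp hg⟩

@[fun_prop] protected theorem CH.not {P : α → Prop} (h : CH P) : CH fun a => ¬ P a := by
  obtain ⟨j, h⟩ := h
  exact ⟨j, h.not⟩

protected theorem CH.cond_pt {P Q : α → Prop} {c : α → Bool} (hc : PT c) (hP : CH P) (hQ : CH Q) :
    CH fun a => if c a = true then P a else Q a := by
  obtain ⟨j, hP⟩ := hP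
  obtain ⟨k, hQ⟩ := hQ
  exact ⟨max j k, CHk.cond hc (hP.mono (le_max_left _ _)) (hQ.mono (le_max_right _ _))⟩

protected theorem CH.thr_pt {N t : α → ℕ} {B : α → ℕ → Prop} (hN : PT N) (ht : PT t)
    (hB : CH fun p : α × ℕ => B p.1 p.2) : CH fun a => t a ≤ cnt (N a) (B a) := by
  obtain ⟨j, hB⟩ := hB
  exact ⟨j + 1, N, t, _, hN, ht, hB, fun _ => Iff.rfl⟩

/-- `2 ≤ cnt 2 (fun y => if y = 0 then P else Q)` -/
@[fun_prop] protected theorem CH.and {P Q : α → Prop} (hP : CH P) (hQ : CH Q) : CH fun a => P a ∧ Q a := by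
  have hc : PT fun p : α × ℕ => decide (p.2 = 0) := by fun_prop
  have h := CH.thr_pt (N := fun _ : α => 2) (t := fun _ => 2)
    (B := fun a y => if decide (y = 0) = true then P a else Q a) (PT.const _) (PT.const _)
    (CH.cond_pt hc (hP.comp_pt PT.id.fst) (hQ.comp_pt PT.id.fst))
  refine h.congr fun a => ?_
  have h1 := cnt_not 2 (fun y => if decide (y = 0) = true then P a else Q a)
  have h2 := cnt_le 2 (fun y => if decide (y = 0) = true then P a else Q a)
  have h3 := cnt_pos_iff (N := 2) (B := fun y => ¬ if decide (y = 0) = true then P a else Q a)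
  constructor
  · rintro ⟨h4, h5⟩
    by_contra hh
    obtain ⟨y, _, hy⟩ := h3.1 (by omega)
    apply hy
    split_ifs
    · exact h4
    · exact h5
  · intro hh
    have h4 : ∀ y < 2, if decide (y = 0) = true then P a else Q a := fun y hy => by
      by_contra h5
      have := h3.2 ⟨y, hy, h5⟩
      omega
    exact ⟨by simpa using h4 0 (by norm_num), by simpa using h4 1 (by norm_num)⟩

@[fun_prop] protected theorem CH.or {P Q : α → Prop} (hP : CH P) (hQ : CH Q) : CH fun a => P a ∨ Q a := by
  exact (hP.not.and hQ.not).not.congr fun a => by tauto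

protected theorem CH.imp {P Q : α → Prop} (hP : CH P) (hQ : CH Q) : CH fun a => P a → Q a := by
  exact (hP.not.or hQ).congr fun a => by tauto

@[fun_prop] protected theorem CH.iff {P Q : α → Prop} (hP : CH P) (hQ : CH Q) : CH fun a => P a ↔ Q a := by
  exact ((hP.imp hQ).and (hQ.imp hP)).congr fun a => by tauto

protected theorem CH.bex_pt {N : α → ℕ} {B : α → ℕ → Prop} (hN : PT N)
    (hB : CH fun p : α × ℕ => B p.1 p.2) : CH fun a => ∃ y < N a, B a y := by
  exact (CH.thr_pt hN (PT.const 1) hB).congr fun a => cnt_pos_iff.symm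

protected theorem CH.ball_pt {N : α → ℕ} {B : α → ℕ → Prop} (hN : PT N)
    (hB : CH fun p : α × ℕ => B p.1 p.2) : CH fun a => ∀ y < N a, B a y := by
  exact (CH.bex_pt (B := fun a y => ¬ B a y) hN hB.not).not.congr fun a => by simp

protected theorem CH.extend {ι : Type} [Enc ι] {P : ι → Prop} (h : CH P) (e : ι → α)
    (he : ∀ i, enc i = enc (e i)) : ∃ Q : α → Prop, CH Q ∧ ∀ i, Q (e i) ↔ P i := by
  obtain ⟨j, h⟩ := h
  obtain ⟨Q, hQ, hQe⟩ := h.extend e he
  exact ⟨Q, ⟨j, hQ⟩, hQe⟩

/-- one step of the stack machine -/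
def core_step (st : List D) (b : Bool) : List D :=
  cond b (D.cons (st.tail.headD D.nil) (st.headD D.nil) :: st.tail.tail) (D.nil :: st)

/-- postfix code -/
def core_code : D → List Bool
  | .nil => [false]
  | .cons a b => core_code a ++ (core_code b ++ [true])

theorem core_length_code (d : D) : (core_code d).length = d.size := by
  induction d with
  | nil => rfl
  | cons a b ha hb => simp [core_code, ha, hb]; omega

theorem core_run (d : D) (st : List D) : (core_code d).foldl core_step st = d :: st := by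
  induction d generalizing st with
  | nil => rfl
  | cons a b ha hb => simp [core_code, List.foldl_append, ha, hb, core_step]

theorem core_sz_step (st : List D) (b : Bool) : sz (core_step st b) ≤ sz st + 4 := by
  cases b
  · simp [core_step, sz_D]; omega
  · rcases st with _ | ⟨u, _ | ⟨v, r⟩⟩ <;> simp [core_step, sz_D] <;> omega

theorem core_bits_ofBits (l : List Bool) : (ofBits (l ++ [true])).bits = l ++ [true] := by
  induction l with
  | nil => simp
  | cons b l ih =>
    rw [List.cons_append, ofBits_cons, Nat.bits_append_bit _ _ ?_, ih]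
    intro h
    rw [ofBits_append_singleton] at h
    simp at h

/-- Trees are read from numbers: e.g. run a stack machine over `y.bits.dropLast` (postfix code:
`false` pushes `nil`, `true` pops two trees and pushes their `cons`), `PT.foldl_add`. -/
theorem exists_tree_decoder : ∃ dec : ℕ → D, PT dec ∧ ∀ d : D, ∃ y < 2 ^ (d.size + 1), dec y = d := by
  refine ⟨fun y => (y.bits.dropLast.foldl core_step []).headD D.nil, ?_, fun d => ?_⟩
  · refine PT.headD ?_ (PT.const _)
    refine PT.foldl_add (f := fun (_ : ℕ) st b => core_step st b) (l := fun y : ℕ => y.bits.dropLast)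
      (ini := fun _ => []) (fun _ => 4) ?_ (by fun_prop) (by fun_prop) (by fun_prop)
      (fun _ st b _ => core_sz_step st b)
    unfold core_step
    fun_prop
  · refine ⟨ofBits (core_code d ++ [true]), ?_, ?_⟩
    · have := ofBits_lt (core_code d ++ [true])
      rwa [List.length_append, core_length_code, List.length_singleton] at this
    · beta_reduce
      rw [core_bits_ofBits, List.dropLast_concat, core_run]
      rfl

/-- every polynomial bound is below a polynomial-time polynomial bound -/
theorem pb_exists_pt {n : α → ℕ} (h : PB n) : ∃ m : α → ℕ, PT m ∧ PB m ∧ ∀ a, n a ≤ m a := by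
  obtain ⟨c, k, h⟩ := h
  have h1 : PB (fun a : α => sz a) := PB.sz_id
  exact ⟨fun a => c * sz a ^ k, by fun_prop, by fun_prop, h⟩

/-- a polynomial bound depending on a second argument of polynomial size is uniform -/
theorem pb_uniform {g : α × β → ℕ} (hg : PB g) {B : α → ℕ} (hB : PB B) :
    ∃ m : α → ℕ, PT m ∧ PB m ∧ ∀ a b, sz b ≤ B a → g (a, b) ≤ m a := by
  obtain ⟨c, k, hg⟩ := hg.exists_bound
  obtain ⟨m, hm, hm', hBm⟩ := pb_exists_pt hB
  have h1 : PB (fun a : α => sz a) := PB.sz_id
  refine ⟨fun a => c * (sz a + m a + 1) ^ k, by fun_prop, by fun_prop, fun a b hb => hg _ _ ?_⟩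
  have := hBm a
  rw [sz_pair]
  omega

protected theorem CH.exists_D {B : α → ℕ} {P : α → D → Prop} (hB : PT B) (hb : PB B)
    (hP : CH fun p : α × D => P p.1 p.2) : CH fun a => ∃ d : D, d.size ≤ B a ∧ P a d := by
  obtain ⟨dec, hdec, hd⟩ := exists_tree_decoder
  have h1 : CH fun p : α × ℕ => (dec p.2).size ≤ B p.1 := CH.of_decide (by fun_prop)
  have h2 : CH fun p : α × ℕ => P p.1 (dec p.2) :=
    hP.comp_pt (g := fun p : α × ℕ => (p.1, dec p.2)) (by fun_prop)
  refine (CH.bex_pt (N := fun a => 2 ^ (B a + 1))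
    (B := fun a y => (dec y).size ≤ B a ∧ P a (dec y)) (by fun_prop) (h1.and h2)).congr fun a => ?_
  constructor
  · rintro ⟨d, h3, h4⟩
    obtain ⟨y, hy, rfl⟩ := hd d
    exact ⟨y, hy.trans_le (Nat.pow_le_pow_right (by norm_num) (by omega)), h3, h4⟩
  · rintro ⟨y, _, h3, h4⟩
    exact ⟨_, h3, h4⟩

end Crest.Agent.R316
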