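import Crest.Agent.Lib.PT.Mat
import Crest.Prelude.Def_CountHier
import Crest.Prelude.Def_RealEA

/-!
Row 316 (existential-universal theory of the reals in the counting hierarchy): definitions.

* `CH P`  : the predicate `P` lies in the counting hierarchy.
* `CHF f` : `f` has polynomial size and its graph lies in the counting hierarchy.
* `CHZ F`, `CHQ F` : integers / rationals with exponentially many bits, known by their residues.
* `CHP P`, `CHU F`, `CHX G` : polynomials of exponential degree whose coefficients are `CHQ`.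
* `CHR f` : rational functions with denominators positive at real points.
-/

set_option autoImplicit false

namespace Crest.Agent.R316

open Crest.Agent.Lib.PT

/-! ## The hierarchy on encodable types -/

open Classical in
/-- the number of `y < N` with `B y` -/
noncomputable def cnt (N : ℕ) (B : ℕ → Prop) : ℕ := ((Finset.range N).filter B).card

/-- level `j` of the hierarchy, in threshold form -/
def CHk : ℕ → (α : Type) → [Enc α] → (α → Prop) → Prop
  | 0, α, _, P => ∃ f : α → Bool, PT f ∧ ∀ a, P a ↔ f a = true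
  | j + 1, α, _, P => ∃ (N t : α → ℕ) (B : α × ℕ → Prop), PT N ∧ PT t ∧ CHk j (α × ℕ) B ∧
      ∀ a, P a ↔ t a ≤ cnt (N a) (fun y => B (a, y))

theorem CHk_zero {α : Type} [Enc α] (P : α → Prop) :
    CHk 0 α P ↔ ∃ f : α → Bool, PT f ∧ ∀ a, P a ↔ f a = true := Iff.rfl

theorem CHk_succ {α : Type} [Enc α] (j : ℕ) (P : α → Prop) :
    CHk (j + 1) α P ↔ ∃ (N t : α → ℕ) (B : α × ℕ → Prop), PT N ∧ PT t ∧ CHk j (α × ℕ) B ∧
      ∀ a, P a ↔ t a ≤ cnt (N a) (fun y => B (a, y)) := Iff.rfl

/-- predicates of the counting hierarchy -/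
@[fun_prop] def CH {α : Type} [Enc α] (P : α → Prop) : Prop := ∃ j, CHk j α P

/-- functions of polynomial size with graph in the counting hierarchy -/
@[fun_prop] def CHF {α β : Type} [Enc α] [Enc β] (f : α → β) : Prop :=
  PB (fun a => sz (f a)) ∧ CH (fun p : α × D => enc (f p.1) = p.2)

/-- big integers, known by their residues modulo primes -/
@[fun_prop] def CHZ {α : Type} [Enc α] (F : α → ℤ) : Prop :=
  (∃ m : α → ℕ, PB m ∧ ∀ a, |F a| ≤ 2 ^ 2 ^ m a) ∧
    CHF (fun q : α × ℕ => if q.2.Prime then F q.1 % (q.2 : ℤ) else 0)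

/-- big rationals -/
@[fun_prop] def CHQ {α : Type} [Enc α] (F : α → ℚ) : Prop :=
  ∃ N Dn : α → ℤ, CHZ N ∧ CHZ Dn ∧ ∀ a, 0 < Dn a ∧ F a = (N a : ℚ) / (Dn a : ℚ)

open Classical in
/-- the least `y < N` with `P y`, and `N` if there is none -/
noncomputable def lst (N : ℕ) (P : ℕ → Prop) : ℕ :=
  if h : ∃ y, y < N ∧ P y then Nat.find h else N

/-- the `n` lowest digits of `c` in base `K` -/
def digs (n K c : ℕ) : List ℕ := (List.range n).map fun i => c / K ^ i % K

/-! ## Polynomials -/

/-- polynomials in the variables `0, 1, 2, ...` -/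
abbrev MP : Type := MvPolynomial ℕ ℚ

/-- polynomials in one more variable -/
abbrev UP : Type := Polynomial MP

/-- the exponent vector listed by `l` -/
noncomputable def toF (l : List ℕ) : ℕ →₀ ℕ :=
  Finsupp.onFinset (Finset.range l.length) (fun i => l.getD i 0) (by
    intro i hi
    by_contra h
    simp only [Finset.mem_range, not_lt] at h
    exact hi (List.getD_eq_default _ _ h))

@[simp] theorem toF_apply (l : List ℕ) (i : ℕ) : toF l i = l.getD i 0 := rfl

/-- exponent vectors supported on the first `n` variables, with entries below `K` -/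
noncomputable def box (n K : ℕ) : Finset (ℕ →₀ ℕ) :=
  (Finset.range n).finsupp fun _ => Finset.range K

theorem mem_box {n K : ℕ} {d : ℕ →₀ ℕ} :
    d ∈ box n K ↔ (∀ i, n ≤ i → d i = 0) ∧ ∀ i < n, d i < K := by
  rw [box, Finset.mem_finsupp_iff]
  refine and_congr ⟨fun h i hi => ?_, fun h i hi => ?_⟩ (by simp)
  · by_contra h0
    have := h (Finsupp.mem_support_iff.2 h0)
    simp only [Finset.mem_range] at this
    omega
  · rw [Finset.mem_range]
    by_contra h0
    exact Finsupp.mem_support_iff.1 hi (h i (by omega))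

/-- polynomials with polynomially many variables, exponential degree and `CHQ` coefficients -/
@[fun_prop] def CHP {α : Type} [Enc α] (P : α → MP) : Prop :=
  (∃ m : α → ℕ, PB m ∧ ∀ a, (P a).support ⊆ box (m a) (2 ^ m a)) ∧
    CHQ (fun q : α × List ℕ => MvPolynomial.coeff (toF q.2) (P q.1))

/-- the distinguished variable becomes the variable `0`, the others are shifted -/
noncomputable def ofU : UP →ₐ[ℚ] MP :=
  Polynomial.eval₂AlgHom (MvPolynomial.rename Nat.succ) (MvPolynomial.X 0)
    (fun _ => Commute.all _ _)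

/-- the variable `0` becomes the distinguished variable -/
noncomputable def toU : MP →ₐ[ℚ] UP :=
  MvPolynomial.aeval fun i => Nat.casesOn i Polynomial.X fun j => Polynomial.C (MvPolynomial.X j)

@[fun_prop] def CHU {α : Type} [Enc α] (F : α → UP) : Prop := CHP fun a => ofU (F a)

@[fun_prop] def CHX {α : Type} [Enc α] (G : α → Polynomial ℚ) : Prop :=
  CHU fun a => (G a).map (MvPolynomial.C : ℚ →+* MP)

/-- rational functions whose denominator is positive at all real points -/
def CHR {α : Type} [Enc α] (f : α → (ℕ → ℝ) → ℝ) : Prop :=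
  ∃ N Dn : α → MP, CHP N ∧ CHP Dn ∧ ∀ a y, 0 < MvPolynomial.aeval y (Dn a) ∧
    f a y = MvPolynomial.aeval y (N a) / MvPolynomial.aeval y (Dn a)

/-- the point with first coordinates `y`, followed by `x` -/
def app {R : Type} {n : ℕ} (y : Fin n → R) (x : ℕ → R) : ℕ → R :=
  fun i => if h : i < n then y ⟨i, h⟩ else x (i - n)

theorem app_lt {R : Type} {n : ℕ} (y : Fin n → R) (x : ℕ → R) {i : ℕ} (h : i < n) :
    app y x i = y ⟨i, h⟩ := dif_pos h

theorem app_ge {R : Type} {n : ℕ} (y : Fin n → R) (x : ℕ → R) {i : ℕ} (h : n ≤ i) :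
    app y x i = x (i - n) := dif_neg (by omega)

@[simp] theorem app_fin {R : Type} {n : ℕ} (y : Fin n → R) (x : ℕ → R) (i : Fin n) :
    app y x i = y i := dif_pos i.2

@[simp] theorem app_add {R : Type} {n : ℕ} (y : Fin n → R) (x : ℕ → R) (i : ℕ) :
    app y x (i + n) = x i := by
  rw [app_ge _ _ (by omega), Nat.add_sub_cancel]

/-- drop the first `n` exponents -/
noncomputable def shiftF (n : ℕ) (d : ℕ →₀ ℕ) : ℕ →₀ ℕ :=
  d.comapDomain (fun i => i + n) (add_left_injective n).injOn

@[simp] theorem shiftF_apply (n : ℕ) (d : ℕ →₀ ℕ) (i : ℕ) : shiftF n d i = d (i + n) := rfl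

open Classical in
/-- the coefficient of `y ^ e` (`y` the first `n` variables), a polynomial in the other ones -/
noncomputable def pc (n : ℕ) (e : ℕ → ℕ) (P : MP) : MP :=
  ∑ d ∈ P.support, MvPolynomial.coeff d P •
    (if ∀ i < n, d i = e i then MvPolynomial.monomial (shiftF n d) (1 : ℚ) else 0)

/-- keep the first `n` variables, evaluate the other ones at `x` -/
noncomputable def spec {R : Type} [CommRing R] [Algebra ℚ R] (n : ℕ) (x : ℕ → R) :
    MP →ₐ[ℚ] MvPolynomial (Fin n) R :=
  MvPolynomial.aeval (app (fun i : Fin n => MvPolynomial.X i) fun i => MvPolynomial.C (x i))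

/-- keep the variable `0`, evaluate the other ones at `x` -/
noncomputable def tx {R : Type} [CommRing R] [Algebra ℚ R] (x : ℕ → R) :
    MP →ₐ[ℚ] Polynomial R :=
  MvPolynomial.aeval fun i => Nat.casesOn i Polynomial.X fun j => Polynomial.C (x j)

/-- evaluate the coefficients at `x` -/
noncomputable def ev {R : Type} [CommRing R] [Algebra ℚ R] (x : ℕ → R) (F : UP) : Polynomial R :=
  F.map (MvPolynomial.aeval x : MP →ₐ[ℚ] R).toRingHom

/-- the degree after evaluating the coefficients at the real point `x` -/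
noncomputable def dg (F : UP) (x : ℕ → ℝ) : ℕ := (ev x F).natDegree

/-- the coefficients of `V` are polynomials in `t` (variable `0`) and parameters; evaluate the
parameters at `x` and take the top nonzero coefficient -/
noncomputable def lead {R : Type} [CommRing R] [Algebra ℚ R] (V : UP) (x : ℕ → R) : Polynomial R :=
  (V.map (tx x).toRingHom).leadingCoeff

/-- the positivity bits of the polynomials `P 0, ..., P (T-1)` at `z` -/
noncomputable def bits (T : ℕ) (P : ℕ → MP) (z : ℕ → ℝ) : List Bool :=
  (List.range T).map fun τ => decide (0 < MvPolynomial.aeval z (P τ))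

/-! ## Newton's identities through truncated exponentials -/

section newton

open Polynomial

variable {R : Type} [CommRing R] [Algebra ℚ R]

/-- truncated exponential -/
noncomputable def texp (K : ℕ) (G : R[X]) : R[X] :=
  ∑ i ∈ Finset.range (K + 1), ((i.factorial : ℚ)⁻¹) • G ^ i

/-- `∏ (1 + γ X)` from the power sums `π j = ∑ γ ^ j` of at most `M` elements -/
noncomputable def ofPS (M : ℕ) (π : ℕ → R) : R[X] :=
  ∑ k ∈ Finset.range (M + 1), monomial k
    ((texp M (∑ j ∈ Finset.range M,
      monomial (j + 1) ((((-1) ^ j / ((j : ℚ) + 1)) : ℚ) • π (j + 1)))).coeff k)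

/-- the `e`-th power sum of the roots of the monic polynomial `F` of degree `d` -/
noncomputable def psum (F : R[X]) (d e : ℕ) : R :=
  (C (d : R) - X * derivative (reflect d F) *
    ∑ k ∈ Finset.range (e + 1), (1 - reflect d F) ^ k).coeff e

end newton

/-- `∑ W (β, x)` over all tuples `β` of roots, `β i` a root of `F i` (monic of degree `d i`) -/
noncomputable def tupSum (n : ℕ) (F : ℕ → UP) (d : ℕ → ℕ) (W : MP) : MP :=
  ∑ e ∈ W.support, MvPolynomial.coeff e W •
    ((∏ i ∈ Finset.range n, psum (F i) (d i) (e i)) * MvPolynomial.monomial (shiftF n e) (1 : ℚ))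

/-- `∏ (1 + W (β, x) X)` over all tuples `β` of roots -/
noncomputable def tupProd (n : ℕ) (F : ℕ → UP) (d : ℕ → ℕ) (W : MP) : UP :=
  ofPS (∏ i ∈ Finset.range n, d i) fun j => tupSum n F d (W ^ j)

/-! ## Residues of Pham systems `y j ^ D = g j (y)` -/

/-- the global residue of `h / ∏ (X j ^ D - g j)`, for `h` of total degree at most `K` -/
noncomputable def rho {σ R : Type} [Fintype σ] [DecidableEq σ] [CommRing R] (D K : ℕ)
    (g : σ → MvPolynomial σ R) (h : MvPolynomial σ R) : R :=
  ∑ k ∈ Fintype.piFinset fun _ : σ => Finset.range (K + 1),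
    MvPolynomial.coeff (Finsupp.equivFunOnFinite.symm fun j => (k j + 1) * D - 1)
      (h * ∏ j, g j ^ k j)

/-- the Jacobian determinant of the system -/
noncomputable def jac {σ R : Type} [Fintype σ] [DecidableEq σ] [CommRing R] (D : ℕ)
    (g : σ → MvPolynomial σ R) : MvPolynomial σ R :=
  (Matrix.of fun i j => MvPolynomial.pderiv j (MvPolynomial.X i ^ D - g i)).det

/-- a monic polynomial of degree `M` vanishing at the `j₀`-th coordinate of every solution -/
noncomputable def elim {σ R : Type} [Fintype σ] [DecidableEq σ] [CommRing R] [Algebra ℚ R]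
    (D M K : ℕ) (g : σ → MvPolynomial σ R) (j₀ : σ) : Polynomial R :=
  Polynomial.reflect M (ofPS M fun i => (-1) ^ i * rho D K g (MvPolynomial.X j₀ ^ i * jac D g))

/-- `rho` for the block of the first `n` variables -/
noncomputable def rhoP (n D K : ℕ) (g : ℕ → MP) (h : MP) : MP :=
  ∑ k ∈ box n (K + 1), pc n (fun j => (k j + 1) * D - 1) (h * ∏ j ∈ Finset.range n, g j ^ k j)

/-- `jac` for the block of the first `n` variables -/
noncomputable def jacP (n D : ℕ) (g : ℕ → MP) : MP :=
  (Matrix.of fun i j : Fin n => MvPolynomial.pderiv (j : ℕ) (MvPolynomial.X (i : ℕ) ^ D - g i)).det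

/-- `elim` for the block of the first `n` variables -/
noncomputable def elimP (n D M K : ℕ) (g : ℕ → MP) (j₀ : ℕ) : UP :=
  Polynomial.reflect M (ofPS M fun i => (-1) ^ i * rhoP n D K g (MvPolynomial.X j₀ ^ i * jacP n D g))

/-! ## Rational approximation of the sign function -/

/-- Newman's product -/
noncomputable def nwP {R : Type} [CommRing R] (L M : ℕ) (u : R) : R :=
  (∏ k ∈ Finset.range (2 * L + 1), (2 ^ L * u + 2 ^ k)) ^ (2 * M)

/-- close to `1` on `[2 ^ -L, 2 ^ L]`, close to `0` on `[-2 ^ L, -2 ^ -L]` -/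
noncomputable def nwInd (L M : ℕ) (u : ℝ) : ℝ := nwP L M u / (nwP L M u + nwP L M (-u))

/-- close to the indicator of `0 < u` when `u = 0` or `2 ^ -L ≤ |u| ≤ 2 ^ L` -/
noncomputable def posInd (L M : ℕ) (u : ℝ) : ℝ := nwInd (L + 1) M (u - (2 ^ (L + 1))⁻¹)

end Crest.Agent.R316
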