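import Crest.Agent.R316.DelinAux

/-!
Row 316: delineation. The truth of a condition on tuples of real roots of `lead V x` is locally
constant on the strata where the degree of one auxiliary polynomial is constant.

Let `v l = toU (V.coeff l)`, `c l d = (v l).coeff d`, and let
`F l d = X ^ d + ∑_{k < d} C (c l k * c l d ^ (d - 1 - k)) X ^ k` (monic of degree `d`; if `v l (x)` has
degree `d`, its roots are those of `F l d (x)` divided by `c l d (x)`).
`Pi` is the product over `l, d ≤ B` of `1 + C (c l d) X`, of `tupProd 2 (F l d) d (X 0 - X 1)` and of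
`tupProd s (F l d) d (hom l d τ)`, `τ < T`, where `hom l d τ (β, x) = c ^ K * P τ (β / c, x)`
(`CHP.linear`, `K ≥ totalDegree (P τ)`).
By `eventually_natDegree_eq_of_prod` all factors have locally constant degree on the stratum, so the
same `c l d` vanish, hence `l`, `d` with `lead V x = v l (x)` of degree `d` are locally constant.
Argue by contradiction with sequences (`Filter.frequently_iff_seq_frequently` or
`exists_seq_forall_of_frequently`), `exists_subseq_roots`, `eventually_zero_iff`,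
`eventually_im_eq_zero_iff`, `natDegree_prod_one_add`.
-/

set_option autoImplicit false

namespace Crest.Agent.R316

open Crest.Agent.Lib.PT MvPolynomial Filter Topology

theorem delin_root_iff {v : UP} {d : ℕ} {x : ℕ → ℝ} (hd : (ev x v).natDegree = d)
    (hc : aeval x (v.coeff d) ≠ 0) {β : Fin d → ℂ}
    (hβ : ev (fun i => (x i : ℂ)) (delinF v d) = ∏ j, (Polynomial.X - Polynomial.C (β j)))
    (y : ℝ) : (ev x v).IsRoot y ↔ ∃ j, β j = ((aeval x (v.coeff d) * y : ℝ) : ℂ) := by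
  have h1 := delin_eval_F x v d hd y
  have h2 := delin_eval_complex (delinF v d) x (aeval x (v.coeff d) * y)
  rw [hβ, Polynomial.eval_prod] at h2
  simp only [Polynomial.eval_sub, Polynomial.eval_X, Polynomial.eval_C] at h2
  have h3 : (ev x v).IsRoot y ↔ (ev x (delinF v d)).eval (aeval x (v.coeff d) * y) = 0 := by
    rw [Polynomial.IsRoot.def]
    constructor
    · intro h
      rw [h, mul_zero] at h1
      exact (mul_eq_zero.1 h1).resolve_left hc
    · intro h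
      rw [h, mul_zero] at h1
      exact (mul_eq_zero.1 h1.symm).resolve_left (pow_ne_zero _ hc)
  rw [h3, ← Complex.ofReal_eq_zero, ← h2, Finset.prod_eq_zero_iff]
  simp only [Finset.mem_univ, true_and, sub_eq_zero]
  exact exists_congr fun j => eq_comm

theorem delin_exists_iff {v : UP} {d s : ℕ} {x : ℕ → ℝ} (hd : (ev x v).natDegree = d)
    (hc : aeval x (v.coeff d) ≠ 0) {β : Fin d → ℂ}
    (hβ : ev (fun i => (x i : ℂ)) (delinF v d) = ∏ j, (Polynomial.X - Polynomial.C (β j)))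
    (Q : (Fin s → ℝ) → Prop) :
    (∃ y : Fin s → ℝ, (∀ j, (ev x v).IsRoot (y j)) ∧ Q y) ↔
      ∃ ι : Fin s → Fin d, (∀ j, (β (ι j)).im = 0) ∧
        Q (fun j => (β (ι j)).re / aeval x (v.coeff d)) := by
  constructor
  · rintro ⟨y, hy, hQ⟩
    choose ι hι using fun j => (delin_root_iff hd hc hβ (y j)).1 (hy j)
    refine ⟨ι, fun j => by rw [hι, Complex.ofReal_im], ?_⟩
    convert hQ with j
    rw [hι, Complex.ofReal_re, mul_div_cancel_left₀ _ hc]
  · rintro ⟨ι, hι, hQ⟩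
    refine ⟨_, fun j => (delin_root_iff hd hc hβ _).2 ⟨ι j, ?_⟩, hQ⟩
    rw [mul_div_cancel₀ _ hc]
    exact Complex.ext (by simp) (by simp [hι j])

open Classical in
theorem delin_dg_tupProd {F : UP} {d n : ℕ} {x : ℕ → ℝ} {β : Fin d → ℂ}
    (hβ : ev (fun i => (x i : ℂ)) F = ∏ j, (Polynomial.X - Polynomial.C (β j))) (W : MP) :
    dg (tupProd n (fun _ => F) (fun _ => d) W) x =
      (Finset.univ.filter fun ι : Fin n → Fin d =>
        aeval (app (fun i => β (ι i)) fun i => (x i : ℂ)) W ≠ 0).card := by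
  rw [← delin_dg_complex, ev_tupProd (β := fun _ => β) (fun _ => hβ), natDegree_prod_one_add]

theorem delin_eventually_zero {F : UP} {d n : ℕ} {x : ℕ → ℕ → ℝ} {x₀ : ℕ → ℝ}
    {β : ℕ → Fin d → ℂ} {β₀ : Fin d → ℂ} (hx : Tendsto x atTop (𝓝 x₀))
    (hl : Tendsto β atTop (𝓝 β₀))
    (hβ : ∀ m, ev (fun i => (x m i : ℂ)) F = ∏ j, (Polynomial.X - Polynomial.C (β m j)))
    (hβ₀ : ev (fun i => (x₀ i : ℂ)) F = ∏ j, (Polynomial.X - Polynomial.C (β₀ j))) (W : MP)
    (h : ∀ m, dg (tupProd n (fun _ => F) (fun _ => d) W) (x m) =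
      dg (tupProd n (fun _ => F) (fun _ => d) W) x₀) :
    ∀ᶠ m in atTop, ∀ ι : Fin n → Fin d,
      aeval (app (fun i => β m (ι i)) fun i => (x m i : ℂ)) W = 0 ↔
        aeval (app (fun i => β₀ (ι i)) fun i => (x₀ i : ℂ)) W = 0 := by
  refine eventually_zero_iff
    (γ := fun m (ι : Fin n → Fin d) => aeval (app (fun i => β m (ι i)) fun i => (x m i : ℂ)) W)
    (γ₀ := fun ι : Fin n → Fin d => aeval (app (fun i => β₀ (ι i)) fun i => (x₀ i : ℂ)) W)
    (tendsto_pi_nhds.2 fun ι => ?_) fun m => ?_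
  · refine ((delin_continuous_aeval W).tendsto _).comp (delin_tendsto_app ?_ ?_)
    · exact tendsto_pi_nhds.2 fun i => tendsto_pi_nhds.1 hl _
    · exact tendsto_pi_nhds.2 fun i =>
        (Complex.continuous_ofReal.tendsto _).comp (tendsto_pi_nhds.1 hx i)
  · have := h m
    rw [delin_dg_tupProd (hβ m), delin_dg_tupProd hβ₀] at this
    convert this

theorem delin_hom_zero_iff {s K : ℕ} {c W : MP} (hK : W.totalDegree ≤ K) {β : Fin s → ℂ}
    (hβ : ∀ j, (β j).im = 0) {x : ℕ → ℝ} (hc : aeval x c ≠ 0) :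
    aeval (app β fun i => (x i : ℂ)) (delinHom s K c W) = 0 ↔
      aeval (app (fun j => (β j).re / aeval x c) x) W = 0 := by
  have hc' : aeval (fun i => (x i : ℂ)) c ≠ 0 := by
    rw [← ofReal_aeval]
    exact Complex.ofReal_ne_zero.2 hc
  rw [delin_aeval_hom hK _ _ hc', mul_eq_zero, or_iff_right (pow_ne_zero _ hc'),
    ← Complex.ofReal_eq_zero, ofReal_aeval, map_app (fun t : ℝ => (t : ℂ))]
  have : (fun j => β j / aeval (fun i => (x i : ℂ)) c) =
      fun j => (((β j).re / aeval x c : ℝ) : ℂ) := by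
    funext j
    rw [Complex.ofReal_div, ofReal_aeval]
    congr 1
    exact Complex.ext (by simp) (by simp [hβ j])
  rw [this]

theorem delin_core {v : UP} {d s T : ℕ} {P : ℕ → MP} {K : ℕ → ℕ}
    (hK : ∀ τ, (P τ).totalDegree ≤ K τ) (Ψ : List Bool → Prop) {x : ℕ → ℕ → ℝ} {x₀ : ℕ → ℝ}
    (hx : Tendsto x atTop (𝓝 x₀)) (hd : ∀ m, (ev (x m) v).natDegree = d)
    (hd₀ : (ev x₀ v).natDegree = d) (hc : ∀ m, aeval (x m) (v.coeff d) ≠ 0)
    (hc₀ : aeval x₀ (v.coeff d) ≠ 0)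
    (hD : ∀ m, dg (tupProd 2 (fun _ => delinF v d) (fun _ => d) (X 0 - X 1)) (x m) =
      dg (tupProd 2 (fun _ => delinF v d) (fun _ => d) (X 0 - X 1)) x₀)
    (hH : ∀ m, ∀ τ < T,
      dg (tupProd s (fun _ => delinF v d) (fun _ => d) (delinHom s (K τ) (v.coeff d) (P τ))) (x m) =
      dg (tupProd s (fun _ => delinF v d) (fun _ => d) (delinHom s (K τ) (v.coeff d) (P τ))) x₀) :
    ∃ m, ((∃ y : Fin s → ℝ, (∀ j, (ev (x m) v).IsRoot (y j)) ∧ Ψ (bits T P (app y (x m)))) ↔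
      ∃ y : Fin s → ℝ, (∀ j, (ev x₀ v).IsRoot (y j)) ∧ Ψ (bits T P (app y x₀))) := by
  have hxc : Tendsto (fun m i => (x m i : ℂ)) atTop (𝓝 fun i => (x₀ i : ℂ)) :=
    tendsto_pi_nhds.2 fun i => (Complex.continuous_ofReal.tendsto _).comp (tendsto_pi_nhds.1 hx i)
  obtain ⟨φ, β, β₀, hφ, hβ, hβ₀, hl⟩ := exists_subseq_roots (d := d)
    (fun m => ev (fun i => (x m i : ℂ)) (delinF v d)) (ev (fun i => (x₀ i : ℂ)) (delinF v d))
    (fun m => delin_monic _ v d) (fun k => by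
      simp only [ev_coeff]
      exact ((delin_continuous_aeval _).tendsto _).comp hxc)
  have hx' : Tendsto (fun m => x (φ m)) atTop (𝓝 x₀) := hx.comp hφ.tendsto_atTop
  have h1 : ∀ᶠ m in atTop, ∀ i j, β m i = β m j ↔ β₀ i = β₀ j := by
    filter_upwards [delin_eventually_zero hx' hl hβ hβ₀ _ fun m => hD (φ m)] with m hm i j
    have := hm ![i, j]
    simp only [map_sub, aeval_X, sub_eq_zero] at this
    exact this
  have h2 : ∀ᶠ m in atTop, ∀ i, (β m i).im = 0 ↔ (β₀ i).im = 0 := by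
    refine eventually_im_eq_zero_iff hl h1 fun m i => ?_
    have e1 : (ev (fun i => (x (φ m) i : ℂ)) (delinF v d)).eval (β m i) = 0 := by
      rw [hβ m, Polynomial.eval_prod]
      exact Finset.prod_eq_zero (Finset.mem_univ i) (by simp)
    have e2 := delin_eval_conj (delinF v d) (x (φ m)) (β m i)
    rw [e1, map_zero, hβ m, Polynomial.eval_prod, Finset.prod_eq_zero_iff] at e2
    obtain ⟨j, -, hj⟩ := e2
    simp only [Polynomial.eval_sub, Polynomial.eval_X, Polynomial.eval_C, sub_eq_zero] at hj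
    exact ⟨j, hj.symm⟩
  have h3 : ∀ᶠ m in atTop, ∀ τ ∈ Finset.range T, ∀ ι : Fin s → Fin d,
      aeval (app (fun i => β m (ι i)) fun i => (x (φ m) i : ℂ))
          (delinHom s (K τ) (v.coeff d) (P τ)) = 0 ↔
        aeval (app (fun i => β₀ (ι i)) fun i => (x₀ i : ℂ))
          (delinHom s (K τ) (v.coeff d) (P τ)) = 0 :=
    (eventually_all_finset _).2 fun τ hτ =>
      delin_eventually_zero hx' hl hβ hβ₀ _ fun m => hH (φ m) τ (Finset.mem_range.1 hτ)
  have hlim : ∀ (τ : ℕ) (ι : Fin s → Fin d), Tendsto (fun m =>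
      aeval (app (fun j => (β m (ι j)).re / aeval (x (φ m)) (v.coeff d)) (x (φ m))) (P τ)) atTop
      (𝓝 (aeval (app (fun j => (β₀ (ι j)).re / aeval x₀ (v.coeff d)) x₀) (P τ))) := by
    intro τ ι
    refine ((delin_continuous_aeval (P τ)).tendsto _).comp (delin_tendsto_app ?_ hx')
    refine tendsto_pi_nhds.2 fun j => Tendsto.div ?_ ?_ hc₀
    · exact (Complex.continuous_re.tendsto _).comp (tendsto_pi_nhds.1 hl _)
    · exact ((delin_continuous_aeval _).tendsto _).comp hx'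
  have h4 : ∀ᶠ m in atTop, ∀ τ ∈ Finset.range T, ∀ ι : Fin s → Fin d,
      aeval (app (fun j => (β₀ (ι j)).re / aeval x₀ (v.coeff d)) x₀) (P τ) ≠ 0 →
      (0 < aeval (app (fun j => (β m (ι j)).re / aeval (x (φ m)) (v.coeff d)) (x (φ m))) (P τ) ↔
        0 < aeval (app (fun j => (β₀ (ι j)).re / aeval x₀ (v.coeff d)) x₀) (P τ)) := by
    refine (eventually_all_finset _).2 fun τ _ => eventually_all.2 fun ι => ?_
    rcases lt_trichotomy (aeval (app (fun j => (β₀ (ι j)).re / aeval x₀ (v.coeff d)) x₀) (P τ)) 0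
      with h | h | h
    · filter_upwards [(hlim τ ι).eventually (gt_mem_nhds h)] with m hm _
      exact iff_of_false (not_lt.2 hm.le) (not_lt.2 h.le)
    · exact Eventually.of_forall fun m hm => absurd h hm
    · filter_upwards [(hlim τ ι).eventually (lt_mem_nhds h)] with m hm _
      exact iff_of_true hm h
  obtain ⟨m, h2, h3, h4⟩ := (h2.and (h3.and h4)).exists
  refine ⟨φ m, ?_⟩
  rw [delin_exists_iff (hd _) (hc _) (hβ m) (fun y => Ψ (bits T P (app y (x (φ m))))),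
    delin_exists_iff hd₀ hc₀ hβ₀ (fun y => Ψ (bits T P (app y x₀)))]
  refine exists_congr fun ι => ?_
  have e1 : (∀ j, (β m (ι j)).im = 0) ↔ ∀ j, (β₀ (ι j)).im = 0 := forall_congr' fun j => h2 _
  rw [e1]
  refine and_congr_right fun hr => ?_
  have e2 : bits T P (app (fun j => (β m (ι j)).re / aeval (x (φ m)) (v.coeff d)) (x (φ m))) =
      bits T P (app (fun j => (β₀ (ι j)).re / aeval x₀ (v.coeff d)) x₀) := by
    unfold bits
    refine List.map_congr_left fun τ hτ => ?_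
    have hτ' : τ ∈ Finset.range T := Finset.mem_range.2 (List.mem_range.1 hτ)
    rw [decide_eq_decide]
    by_cases h0 : aeval (app (fun j => (β₀ (ι j)).re / aeval x₀ (v.coeff d)) x₀) (P τ) = 0
    · have h5 := (h3 τ hτ' ι).2 ((delin_hom_zero_iff (hK τ) hr hc₀).2 h0)
      rw [delin_hom_zero_iff (hK τ) (e1.2 hr) (hc _)] at h5
      rw [h5, h0]
    · exact h4 τ hτ' ι h0
  rw [e2]

theorem delin_natDegree_congr {R : Type} [Semiring R] {p q : Polynomial R}
    (h : ∀ k, p.coeff k = 0 ↔ q.coeff k = 0) : p.natDegree = q.natDegree := by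
  have : p.support = q.support := by
    ext k
    simp only [Polynomial.mem_support_iff, ne_eq, h]
  unfold Polynomial.natDegree Polynomial.degree
  rw [this]

theorem delin_lead_eq (V : UP) (x : ℕ → ℝ) :
    lead V x = ev x (toU (V.coeff (V.map (tx x).toRingHom).natDegree)) := by
  rw [ev_toU, lead, Polynomial.leadingCoeff, Polynomial.coeff_map]
  rfl

theorem delin_dg_lin (c : MP) (x : ℕ → ℝ) :
    dg (1 + Polynomial.C c * Polynomial.X) x = if aeval x c = 0 then 0 else 1 := by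
  rw [dg, ev_add, ev_one, ev_mul, ev_C, ev_X]
  split_ifs with h
  · simp [h]
  · rw [add_comm, ← Polynomial.C_1, Polynomial.natDegree_linear h]

/-- the auxiliary polynomial -/
noncomputable def delinPi (s T B : ℕ) (B' K : ℕ → ℕ) (V : UP) (P : ℕ → MP) : UP :=
  ∏ l ∈ Finset.range (B + 1), ∏ d ∈ Finset.range (B' l + 1),
    ((1 + Polynomial.C ((toU (V.coeff l)).coeff d) * Polynomial.X) *
      tupProd 2 (fun _ => delinF (toU (V.coeff l)) d) (fun _ => d) (X 0 - X 1) *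
      ∏ τ ∈ Finset.range T, tupProd s (fun _ => delinF (toU (V.coeff l)) d) (fun _ => d)
        (delinHom s (K τ) ((toU (V.coeff l)).coeff d) (P τ)))

theorem delinPi_coeff_zero (s T B : ℕ) (B' K : ℕ → ℕ) (V : UP) (P : ℕ → MP) :
    (delinPi s T B B' K V P).coeff 0 = 1 := by
  simp [delinPi, Polynomial.coeff_zero_prod, Polynomial.mul_coeff_zero, tupProd_coeff_zero]

theorem delin_main {s T B : ℕ} {B' K : ℕ → ℕ} {V : UP} {P : ℕ → MP} (h1 : V.coeff 0 = 1)
    (hB : V.natDegree ≤ B) (hB' : ∀ l, (toU (V.coeff l)).natDegree ≤ B' l)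
    (hK : ∀ τ, (P τ).totalDegree ≤ K τ) (r : ℕ) (Ψ : List Bool → Prop) (x₀ : Fin r → ℝ) :
    ∀ᶠ x in 𝓝 x₀,
      dg (delinPi s T B B' K V P) (app x 0) = dg (delinPi s T B B' K V P) (app x₀ 0) →
        ((∃ y : Fin s → ℝ, (∀ j, (lead V (app x 0)).IsRoot (y j)) ∧
            Ψ (bits T P (app y (app x 0)))) ↔
          ∃ y : Fin s → ℝ, (∀ j, (lead V (app x₀ 0)).IsRoot (y j)) ∧
            Ψ (bits T P (app y (app x₀ 0)))) := by
  set Pi := delinPi s T B B' K V P with hPi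
  have hP0 : Pi.coeff 0 = 1 := delinPi_coeff_zero s T B B' K V P
  have hdvd : ∀ l ≤ B, ∀ d ≤ B' l,
      ((1 + Polynomial.C ((toU (V.coeff l)).coeff d) * Polynomial.X) *
        tupProd 2 (fun _ => delinF (toU (V.coeff l)) d) (fun _ => d) (X 0 - X 1) *
        ∏ τ ∈ Finset.range T, tupProd s (fun _ => delinF (toU (V.coeff l)) d) (fun _ => d)
          (delinHom s (K τ) ((toU (V.coeff l)).coeff d) (P τ))) ∣ Pi := by
    intro l hl d hd
    rw [hPi, delinPi]
    refine dvd_trans ?_ (Finset.dvd_prod_of_mem _ (Finset.mem_range.2 (Nat.lt_succ_of_le hl)))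
    exact Finset.dvd_prod_of_mem (fun d =>
      (1 + Polynomial.C ((toU (V.coeff l)).coeff d) * Polynomial.X) *
        tupProd 2 (fun _ => delinF (toU (V.coeff l)) d) (fun _ => d) (X 0 - X 1) *
        ∏ τ ∈ Finset.range T, tupProd s (fun _ => delinF (toU (V.coeff l)) d) (fun _ => d)
          (delinHom s (K τ) ((toU (V.coeff l)).coeff d) (P τ)))
      (Finset.mem_range.2 (Nat.lt_succ_of_le hd))
  set l₀ := (V.map (tx (app x₀ (0 : ℕ → ℝ))).toRingHom).natDegree with hl₀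
  set v := toU (V.coeff l₀) with hv
  set d₀ := (ev (app x₀ (0 : ℕ → ℝ)) v).natDegree with hd₀
  have hl₀B : l₀ ≤ B := Polynomial.natDegree_map_le.trans hB
  have hd₀B : d₀ ≤ B' l₀ := Polynomial.natDegree_map_le.trans (hB' l₀)
  have hlead₀ : lead V (app x₀ (0 : ℕ → ℝ)) = ev (app x₀ 0) v := delin_lead_eq _ _
  have hc₀ : aeval (app x₀ (0 : ℕ → ℝ)) (v.coeff d₀) ≠ 0 := by
    rw [← ev_coeff]
    refine Polynomial.leadingCoeff_ne_zero.2 ?_
    rw [← hlead₀]
    exact lead_ne_zero h1 _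
  have E1 : ∀ᶠ x in 𝓝 x₀, ∀ l ∈ Finset.range (B + 1), ∀ d ∈ Finset.range (B' l + 1),
      dg Pi (app x 0) = dg Pi (app x₀ 0) →
        (aeval (app x (0 : ℕ → ℝ)) ((toU (V.coeff l)).coeff d) = 0 ↔
          aeval (app x₀ (0 : ℕ → ℝ)) ((toU (V.coeff l)).coeff d) = 0) := by
    refine (eventually_all_finset _).2 fun l hl => (eventually_all_finset _).2 fun d hd => ?_
    filter_upwards [delin_eventually_dvd (((dvd_mul_right _ _).trans (dvd_mul_right _ _)).trans
      (hdvd l (Nat.le_of_lt_succ (Finset.mem_range.1 hl)) d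
        (Nat.le_of_lt_succ (Finset.mem_range.1 hd)))) hP0 x₀] with x hx h
    have := hx h
    rw [delin_dg_lin, delin_dg_lin] at this
    split_ifs at this <;> simp_all
  have E2 := delin_eventually_dvd (((dvd_mul_left _ _).trans (dvd_mul_right _ _)).trans
      (hdvd l₀ hl₀B d₀ hd₀B)) hP0 x₀
  have E3 : ∀ᶠ x in 𝓝 x₀, ∀ τ ∈ Finset.range T, dg Pi (app x 0) = dg Pi (app x₀ 0) →
      dg (tupProd s (fun _ => delinF v d₀) (fun _ => d₀) (delinHom s (K τ) (v.coeff d₀) (P τ)))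
        (app x 0) =
      dg (tupProd s (fun _ => delinF v d₀) (fun _ => d₀) (delinHom s (K τ) (v.coeff d₀) (P τ)))
        (app x₀ 0) :=
    (eventually_all_finset _).2 fun τ hτ => delin_eventually_dvd
      (((Finset.dvd_prod_of_mem _ hτ).trans (dvd_mul_left _ _)).trans (hdvd l₀ hl₀B d₀ hd₀B)) hP0 x₀
  have E4 : ∀ᶠ x in 𝓝 x₀, dg Pi (app x 0) = dg Pi (app x₀ 0) →
      lead V (app x (0 : ℕ → ℝ)) = ev (app x 0) v ∧ (ev (app x (0 : ℕ → ℝ)) v).natDegree = d₀ ∧
        aeval (app x (0 : ℕ → ℝ)) (v.coeff d₀) ≠ 0 := by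
    filter_upwards [E1] with x hx h
    have h2 : ∀ l d, aeval (app x (0 : ℕ → ℝ)) ((toU (V.coeff l)).coeff d) = 0 ↔
        aeval (app x₀ (0 : ℕ → ℝ)) ((toU (V.coeff l)).coeff d) = 0 := by
      intro l d
      by_cases hl : l ≤ B
      · by_cases hd : d ≤ B' l
        · exact hx l (Finset.mem_range.2 (Nat.lt_succ_of_le hl)) d
            (Finset.mem_range.2 (Nat.lt_succ_of_le hd)) h
        · rw [Polynomial.coeff_eq_zero_of_natDegree_lt ((hB' l).trans_lt (not_le.1 hd))]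
          simp
      · rw [Polynomial.coeff_eq_zero_of_natDegree_lt (hB.trans_lt (not_le.1 hl))]
        simp
    have h3 : (V.map (tx (app x (0 : ℕ → ℝ))).toRingHom).natDegree = l₀ := by
      refine delin_natDegree_congr fun l => ?_
      rw [Polynomial.coeff_map, Polynomial.coeff_map]
      change tx _ (V.coeff l) = 0 ↔ tx _ (V.coeff l) = 0
      rw [← ev_toU, ← ev_toU, Polynomial.ext_iff, Polynomial.ext_iff]
      simp only [ev_coeff, Polynomial.coeff_zero, h2]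
    refine ⟨by rw [delin_lead_eq, h3], delin_natDegree_congr fun d => ?_, fun h0 => hc₀ ?_⟩
    · rw [ev_coeff, ev_coeff]
      exact h2 _ _
    · exact (h2 _ _).1 h0
  by_contra hcon
  rw [not_eventually] at hcon
  obtain ⟨x, hx, hp⟩ := exists_seq_forall_of_frequently
    (hcon.and_eventually (E2.and (E3.and E4)))
  have hst : ∀ m, dg Pi (app (x m) 0) = dg Pi (app x₀ 0) := fun m => by
    by_contra h
    exact (hp m).1 fun h' => absurd h' h
  obtain ⟨m, hm⟩ := delin_core (v := v) (d := d₀) (s := s) (T := T) hK Ψ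
    (x := fun m => app (x m) 0) (x₀ := app x₀ 0) (delin_tendsto_app hx tendsto_const_nhds)
    (fun m => ((hp m).2.2.2 (hst m)).2.1) rfl (fun m => ((hp m).2.2.2 (hst m)).2.2) hc₀
    (fun m => (hp m).2.1 (hst m)) (fun m τ hτ => (hp m).2.2.1 τ (Finset.mem_range.2 hτ) (hst m))
  refine (hp m).1 fun _ => ?_
  rw [((hp m).2.2.2 (hst m)).1, hlead₀]
  exact hm

theorem delin_chu_Pi {α : Type} [Enc α] {s T B : α → ℕ} {B' K : α × ℕ → ℕ} {V : α → UP}
    {P : α → ℕ → MP} (hs : CHF s) (hb : PB s) (hT : CHF T) (hB : CHF B) (hB' : CHF B')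
    (hK : CHF K) (hV : CHU V) (hP : CHP fun q : α × ℕ => P q.1 q.2) :
    CHU fun a => delinPi (s a) (T a) (B a) (fun l => B' (a, l)) (fun τ => K (a, τ)) (V a) (P a) := by
  have hv : CHU fun q : (α × ℕ) × ℕ => toU ((V q.1.1).coeff q.1.2) :=
    CHU.toU (CHP.coeffU (hV.comp CHF.id.fst.fst) CHF.id.fst.snd)
  have hc : CHP fun q : (α × ℕ) × ℕ => (toU ((V q.1.1).coeff q.1.2)).coeff q.2 :=
    CHP.coeffU hv CHF.id.snd
  have hF : CHU fun q : (α × ℕ) × ℕ => delinF (toU ((V q.1.1).coeff q.1.2)) q.2 :=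
    delin_chu_F hv CHF.id.snd
  have h1 : CHU fun q : (α × ℕ) × ℕ =>
      1 + Polynomial.C ((toU ((V q.1.1).coeff q.1.2)).coeff q.2) * Polynomial.X :=
    (CHU.const 1).add ((CHU.C hc).mul (CHU.const _))
  have h2 : CHU fun q : (α × ℕ) × ℕ => tupProd 2
      (fun _ => delinF (toU ((V q.1.1).coeff q.1.2)) q.2) (fun _ => q.2) (X 0 - X 1) :=
    CHU.tupProd (n := fun _ => 2)
      (F := fun (q : (α × ℕ) × ℕ) _ => delinF (toU ((V q.1.1).coeff q.1.2)) q.2)
      (d := fun (q : (α × ℕ) × ℕ) _ => q.2) (W := fun _ => X 0 - X 1) (CHF.const 2) (PB.const 2)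
      (hF.comp CHF.id.fst) CHF.id.fst.snd (CHP.const _)
  have h3 : CHP fun q : ((α × ℕ) × ℕ) × ℕ => delinHom (s q.1.1.1) (K (q.1.1.1, q.2))
      ((toU ((V q.1.1.1).coeff q.1.1.2)).coeff q.1.2) (P q.1.1.1 q.2) :=
    delin_chp_hom (hs.comp CHF.id.fst.fst.fst) (hb.comp PT.id.fst.fst.fst)
      (hK.comp (CHF.id.fst.fst.fst.pair CHF.id.snd)) (hc.comp CHF.id.fst)
      (hP.comp (CHF.id.fst.fst.fst.pair CHF.id.snd))
  have h4 : CHU fun q : ((α × ℕ) × ℕ) × ℕ => tupProd (s q.1.1.1)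
      (fun _ => delinF (toU ((V q.1.1.1).coeff q.1.1.2)) q.1.2) (fun _ => q.1.2)
      (delinHom (s q.1.1.1) (K (q.1.1.1, q.2))
        ((toU ((V q.1.1.1).coeff q.1.1.2)).coeff q.1.2) (P q.1.1.1 q.2)) :=
    CHU.tupProd (n := fun q : ((α × ℕ) × ℕ) × ℕ => s q.1.1.1)
      (F := fun (q : ((α × ℕ) × ℕ) × ℕ) _ => delinF (toU ((V q.1.1.1).coeff q.1.1.2)) q.1.2)
      (d := fun (q : ((α × ℕ) × ℕ) × ℕ) _ => q.1.2) (hs.comp CHF.id.fst.fst.fst)
      (hb.comp PT.id.fst.fst.fst) (hF.comp CHF.id.fst.fst) CHF.id.fst.fst.snd h3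
  have h5 : CHU fun q : (α × ℕ) × ℕ => ∏ τ ∈ Finset.range (T q.1.1), tupProd (s q.1.1)
      (fun _ => delinF (toU ((V q.1.1).coeff q.1.2)) q.2) (fun _ => q.2)
      (delinHom (s q.1.1) (K (q.1.1, τ))
        ((toU ((V q.1.1).coeff q.1.2)).coeff q.2) (P q.1.1 τ)) :=
    CHU.prod (N := fun q : (α × ℕ) × ℕ => T q.1.1) (hT.comp CHF.id.fst.fst) h4
  have h6 := CHU.prod (N := fun q : α × ℕ => B' q + 1)
    (F := fun (q : α × ℕ) d => (1 + Polynomial.C ((toU ((V q.1).coeff q.2)).coeff d) * Polynomial.X) *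
      tupProd 2 (fun _ => delinF (toU ((V q.1).coeff q.2)) d) (fun _ => d) (X 0 - X 1) *
      ∏ τ ∈ Finset.range (T q.1), tupProd (s q.1)
        (fun _ => delinF (toU ((V q.1).coeff q.2)) d) (fun _ => d)
        (delinHom (s q.1) (K (q.1, τ)) ((toU ((V q.1).coeff q.2)).coeff d) (P q.1 τ)))
    (hB'.add (CHF.const 1)) ((h1.mul h2).mul h5)
  exact CHU.prod (N := fun a => B a + 1) (hB.add (CHF.const 1)) h6

theorem exists_delin {α : Type} [Enc α] {s T : α → ℕ} {V : α → UP} {P : α → ℕ → MP} (hs : CHF s)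
    (hb : PB s) (hT : CHF T) (hV : CHU V) (h1 : ∀ a, (V a).coeff 0 = 1)
    (hP : CHP fun q : α × ℕ => P q.1 q.2) :
    ∃ Pi : α → UP, CHU Pi ∧ (∀ a, (Pi a).coeff 0 = 1) ∧
      ∀ a (r : ℕ) (Ψ : List Bool → Prop) (x₀ : Fin r → ℝ), ∀ᶠ x in 𝓝 x₀,
        dg (Pi a) (app x 0) = dg (Pi a) (app x₀ 0) →
          ((∃ y : Fin (s a) → ℝ, (∀ j, (lead (V a) (app x 0)).IsRoot (y j)) ∧
              Ψ (bits (T a) (P a) (app y (app x 0)))) ↔
            ∃ y : Fin (s a) → ℝ, (∀ j, (lead (V a) (app x₀ 0)).IsRoot (y j)) ∧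
              Ψ (bits (T a) (P a) (app y (app x₀ 0)))) := by
  obtain ⟨B, hB, hB1⟩ := hV.natDegree_le
  obtain ⟨B', hB', hB2⟩ := CHU.natDegree_le (F := fun q : α × ℕ => toU ((V q.1).coeff q.2))
    (CHU.toU (CHP.coeffU (hV.comp CHF.id.fst) CHF.id.snd))
  obtain ⟨K, hK, hK1⟩ := hP.totalDegree_le
  exact ⟨_, delin_chu_Pi hs hb hT hB hB' hK hV hP, fun a => delinPi_coeff_zero _ _ _ _ _ _ _,
    fun a r Ψ x₀ => delin_main (h1 a) (hB1 a) (fun l => hB2 (a, l)) (fun τ => hK1 (a, τ)) r Ψ x₀⟩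

end Crest.Agent.R316
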