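import Crest.Agent.R316.Newton

/-! Row 316: the topological lemmas (perturbation, semicontinuity, continuity of roots). -/

set_option autoImplicit false

namespace Crest.Agent.R316

open Filter Topology Polynomial

theorem perturb_hasDerivAt {n : ℕ} (P : MvPolynomial (Fin n) ℝ) (u : Fin n → ℝ) (j : Fin n) :
    HasDerivAt (fun t => MvPolynomial.eval (Function.update u j t) P)
      (MvPolynomial.eval u (MvPolynomial.pderiv j P)) (u j) := by
  induction P using MvPolynomial.induction_on with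
  | C a => simpa using hasDerivAt_const (u j) a
  | add p q hp hq =>
    simp only [map_add]
    exact hp.fun_add hq
  | mul_X p i hp =>
    have h1 : HasDerivAt (fun t => Function.update u j t i)
        (MvPolynomial.eval u (MvPolynomial.pderiv j (MvPolynomial.X i : MvPolynomial (Fin n) ℝ)))
        (u j) := by
      by_cases h : i = j
      · subst h
        simpa using hasDerivAt_id' (u i)
      · rw [MvPolynomial.pderiv_X_of_ne h]
        simpa [Function.update_of_ne h] using hasDerivAt_const (u j) (u i)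
    have h2 := hp.fun_mul h1
    simp only [Function.update_eq_self] at h2
    simp only [map_mul, MvPolynomial.eval_X]
    refine h2.congr_deriv ?_
    simp only [Derivation.leibniz, smul_eq_mul, map_add, map_mul, MvPolynomial.eval_X]
    ring

theorem perturb_compact {n E : ℕ} (hE : 1 ≤ E) (R : ℝ) :
    IsCompact {y : Fin n → ℝ | ∑ j, y j ^ (2 * E) ≤ R} := by
  refine Metric.isCompact_of_isClosed_isBounded (isClosed_le (by fun_prop) continuous_const) ?_
  refine (Metric.isBounded_closedBall (x := (0 : Fin n → ℝ)) (r := max 1 R)).subset fun y hy => ?_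
  rw [mem_closedBall_zero_iff, pi_norm_le_iff_of_nonneg (by positivity)]
  intro j
  have h1 : y j ^ (2 * E) ≤ R :=
    le_trans (Finset.single_le_sum (f := fun j => y j ^ (2 * E))
      (fun i _ => (even_two_mul E).pow_nonneg _) (Finset.mem_univ j)) hy
  rw [Real.norm_eq_abs]
  rcases le_total |y j| 1 with h | h
  · exact h.trans (le_max_left _ _)
  · refine le_trans ?_ (le_max_right _ _)
    rw [← (even_two_mul E).pow_abs] at h1
    exact (le_self_pow₀ h (by omega)).trans h1

/-- Let `Λ y = ∑ y j ^ (2 E)`, let `K ⊆ C` be the compact set of minimisers of `Λ` on `C`, and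
`N` a compact neighbourhood of `K` (`IsCompact.exists_cthickening_subset_open`) disjoint from the
other zeros of `Q`. Minimisers `u m` of `Q + ε m Λ` on `N` have a subsequence converging to a point
of `K`, hence are eventually interior, hence critical; `lam m = 1 / (2 E ε m)`. -/
theorem exists_crit_seq {n E : ℕ} (hE : 1 ≤ E) (Q : MvPolynomial (Fin n) ℝ)
    (hQ : ∀ y, 0 ≤ MvPolynomial.eval y Q) {C : Set (Fin n → ℝ)} (hC : C.Nonempty)
    (hCZ : ∀ y ∈ C, MvPolynomial.eval y Q = 0) (hcl : IsClosed C)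
    (hcl' : IsClosed ({y | MvPolynomial.eval y Q = 0} \ C)) :
    ∃ y ∈ C, ∃ (u : ℕ → Fin n → ℝ) (lam : ℕ → ℝ), Tendsto u atTop (𝓝 y) ∧
      Tendsto lam atTop atTop ∧
      ∀ m j, u m j ^ (2 * E - 1) = -lam m * MvPolynomial.eval (u m) (MvPolynomial.pderiv j Q) := by
  set Λ : (Fin n → ℝ) → ℝ := fun y => ∑ j, y j ^ (2 * E) with hΛ
  have hΛc : Continuous Λ := by fun_prop
  have hΛ0 : ∀ y, 0 ≤ Λ y := fun y =>
    Finset.sum_nonneg fun i _ => (even_two_mul E).pow_nonneg _
  have hQc : Continuous fun y : Fin n → ℝ => MvPolynomial.eval y Q := Q.continuous_eval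
  obtain ⟨c₀, hc₀⟩ := hC
  obtain ⟨z, ⟨hz1, hzC⟩, hz⟩ := ((perturb_compact hE (Λ c₀)).inter_right hcl).exists_isMinOn
    ⟨c₀, le_refl (Λ c₀), hc₀⟩ hΛc.continuousOn
  set K : Set (Fin n → ℝ) := {y | Λ y ≤ Λ z} ∩ C with hK
  have hKc : IsCompact K := (perturb_compact hE (Λ z)).inter_right hcl
  have hzK : z ∈ K := ⟨le_refl (Λ z), hzC⟩
  obtain ⟨δ, hδ, hN⟩ := hKc.exists_cthickening_subset_open hcl'.isOpen_compl
    (fun y hy h => h.2 hy.2)
  have hNc : IsCompact (Metric.cthickening δ K) := hKc.cthickening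
  have hzN : z ∈ Metric.cthickening δ K := Metric.self_subset_cthickening K hzK
  have hmin : ∀ m : ℕ, ∃ u ∈ Metric.cthickening δ K,
      IsMinOn (fun y => MvPolynomial.eval y Q + 1 / ((m : ℝ) + 1) * Λ y)
        (Metric.cthickening δ K) u := fun m =>
    hNc.exists_isMinOn ⟨z, hzN⟩ (hQc.add (continuous_const.mul hΛc)).continuousOn
  choose u huN hu using hmin
  obtain ⟨y, hyN, φ, hφ, hy⟩ := hNc.tendsto_subseq huN
  have hle : ∀ m, MvPolynomial.eval (u m) Q + 1 / ((m : ℝ) + 1) * Λ (u m)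
      ≤ 1 / ((m : ℝ) + 1) * Λ z := fun m => by
    have := hu m hzN
    simpa [hCZ z hzC] using this
  have hΛu : ∀ m, Λ (u m) ≤ Λ z := fun m => by
    have h1 := hle m
    have h2 := hQ (u m)
    have h3 : (0 : ℝ) < 1 / ((m : ℝ) + 1) := by positivity
    exact le_of_mul_le_mul_left (by linarith) h3
  have hQu : ∀ m, MvPolynomial.eval (u m) Q ≤ 1 / ((m : ℝ) + 1) * Λ z := fun m => by
    have h1 := hle m
    have h3 : 0 ≤ 1 / ((m : ℝ) + 1) * Λ (u m) := mul_nonneg (by positivity) (hΛ0 _)
    linarith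
  have hy0 : MvPolynomial.eval y Q = 0 := by
    refine le_antisymm ?_ (hQ y)
    have h1 : Tendsto (fun m : ℕ => 1 / ((φ m : ℝ) + 1) * Λ z) atTop (𝓝 (0 * Λ z)) :=
      (tendsto_one_div_add_atTop_nhds_zero_nat.comp hφ.tendsto_atTop).mul_const _
    rw [zero_mul] at h1
    exact le_of_tendsto_of_tendsto' ((hQc.tendsto y).comp hy) h1 fun m => hQu (φ m)
  have hyC : y ∈ C := by
    by_contra h
    exact hN hyN ⟨hy0, h⟩
  have hyK : y ∈ K :=
    ⟨le_of_tendsto' ((hΛc.tendsto y).comp hy) fun m => hΛu (φ m), hyC⟩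
  have hev : ∀ᶠ m in atTop, u (φ m) ∈ Metric.thickening δ K :=
    hy.eventually (Metric.isOpen_thickening.mem_nhds (Metric.self_subset_thickening hδ K hyK))
  obtain ⟨M, hM⟩ := eventually_atTop.1 hev
  have hE' : (0 : ℝ) < 2 * E := by
    have : (1 : ℝ) ≤ E := by exact_mod_cast hE
    linarith
  refine ⟨y, hyC, fun m => u (φ (m + M)), fun m => ((φ (m + M) : ℝ) + 1) / (2 * E),
    hy.comp (tendsto_add_atTop_nat M), ?_, fun m j => ?_⟩
  · refine Tendsto.atTop_div_const hE' (tendsto_atTop_add_const_right _ _ ?_)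
    exact tendsto_natCast_atTop_atTop.comp (hφ.tendsto_atTop.comp (tendsto_add_atTop_nat M))
  · set k := φ (m + M)
    have hk : u k ∈ Metric.thickening δ K := hM (m + M) (by omega)
    have hloc : IsLocalMin (fun y => MvPolynomial.eval y Q + 1 / ((k : ℝ) + 1) * Λ y) (u k) :=
      (hu k).isLocalMin (mem_of_superset (Metric.isOpen_thickening.mem_nhds hk)
        (Metric.thickening_subset_cthickening δ K))
    set P : MvPolynomial (Fin n) ℝ :=
      Q + MvPolynomial.C (1 / ((k : ℝ) + 1)) * ∑ i, MvPolynomial.X i ^ (2 * E) with hP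
    have hPe : ∀ y, MvPolynomial.eval y P = MvPolynomial.eval y Q + 1 / ((k : ℝ) + 1) * Λ y := by
      intro y
      simp [hP, hΛ]
    have hloc' : IsLocalMin (fun t => MvPolynomial.eval (Function.update (u k) j t) P) (u k j) := by
      simp only [hPe]
      have h1 : IsLocalMin (fun y => MvPolynomial.eval y Q + 1 / ((k : ℝ) + 1) * Λ y)
          (Function.update (u k) j (u k j)) := by rwa [Function.update_eq_self]
      exact h1.comp_continuous (g := fun t => Function.update (u k) j t)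
        (continuous_const.update j continuous_id).continuousAt
    have hd := hloc'.hasDerivAt_eq_zero (perturb_hasDerivAt P (u k) j)
    have hpd : MvPolynomial.pderiv j (∑ i, MvPolynomial.X i ^ (2 * E) : MvPolynomial (Fin n) ℝ)
        = ((2 * E : ℕ) : MvPolynomial (Fin n) ℝ) * MvPolynomial.X j ^ (2 * E - 1) := by
      rw [map_sum, Finset.sum_eq_single j]
      · rw [MvPolynomial.pderiv_pow, MvPolynomial.pderiv_X_self, mul_one]
      · intro i _ hi
        rw [MvPolynomial.pderiv_pow, MvPolynomial.pderiv_X_of_ne hi, mul_zero]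
      · simp
    rw [hP, map_add, MvPolynomial.pderiv_C_mul, hpd] at hd
    simp only [map_add, map_mul, MvPolynomial.eval_C, map_pow, MvPolynomial.eval_X,
      map_natCast] at hd
    push_cast at hd
    have hk1 : (0 : ℝ) < (k : ℝ) + 1 := by positivity
    field_simp
    field_simp at hd
    linarith

/-- divide by the highest power of `lam` that occurs -/
theorem isRoot_top_coeff (u : ℕ → ℝ[X]) (B : ℕ) {lam t : ℕ → ℝ} {t₀ : ℝ}
    (ht : Tendsto t atTop (𝓝 t₀)) (hl : Tendsto lam atTop atTop)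
    (h0 : ∀ m, ∑ κ ∈ Finset.range (B + 1), lam m ^ κ * (u κ).eval (t m) = 0)
    (hne : ∃ κ ≤ B, u κ ≠ 0) : ∃ κ ≤ B, u κ ≠ 0 ∧ (u κ).IsRoot t₀ := by
  classical
  obtain ⟨κ₁, h1, h2⟩ := hne
  obtain ⟨κ₀, hκ₀, hmax⟩ := ((Finset.range (B + 1)).filter fun κ => u κ ≠ 0).exists_max_image id
    ⟨κ₁, Finset.mem_filter.2 ⟨Finset.mem_range.2 (by omega), h2⟩⟩
  obtain ⟨hr, hu⟩ := Finset.mem_filter.1 hκ₀
  refine ⟨κ₀, by have := Finset.mem_range.1 hr; omega, hu, ?_⟩
  have hev : ∀ κ, Tendsto (fun m => (u κ).eval (t m)) atTop (𝓝 ((u κ).eval t₀)) := fun κ =>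
    ((u κ).continuous.tendsto t₀).comp ht
  have hlim : Tendsto (fun m => ∑ κ ∈ Finset.range (B + 1),
      lam m ^ κ / lam m ^ κ₀ * (u κ).eval (t m)) atTop
      (𝓝 (∑ κ ∈ Finset.range (B + 1), if κ = κ₀ then (u κ₀).eval t₀ else 0)) := by
    refine tendsto_finsetSum _ fun κ hκ => ?_
    rcases lt_trichotomy κ κ₀ with h | h | h
    · rw [if_neg h.ne]
      have := ((tendsto_pow_div_pow_atTop_zero (𝕜 := ℝ) h).comp hl).mul (hev κ)
      rwa [zero_mul] at this
    · subst h
      rw [if_pos rfl]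
      refine (hev κ).congr' ?_
      filter_upwards [hl.eventually_gt_atTop 0] with m hm
      rw [div_self (by positivity), one_mul]
    · have : u κ = 0 := by
        by_contra h0
        have := hmax κ (Finset.mem_filter.2 ⟨hκ, h0⟩)
        simp only [id] at this
        omega
      simp [this, h.ne']
  have hz : ∀ m, ∑ κ ∈ Finset.range (B + 1), lam m ^ κ / lam m ^ κ₀ * (u κ).eval (t m) = 0 := by
    intro m
    simp only [div_mul_eq_mul_div]
    rw [← Finset.sum_div, h0, zero_div]
  simp only [hz, Finset.sum_ite_eq', hr, if_true] at hlim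
  exact (tendsto_nhds_unique tendsto_const_nhds hlim).symm

theorem eventually_natDegree_le {Y : Type} [TopologicalSpace Y] (F : Y → ℝ[X])
    (hF : ∀ k, Continuous fun y => (F y).coeff k) (y₀ : Y) :
    ∀ᶠ y in 𝓝 y₀, (F y₀).natDegree ≤ (F y).natDegree := by
  by_cases h : F y₀ = 0
  · simp [h]
  · have h1 : (F y₀).coeff (F y₀).natDegree ≠ 0 := leadingCoeff_ne_zero.2 h
    filter_upwards [(hF _).continuousAt.eventually_ne h1] with y hy
    exact le_natDegree_of_ne_zero hy

theorem eventually_natDegree_eq_of_prod {Y ι : Type} [TopologicalSpace Y] (s : Finset ι)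
    (F : ι → Y → ℝ[X]) (hF : ∀ i k, Continuous fun y => (F i y).coeff k) (h0 : ∀ i y, F i y ≠ 0)
    (y₀ : Y) : ∀ᶠ y in 𝓝 y₀, (∏ i ∈ s, F i y).natDegree = (∏ i ∈ s, F i y₀).natDegree →
      ∀ i ∈ s, (F i y).natDegree = (F i y₀).natDegree := by
  have h1 : ∀ᶠ y in 𝓝 y₀, ∀ i ∈ s, (F i y₀).natDegree ≤ (F i y).natDegree :=
    (eventually_all_finset s).2 fun i _ => eventually_natDegree_le (F i) (hF i) y₀
  filter_upwards [h1] with y hy h i hi
  rw [natDegree_prod _ _ fun i _ => h0 i y, natDegree_prod _ _ fun i _ => h0 i y₀] at h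
  exact ((Finset.sum_eq_sum_iff_of_le hy).1 h.symm i hi).symm

theorem continuous_aeval_app {n : ℕ} (x : ℕ → ℝ) (P : MP) :
    Continuous fun y : Fin n → ℝ => MvPolynomial.aeval (app y x) P := by
  have h : Continuous fun y : Fin n → ℝ => app y x := by
    refine continuous_pi fun i => ?_
    by_cases hi : i < n
    · simp only [app_lt _ _ hi]
      exact continuous_apply _
    · simp only [app_ge _ _ (not_lt.1 hi)]
      exact continuous_const
  have h2 := (MvPolynomial.map (algebraMap ℚ ℝ) P).continuous_eval.comp h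
  refine h2.congr fun y => ?_
  simp only [Function.comp, MvPolynomial.eval_map, MvPolynomial.aeval_def]

theorem continuous_coeff_ev_app {n : ℕ} (x : ℕ → ℝ) (F : UP) (k : ℕ) :
    Continuous fun y : Fin n → ℝ => (ev (app y x) F).coeff k := by
  simp only [ev, coeff_map]
  exact continuous_aeval_app x (F.coeff k)

theorem perturb_exists_roots {d : ℕ} (F : ℂ[X]) (hm : F.Monic) (hd : F.natDegree = d) :
    ∃ β : Fin d → ℂ, F = ∏ j, (X - C (β j)) := by
  have h1 := (IsAlgClosed.splits F).eq_prod_roots_of_monic hm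
  have h2 : F.roots.toList.length = d := by
    rw [Multiset.length_toList, IsAlgClosed.card_roots_eq_natDegree, hd]
  subst h2
  refine ⟨fun j => F.roots.toList[j.1], ?_⟩
  rw [Fin.prod_univ_fun_getElem F.roots.toList (fun a => X - C a), ← Multiset.prod_coe,
    ← Multiset.map_coe, Multiset.coe_toList]
  exact h1

theorem perturb_continuous_coeff {d : ℕ} (s : Finset (Fin d)) (k : ℕ) :
    Continuous fun β : Fin d → ℂ => (∏ j ∈ s, (X - C (β j))).coeff k := by
  induction s using Finset.induction_on generalizing k with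
  | empty => simpa using continuous_const
  | insert j s hj ih =>
    simp only [Finset.prod_insert hj, coeff_mul]
    refine continuous_finsetSum _ fun q _ => Continuous.mul ?_ (ih _)
    simp only [coeff_sub, coeff_C]
    refine continuous_const.sub ?_
    split_ifs
    · exact continuous_apply j
    · exact continuous_const

/-- enumerate the roots, bound them (`Polynomial.IsRoot.norm_lt_cauchyBound`), extract -/
theorem exists_subseq_roots {d : ℕ} (F : ℕ → ℂ[X]) (F₀ : ℂ[X])
    (hm : ∀ m, (F m).Monic ∧ (F m).natDegree = d)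
    (hc : ∀ k, Tendsto (fun m => (F m).coeff k) atTop (𝓝 (F₀.coeff k))) :
    ∃ (φ : ℕ → ℕ) (β : ℕ → Fin d → ℂ) (β₀ : Fin d → ℂ), StrictMono φ ∧
      (∀ m, F (φ m) = ∏ j, (X - C (β m j))) ∧ F₀ = ∏ j, (X - C (β₀ j)) ∧
      Tendsto β atTop (𝓝 β₀) := by
  choose β hβ using fun m => perturb_exists_roots (F m) (hm m).1 (hm m).2
  have hb : ∀ k, ∃ R : ℝ, ∀ m, ‖(F m).coeff k‖ ≤ R := fun k => by
    obtain ⟨R, hR⟩ := (Metric.isBounded_range_of_tendsto _ (hc k)).exists_norm_le
    exact ⟨R, fun m => hR _ ⟨m, rfl⟩⟩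
  choose R hR using hb
  have hR0 : ∀ k, 0 ≤ R k := fun k => (norm_nonneg _).trans (hR k 0)
  set S : ℝ := ∑ k ∈ Finset.range d, R k with hS
  have hS0 : 0 ≤ S := Finset.sum_nonneg fun k _ => hR0 k
  have hball : ∀ m, β m ∈ Metric.closedBall (0 : Fin d → ℂ) (S + 1) := by
    intro m
    rw [mem_closedBall_zero_iff, pi_norm_le_iff_of_nonneg (by positivity)]
    intro j
    have hroot : (F m).IsRoot (β m j) := by
      rw [hβ m, IsRoot.def, eval_prod]
      exact Finset.prod_eq_zero (Finset.mem_univ j) (by simp)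
    have h1 := hroot.norm_lt_cauchyBound (hm m).1.ne_zero
    have h2 : cauchyBound (F m) ≤ ⟨S, hS0⟩ + 1 := by
      unfold cauchyBound
      rw [(hm m).1.leadingCoeff, nnnorm_one, div_one, (hm m).2]
      refine add_le_add_left (Finset.sup_le fun k hk => ?_) 1
      have : ‖(F m).coeff k‖ ≤ S :=
        (hR k m).trans (Finset.single_le_sum (fun k _ => hR0 k) hk)
      exact this
    exact_mod_cast (h1.trans_le h2).le
  obtain ⟨β₀, -, φ, hφ, hlim⟩ := tendsto_subseq_of_bounded Metric.isBounded_closedBall hball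
  refine ⟨φ, β ∘ φ, β₀, hφ, fun m => hβ (φ m), ?_, hlim⟩
  ext k
  have h1 := (hc k).comp hφ.tendsto_atTop
  have h2 := ((perturb_continuous_coeff Finset.univ k).tendsto β₀).comp hlim
  refine tendsto_nhds_unique h1 (h2.congr fun m => ?_)
  simp only [Function.comp]
  rw [← hβ]

open Classical in
/-- if the number of nonzero terms does not jump, the same terms vanish -/
theorem eventually_zero_iff {ι : Type} [Fintype ι] {γ : ℕ → ι → ℂ} {γ₀ : ι → ℂ}
    (h : Tendsto γ atTop (𝓝 γ₀))
    (hc : ∀ m, (Finset.univ.filter fun i => γ m i ≠ 0).card =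
      (Finset.univ.filter fun i => γ₀ i ≠ 0).card) :
    ∀ᶠ m in atTop, ∀ i, γ m i = 0 ↔ γ₀ i = 0 := by
  have h1 : ∀ᶠ m in atTop, ∀ i, γ₀ i ≠ 0 → γ m i ≠ 0 := by
    refine eventually_all.2 fun i => ?_
    by_cases hi : γ₀ i = 0
    · simp [hi]
    · filter_upwards [(tendsto_pi_nhds.1 h i).eventually_ne hi] with m hm _ using hm
  filter_upwards [h1] with m hm i
  have h2 : (Finset.univ.filter fun i => γ₀ i ≠ 0) = Finset.univ.filter fun i => γ m i ≠ 0 := by
    refine Finset.eq_of_subset_of_card_le (fun i hi => ?_) (hc m).le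
    exact Finset.mem_filter.2 ⟨Finset.mem_univ _, hm i (Finset.mem_filter.1 hi).2⟩
  have h3 := Finset.ext_iff.1 h2 i
  simp only [Finset.mem_filter, Finset.mem_univ, true_and] at h3
  exact (not_iff_not.1 h3).symm

/-- if coincidences persist and the roots are stable under conjugation, real roots stay real -/
theorem eventually_im_eq_zero_iff {d : ℕ} {β : ℕ → Fin d → ℂ} {β₀ : Fin d → ℂ}
    (h : Tendsto β atTop (𝓝 β₀)) (heq : ∀ᶠ m in atTop, ∀ i j, β m i = β m j ↔ β₀ i = β₀ j)
    (hconj : ∀ m i, ∃ j, β m j = (starRingEnd ℂ) (β m i)) :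
    ∀ᶠ m in atTop, ∀ i, (β m i).im = 0 ↔ (β₀ i).im = 0 := by
  have hi := tendsto_pi_nhds.1 h
  have h1 : ∀ᶠ m in atTop, ∀ i, (β₀ i).im ≠ 0 → (β m i).im ≠ 0 := by
    refine eventually_all.2 fun i => ?_
    by_cases h0 : (β₀ i).im = 0
    · simp [h0]
    · filter_upwards [((Complex.continuous_im.tendsto _).comp (hi i)).eventually_ne h0]
        with m hm _ using hm
  have h2 : ∀ᶠ m in atTop, ∀ i j, β₀ j - (starRingEnd ℂ) (β₀ i) ≠ 0 →
      β m j - (starRingEnd ℂ) (β m i) ≠ 0 := by
    refine eventually_all.2 fun i => eventually_all.2 fun j => ?_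
    by_cases h0 : β₀ j - (starRingEnd ℂ) (β₀ i) = 0
    · simp [h0]
    · filter_upwards [((hi j).sub
        ((Complex.continuous_conj.tendsto _).comp (hi i))).eventually_ne h0] with m hm _ using hm
  filter_upwards [h1, h2, heq] with m h1 h2 h3 i
  refine ⟨fun h0 => by_contra fun h' => h1 i h' h0, fun h0 => ?_⟩
  obtain ⟨j, hj⟩ := hconj m i
  have h4 : β₀ j - (starRingEnd ℂ) (β₀ i) = 0 := by
    by_contra h'
    exact h2 i j h' (sub_eq_zero.2 hj)
  rw [Complex.conj_eq_iff_im.2 h0, sub_eq_zero] at h4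
  rw [← Complex.conj_eq_iff_im, ← hj]
  exact (h3 j i).2 h4

end Crest.Agent.R316
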