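import Crest.Agent.R316.Core

/-! Row 316: conjugation parity, Newman's approximation, Thom's lemma, hashing (no complexity). -/

set_option autoImplicit false

namespace Crest.Agent.R316

open Polynomial
open Classical in
theorem Real_card_eq {d : ℕ} (β : Fin d → ℂ) (t : ℂ) :
    (Finset.univ.filter fun j => β j = t).card =
      (∏ j, (X - C (β j)) : ℂ[X]).rootMultiplicity t := by
  have e : (∏ j, (X - C (β j)) : ℂ[X]) =
      ((Finset.univ.val.map β).map fun a => X - C a).prod := by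
    rw [Multiset.map_map]; rfl
  rw [← count_roots, e, roots_multiset_prod_X_sub_C, Multiset.count_map, Finset.card_def,
    Finset.filter_val]
  congr 1
  exact Multiset.filter_congr fun j _ => eq_comm


theorem exists_conj_perm {d : ℕ} {F : ℚ[X]} {β : Fin d → ℂ}
    (h : F.map (algebraMap ℚ ℂ) = ∏ j, (X - C (β j))) :
    ∃ σ : Equiv.Perm (Fin d), ∀ j, β (σ j) = (starRingEnd ℂ) (β j) := by
  classical
  have h2 : (∏ j, (X - C ((starRingEnd ℂ) (β j))) : ℂ[X]) = ∏ j, (X - C (β j)) := by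
    have h3 := congrArg (Polynomial.map (starRingEnd ℂ)) h
    rw [Polynomial.map_map, Polynomial.map_prod] at h3
    have h4 : (starRingEnd ℂ).comp (algebraMap ℚ ℂ) = algebraMap ℚ ℂ := Subsingleton.elim _ _
    rw [h4, h] at h3
    simpa using h3.symm
  have hc : ∀ t, Fintype.card {j // (starRingEnd ℂ) (β j) = t} = Fintype.card {j // β j = t} := by
    intro t
    rw [Fintype.card_subtype, Fintype.card_subtype, Real_card_eq, Real_card_eq, h2]
  exact ⟨Equiv.ofFiberEquiv fun t => Fintype.equivOfCardEq (hc t),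
    fun j => Equiv.ofFiberEquiv_map _ j⟩

theorem Real_mul_neg_iff {a b : ℝ} (hb : 0 < b) : a * b < 0 ↔ a < 0 :=
  ⟨fun h => neg_of_mul_neg_left h hb.le, fun h => mul_neg_of_neg_of_pos h hb⟩

open Classical in
theorem Real_prod_neg_iff {ι : Type} (s : Finset ι) (f : ι → ℝ) (hf : ∀ i ∈ s, f i ≠ 0) :
    ∏ i ∈ s, f i < 0 ↔ Odd (s.filter fun i => f i < 0).card := by
  rw [← Finset.prod_filter_mul_prod_filter_not s (fun i => f i < 0)]
  have h1 : 0 < ∏ i ∈ s.filter (fun i => ¬ f i < 0), f i := Finset.prod_pos fun i hi => by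
    rw [Finset.mem_filter] at hi
    exact lt_of_le_of_ne (not_lt.1 hi.2) (hf i hi.1).symm
  have h2 : 0 < ∏ i ∈ s.filter (fun i => f i < 0), -f i := Finset.prod_pos fun i hi => by
    rw [Finset.mem_filter] at hi
    exact neg_pos.2 hi.2
  rw [Real_mul_neg_iff h1]
  rw [Finset.prod_neg] at h2
  rcases Nat.even_or_odd (s.filter fun i => f i < 0).card with h | h
  · rw [h.neg_one_pow, one_mul] at h2
    exact iff_of_false h2.not_gt (Nat.not_odd_iff_even.2 h)
  · rw [h.neg_one_pow, neg_one_mul, neg_pos] at h2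
    exact iff_of_true h2 h

open Classical in
/-- Split the non-real points according to the sign of the imaginary part of their first non-real
coordinate; `σ` exchanges the two classes, whose products are conjugate. -/
theorem prod_neg_iff_odd {ι : Type} [Fintype ι] {n : ℕ} (p : ι → Fin n → ℂ) (γ : ι → ℂ)
    (σ : Equiv.Perm ι) (hp : ∀ i k, p (σ i) k = (starRingEnd ℂ) (p i k))
    (hγ : ∀ i, γ (σ i) = (starRingEnd ℂ) (γ i)) (hr : ∀ i, (∀ k, (p i k).im = 0) → (γ i).im = 0)
    {c : ℝ} (hc : (c : ℂ) = ∏ i ∈ Finset.univ.filter fun i => γ i ≠ 0, γ i) :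
    c < 0 ↔ Odd (Finset.univ.filter fun i => (∀ k, (p i k).im = 0) ∧ (γ i).re < 0).card := by
  obtain ⟨v, hv⟩ : ∃ v : ι → Fin n → ℝ, v = fun i k => (p i k).im := ⟨_, rfl⟩
  have hvσ : ∀ i, v (σ i) = -v i := fun i => by
    funext k; simp [hv, hp]
  have hv0 : ∀ i, (∀ k, (p i k).im = 0) ↔ toLex (v i) = toLex (-v i) := fun i => by
    rw [toLex_inj, funext_iff]
    refine forall_congr' fun k => ?_
    simp only [hv, Pi.neg_apply]
    constructor <;> intro h <;> linarith
  set S := Finset.univ.filter fun i => γ i ≠ 0 with hS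
  have hσS : ∀ i, σ i ∈ S ↔ i ∈ S := fun i => by simp [hS, hγ]
  rw [← Finset.prod_filter_mul_prod_filter_not S (fun i => toLex (v i) = toLex (-v i)),
    ← Finset.prod_filter_mul_prod_filter_not (S.filter fun i => ¬ toLex (v i) = toLex (-v i))
      (fun i => toLex (v i) < toLex (-v i))] at hc
  set A := ∏ i ∈ (S.filter fun i => ¬ toLex (v i) = toLex (-v i)).filter
    (fun i => toLex (v i) < toLex (-v i)), γ i with hA
  have hA0 : A ≠ 0 := Finset.prod_ne_zero_iff.2 fun i hi => by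
    simp only [hS, Finset.mem_filter] at hi
    exact hi.1.1.2
  have hB : ∏ i ∈ (S.filter fun i => ¬ toLex (v i) = toLex (-v i)).filter
      (fun i => ¬ toLex (v i) < toLex (-v i)), γ i = (starRingEnd ℂ) A := by
    rw [hA, map_prod]
    symm
    refine Finset.prod_equiv σ (fun i => ?_) (fun i _ => (hγ i).symm)
    simp only [Finset.mem_filter, hσS, hvσ, neg_neg]
    constructor
    · rintro ⟨⟨h1, h2⟩, h3⟩
      exact ⟨⟨h1, fun h => h2 h.symm⟩, h3.not_gt⟩
    · rintro ⟨⟨h1, h2⟩, h3⟩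
      exact ⟨⟨h1, fun h => h2 h.symm⟩, lt_of_le_of_ne (not_lt.1 h3) fun h => h2 h.symm⟩
  have hR : ∏ i ∈ S.filter (fun i => toLex (v i) = toLex (-v i)), γ i =
      ((∏ i ∈ S.filter (fun i => toLex (v i) = toLex (-v i)), (γ i).re : ℝ) : ℂ) := by
    rw [Complex.ofReal_prod]
    refine Finset.prod_congr rfl fun i hi => ?_
    have := hr i ((hv0 i).2 (Finset.mem_filter.1 hi).2)
    exact Complex.ext (by simp) (by simp [this])
  rw [hB, hR, Complex.mul_conj, ← Complex.ofReal_mul, Complex.ofReal_inj] at hc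
  have hN : 0 < Complex.normSq A := Complex.normSq_pos.2 hA0
  rw [hc, Real_mul_neg_iff hN, Real_prod_neg_iff]
  · congr! 2
    ext i
    simp only [hS, Finset.mem_filter, Finset.mem_univ, true_and, ← hv0]
    constructor
    · rintro ⟨⟨_, h2⟩, h3⟩
      exact ⟨h2, h3⟩
    · rintro ⟨h2, h3⟩
      refine ⟨⟨fun h => ?_, h2⟩, h3⟩
      rw [h] at h3
      simp at h3
  · intro i hi h
    simp only [hS, Finset.mem_filter, Finset.mem_univ, true_and, ← hv0] at hi
    exact hi.1 (Complex.ext h (hr i hi.2))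
theorem Real_nwP_nonneg (L M : ℕ) (u : ℝ) : 0 ≤ nwP L M u :=
  Even.pow_nonneg (even_two_mul M) _

theorem Real_nwP_pos (L M : ℕ) {u : ℝ} (h : 0 ≤ u) : 0 < nwP L M u :=
  pow_pos (Finset.prod_pos fun k _ => by positivity) _


theorem nw_den_pos (L M : ℕ) (u : ℝ) : 0 < nwP L M u + nwP L M (-u) := by
  rcases le_total 0 u with h | h
  · exact add_pos_of_pos_of_nonneg (Real_nwP_pos L M h) (Real_nwP_nonneg L M _)
  · exact add_pos_of_nonneg_of_pos (Real_nwP_nonneg L M _) (Real_nwP_pos L M (neg_nonneg.2 h))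

/-- for `v = 2 ^ L u ∈ [2 ^ k, 2 ^ (k + 1)]` the factor of index `k` has ratio at most `1 / 3` -/
theorem nwInd_pos {L M : ℕ} {u : ℝ} (h1 : ((2 : ℝ) ^ L)⁻¹ ≤ u) (h2 : u ≤ 2 ^ L) :
    |nwInd L M u - 1| ≤ ((9 : ℝ) ^ M)⁻¹ := by
  have hL : (0 : ℝ) < 2 ^ L := by positivity
  have hu : 0 < u := lt_of_lt_of_le (by positivity) h1
  have hv1 : (1 : ℝ) ≤ 2 ^ L * u := by
    rw [← mul_inv_cancel₀ hL.ne']
    exact mul_le_mul_of_nonneg_left h1 hL.le
  have hv2 : (2 : ℝ) ^ L * u ≤ 2 ^ (2 * L) := by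
    rw [two_mul, pow_add]
    exact mul_le_mul_of_nonneg_left h2 hL.le
  obtain ⟨k, hk1, hk2⟩ := exists_nat_pow_near hv1 (one_lt_two : (1 : ℝ) < 2)
  have hk : k ∈ Finset.range (2 * L + 1) := by
    rw [Finset.mem_range, Nat.lt_succ_iff]
    exact (pow_le_pow_iff_right₀ (one_lt_two : (1 : ℝ) < 2)).1 (hk1.trans hv2)
  have hP : |∏ j ∈ Finset.range (2 * L + 1), ((2 : ℝ) ^ L * -u + 2 ^ j)| ≤
      3⁻¹ * ∏ j ∈ Finset.range (2 * L + 1), ((2 : ℝ) ^ L * u + 2 ^ j) := by
    rw [Finset.abs_prod, ← Finset.mul_prod_erase _ _ hk, ← Finset.mul_prod_erase _ _ hk,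
      ← mul_assoc]
    refine mul_le_mul ?_ (Finset.prod_le_prod (fun j _ => abs_nonneg _) fun j _ => ?_)
      (Finset.prod_nonneg fun j _ => abs_nonneg _) (by positivity)
    · rw [pow_succ] at hk2
      rw [abs_le]
      constructor <;> linarith
    · have : (0 : ℝ) < 2 ^ j := by positivity
      rw [abs_le]
      constructor <;> linarith
  have hQ : nwP L M (-u) ≤ ((9 : ℝ) ^ M)⁻¹ * nwP L M u := by
    unfold nwP
    rw [← (even_two_mul M).pow_abs]
    refine (pow_le_pow_left₀ (abs_nonneg _) hP _).trans (le_of_eq ?_)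
    rw [mul_pow, inv_pow, pow_mul (3 : ℝ)]
    norm_num
  have hd := nw_den_pos L M u
  have h0 := Real_nwP_nonneg L M (-u)
  have e : nwInd L M u - 1 = -(nwP L M (-u) / (nwP L M u + nwP L M (-u))) := by
    unfold nwInd
    field_simp
    ring
  rw [e, abs_neg, abs_of_nonneg (div_nonneg h0 hd.le), div_le_iff₀ hd]
  refine hQ.trans (mul_le_mul_of_nonneg_left (by linarith) (by positivity))

theorem nwInd_neg (L M : ℕ) (u : ℝ) : nwInd L M (-u) = 1 - nwInd L M u := by
  have hd := nw_den_pos L M u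
  unfold nwInd
  rw [neg_neg, add_comm (nwP L M (-u))]
  field_simp
  ring

theorem posInd_approx {L M : ℕ} {u : ℝ}
    (h : u = 0 ∨ (((2 : ℝ) ^ L)⁻¹ ≤ |u| ∧ |u| ≤ 2 ^ L)) :
    |posInd L M u - if 0 < u then 1 else 0| ≤ ((9 : ℝ) ^ M)⁻¹ := by
  have hL : (0 : ℝ) < 2 ^ L := by positivity
  have hL1 : (1 : ℝ) ≤ 2 ^ L := one_le_pow₀ one_le_two
  have e1 : ((2 : ℝ) ^ (L + 1))⁻¹ = 2⁻¹ * (2 ^ L)⁻¹ := by rw [pow_succ, mul_inv, mul_comm]
  have e2 : (2 : ℝ) ^ (L + 1) = 2 * 2 ^ L := by rw [pow_succ, mul_comm]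
  have hi0 : (0 : ℝ) < (2 ^ L)⁻¹ := by positivity
  have hi1 : ((2 : ℝ) ^ L)⁻¹ ≤ 1 := inv_le_one_of_one_le₀ hL1
  unfold posInd
  split_ifs with hu
  · rcases h with h | h
    · exact absurd h hu.ne'
    rw [abs_of_pos hu] at h
    refine nwInd_pos ?_ ?_
    · rw [e1]; linarith [h.1]
    · rw [e1, e2]; linarith [h.2]
  · have hu' : -u ≤ 2 ^ L := by
      rcases h with h | h
      · rw [h]; linarith
      · exact (neg_le_abs u).trans h.2
    rw [sub_zero, ← neg_sub _ u, nwInd_neg, abs_sub_comm]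
    refine nwInd_pos ?_ ?_
    · linarith [not_lt.1 hu]
    · rw [e1, e2]; linarith

/-- Thom's lemma: by downward induction on `k`, the `k`-th derivative has constant sign between
`s` and `t` (it is monotone there). -/
theorem thom (G : ℝ[X]) {μ : ℕ} (hμ : derivative^[μ] G ≠ 0) {s t : ℝ}
    (hs : (derivative^[μ] G).eval s = 0)
    (h : ∀ k ≤ G.natDegree,
      (0 < (derivative^[k] G).eval s ↔ 0 < (derivative^[k] G).eval t) ∧
      ((derivative^[k] G).eval s < 0 ↔ (derivative^[k] G).eval t < 0)) : s = t := by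
  have key : ∀ m k, G.natDegree + 1 ≤ k + m →
      (∀ x ∈ Set.uIcc s t, (derivative^[k] G).eval x ∈
        Set.uIcc ((derivative^[k] G).eval s) ((derivative^[k] G).eval t)) := by
    intro m
    induction m with
    | zero =>
      intro k hk x _
      rw [iterate_derivative_eq_zero (by omega)]
      simp
    | succ m ih =>
      intro k hk
      have h1 := ih (k + 1) (by omega)
      have h2 : (∀ x ∈ Set.uIcc s t, 0 ≤ (derivative^[k + 1] G).eval x) ∨
          (∀ x ∈ Set.uIcc s t, (derivative^[k + 1] G).eval x ≤ 0) := by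
        rcases le_or_gt (k + 1) G.natDegree with hk1 | hk1
        · obtain ⟨a, b⟩ := h (k + 1) hk1
          rcases le_total 0 ((derivative^[k + 1] G).eval s) with c | c
          · have d : 0 ≤ (derivative^[k + 1] G).eval t := not_lt.1 fun d => c.not_gt (b.2 d)
            exact Or.inl fun x hx => (le_inf c d).trans (h1 x hx).1
          · have d : (derivative^[k + 1] G).eval t ≤ 0 := not_lt.1 fun d => c.not_gt (a.2 d)
            exact Or.inr fun x hx => (h1 x hx).2.trans (sup_le c d)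
        · rw [iterate_derivative_eq_zero hk1]
          simp
      rw [Function.iterate_succ_apply'] at h2
      rcases h2 with h2 | h2
      · refine (monotoneOn_of_deriv_nonneg (convex_uIcc s t)
          (derivative^[k] G).continuous.continuousOn
          (derivative^[k] G).differentiable.differentiableOn fun x hx => ?_).mapsTo_uIcc
        rw [Polynomial.deriv]
        exact h2 x (interior_subset hx)
      · refine (antitoneOn_of_deriv_nonpos (convex_uIcc s t)
          (derivative^[k] G).continuous.continuousOn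
          (derivative^[k] G).differentiable.differentiableOn fun x hx => ?_).mapsTo_uIcc
        rw [Polynomial.deriv]
        exact h2 x (interior_subset hx)
  have hμ' : μ ≤ G.natDegree := not_lt.1 fun h' => hμ (iterate_derivative_eq_zero h')
  have ht : (derivative^[μ] G).eval t = 0 := by
    obtain ⟨a, b⟩ := h μ hμ'
    rw [hs] at a b
    exact le_antisymm (not_lt.1 fun d => lt_irrefl _ (a.2 d)) (not_lt.1 fun d => lt_irrefl _ (b.2 d))
  by_contra hst
  refine hμ (eq_zero_of_infinite_isRoot _ ?_)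
  have hinf : (Set.uIcc s t).Infinite := Set.Icc_infinite (inf_lt_sup.2 hst)
  refine hinf.mono fun x hx => ?_
  have := key (G.natDegree + 1) μ (by omega) x hx
  rw [hs, ht] at this
  simpa using this

open Classical in
/-- the hash value of the bit vector `b` for the seed `z` -/
noncomputable def hsh (J q z : ℕ) (b : ℕ → Prop) : ℕ :=
  ∑ j ∈ Finset.range J, if b j then z ^ j % q else 0

theorem hsh_le (J q z : ℕ) (hq : 0 < q) (b : ℕ → Prop) : hsh J q z b ≤ J * q := by
  unfold hsh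
  refine (Finset.sum_le_card_nsmul _ _ q fun j _ => ?_).trans (by simp)
  split_ifs
  · exact (Nat.mod_lt _ hq).le
  · exact Nat.zero_le _

theorem Real_hash_pair {J q : ℕ} [Fact q.Prime] (b b' : ℕ → Prop) (h : ¬ ∀ j < J, b j ↔ b' j) :
    ((Finset.range q).filter fun z => hsh J q z b = hsh J q z b').card ≤ J := by
  classical
  obtain ⟨P, hP⟩ : ∃ P : (ZMod q)[X], P = ∑ j ∈ Finset.range J,
    monomial j ((if b j then 1 else 0) - (if b' j then 1 else 0)) := ⟨_, rfl⟩
  have hP0 : P ≠ 0 := by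
    intro h0
    refine h fun j hj => ?_
    have h1 := congrArg (fun Q => coeff Q j) hP
    simp only [h0, coeff_zero, finsetSum_coeff, coeff_monomial, Finset.sum_ite_eq',
      Finset.mem_range, hj, if_true] at h1
    by_cases c : b j <;> by_cases c' : b' j <;> simp [c, c'] at h1 ⊢
  have hdeg : P.natDegree ≤ J := by
    rw [hP]
    refine natDegree_sum_le_of_forall_le _ _ fun j hj => ?_
    exact (natDegree_monomial_le _).trans (Finset.mem_range.1 hj).le
  have hc : ∀ (z : ℕ) (c : ℕ → Prop), ((hsh J q z c : ℕ) : ZMod q) =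
      ∑ j ∈ Finset.range J, (if c j then 1 else 0) * (z : ZMod q) ^ j := fun z c => by
    unfold hsh
    rw [Nat.cast_sum]
    refine Finset.sum_congr rfl fun j _ => ?_
    split_ifs <;> simp
  refine le_trans (Finset.card_le_card_of_injOn (t := P.roots.toFinset) (fun z => (z : ZMod q))
    (fun z hz => ?_) (fun z hz z' hz' hzz => ?_))
    ((Multiset.toFinset_card_le _).trans ((card_roots' P).trans hdeg))
  · rw [Finset.coe_filter] at hz
    rw [Finset.mem_coe, Multiset.mem_toFinset, mem_roots hP0, IsRoot.def, hP, eval_finsetSum]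
    simp only [eval_monomial, sub_mul, Finset.sum_sub_distrib, ← hc, hz.2, sub_self]
  · rw [Finset.coe_filter] at hz hz'
    have h1 := (ZMod.natCast_eq_natCast_iff' _ _ _).1 hzz
    rwa [Nat.mod_eq_of_lt (Finset.mem_range.1 hz.1), Nat.mod_eq_of_lt (Finset.mem_range.1 hz'.1)]
      at h1

/-- a collision makes `z` a root of a nonzero polynomial of degree `< J` over `ZMod q` -/
theorem hash_good {ι : Type} (A : Finset ι) {J q : ℕ} (hq : q.Prime) (b : ι → ℕ → Prop)
    (hb : ∀ s ∈ A, ∀ t ∈ A, (∀ j < J, b s j ↔ b t j) → s = t) (hlt : 2 * A.card ^ 2 * J < q) :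
    q < 2 * cnt q fun z => ∀ s ∈ A, ∀ t ∈ A, hsh J q z (b s) = hsh J q z (b t) → s = t := by
  classical
  have : Fact q.Prime := ⟨hq⟩
  have hbad : ((Finset.range q).filter fun z =>
      ¬ ∀ s ∈ A, ∀ t ∈ A, hsh J q z (b s) = hsh J q z (b t) → s = t).card ≤ A.card ^ 2 * J := by
    have h1 : ((Finset.range q).filter fun z =>
        ¬ ∀ s ∈ A, ∀ t ∈ A, hsh J q z (b s) = hsh J q z (b t) → s = t) ⊆
        (A ×ˢ A).biUnion fun st => (Finset.range q).filter fun z =>
          hsh J q z (b st.1) = hsh J q z (b st.2) ∧ st.1 ≠ st.2 := by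
      intro z hz
      simp only [Finset.mem_filter, not_forall] at hz
      obtain ⟨hz, s, hs, t, ht, h1, h2⟩ := hz
      exact Finset.mem_biUnion.2 ⟨(s, t), Finset.mem_product.2 ⟨hs, ht⟩,
        Finset.mem_filter.2 ⟨hz, h1, h2⟩⟩
    refine (Finset.card_le_card h1).trans ((Finset.card_biUnion_le_card_mul _ _ J ?_).trans ?_)
    · rintro ⟨s, t⟩ hst
      rw [Finset.mem_product] at hst
      by_cases hne : s = t
      · simp [hne]
      refine le_trans (Finset.card_le_card fun z hz => ?_)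
        (Real_hash_pair (J := J) (q := q) (b s) (b t) fun h => hne (hb s hst.1 t hst.2 h))
      rw [Finset.mem_filter] at hz ⊢
      exact ⟨hz.1, hz.2.1⟩
    · rw [Finset.card_product, sq]
  have hsum := Finset.card_filter_add_card_filter_not (s := Finset.range q)
    (fun z => ∀ s ∈ A, ∀ t ∈ A, hsh J q z (b s) = hsh J q z (b t) → s = t)
  rw [Finset.card_range] at hsum
  have e : cnt q (fun z => ∀ s ∈ A, ∀ t ∈ A, hsh J q z (b s) = hsh J q z (b t) → s = t) =
      ((Finset.range q).filter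
        fun z => ∀ s ∈ A, ∀ t ∈ A, hsh J q z (b s) = hsh J q z (b t) → s = t).card := by
    unfold cnt
    congr!
  rw [e]
  rw [mul_assoc] at hlt
  omega

/-- a root of multiplicity `μ + 1` is a simple root of the `μ`-th derivative -/
theorem exists_simple_root {G : ℚ[X]} (hG : G ≠ 0) {t : ℝ} (ht : aeval t G = 0) :
    ∃ μ < G.natDegree,
      ((derivative^[μ] G).map (algebraMap ℚ ℂ)).rootMultiplicity (t : ℂ) = 1 := by
  have hG' : G.map (algebraMap ℚ ℂ) ≠ 0 := (Polynomial.map_ne_zero_iff (RingHom.injective _)).2 hG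
  have hr : (G.map (algebraMap ℚ ℂ)).IsRoot (t : ℂ) := by
    rw [IsRoot.def, eval_map_algebraMap]
    have := aeval_algebraMap_apply ℂ t G
    rw [ht, map_zero] at this
    exact this
  obtain ⟨m, hm⟩ : ∃ m, m = (G.map (algebraMap ℚ ℂ)).rootMultiplicity (t : ℂ) := ⟨_, rfl⟩
  have hm0 : 0 < m := hm ▸ (rootMultiplicity_pos hG').2 hr
  have hm1 : m ≤ G.natDegree := by
    have := natDegree_le_of_dvd (pow_rootMultiplicity_dvd (G.map (algebraMap ℚ ℂ)) (t : ℂ)) hG'
    rwa [natDegree_pow, natDegree_X_sub_C, mul_one, ← hm, natDegree_map] at this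
  have key : ∀ k < m, (derivative^[k] (G.map (algebraMap ℚ ℂ))).rootMultiplicity (t : ℂ)
      = m - k := by
    intro k
    induction k with
    | zero => intro _; simpa using hm.symm
    | succ k ih =>
      intro hk
      have h1 := ih (by omega)
      rw [Function.iterate_succ_apply', derivative_rootMultiplicity_of_root, h1]
      · omega
      · exact (rootMultiplicity_pos'.1 (by omega)).2
  refine ⟨m - 1, by omega, ?_⟩
  rw [← iterate_derivative_map, key _ (by omega)]
  omega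

open Classical in
theorem card_eq_rootMultiplicity {d : ℕ} (β : Fin d → ℂ) (t : ℂ) :
    (Finset.univ.filter fun j => β j = t).card =
      (∏ j, (X - C (β j)) : ℂ[X]).rootMultiplicity t := by
  exact Real_card_eq β t

theorem Real_root_le {P : ℂ[X]} (hP : P ≠ 0) {a : ℂ} (ha : P.IsRoot a) {B B' : ℝ}
    (hB : ∀ k, ‖P.coeff k‖ ≤ B) (hl : 1 ≤ B' * ‖P.leadingCoeff‖) :
    ‖a‖ ≤ B * B' + 1 := by
  have hB0 : 0 ≤ B := (norm_nonneg _).trans (hB 0)
  have h1 := NNReal.coe_le_coe.2 (ha.norm_lt_cauchyBound hP).le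
  have h2 : (Finset.range P.natDegree).sup (fun k => ‖P.coeff k‖₊) ≤ ⟨B, hB0⟩ :=
    Finset.sup_le fun k _ => hB k
  have h3 := NNReal.coe_le_coe.2 h2
  have hl0 : 0 < ‖P.leadingCoeff‖ := norm_pos_iff.2 (leadingCoeff_ne_zero.2 hP)
  simp only [cauchyBound, NNReal.coe_add, NNReal.coe_div, coe_nnnorm, NNReal.coe_one] at h1
  refine h1.trans (add_le_add ?_ le_rfl)
  rw [div_le_iff₀ hl0]
  refine h3.trans ?_
  change B ≤ _
  rw [mul_assoc]
  exact le_mul_of_one_le_right hB0 hl

/-- nonzero `γ i` are bounded above and below in terms of the coefficients of `∏ (1 + γ X)`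
(Cauchy's bound for this polynomial at `-1 / γ i`, and for its reverse at `-γ i`) -/
theorem gap_of_coeff {ι : Type} [Fintype ι] (γ : ι → ℂ) {B : ℝ} (hB : 1 ≤ B)
    (h : ∀ k, ‖(∏ i, (1 + C (γ i) * X) : ℂ[X]).coeff k‖ ≤ B ∧
      ((∏ i, (1 + C (γ i) * X) : ℂ[X]).coeff k ≠ 0 →
        1 ≤ B * ‖(∏ i, (1 + C (γ i) * X) : ℂ[X]).coeff k‖)) (i : ι) :
    γ i = 0 ∨ ((2 * B ^ 2)⁻¹ ≤ ‖γ i‖ ∧ ‖γ i‖ ≤ 2 * B ^ 2) := by
  obtain ⟨P, hP⟩ : ∃ P : ℂ[X], P = ∏ i, (1 + C (γ i) * X) := ⟨_, rfl⟩
  rw [← hP] at h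
  rcases eq_or_ne (γ i) 0 with h0 | h0
  · exact Or.inl h0
  right
  have hc0 : P.coeff 0 = 1 := by
    rw [coeff_zero_eq_eval_zero, hP, eval_prod]; simp
  have hP0 : P ≠ 0 := fun h' => by simp [h'] at hc0
  have hr : P.IsRoot (-(γ i)⁻¹) := by
    rw [IsRoot.def, hP, eval_prod]
    exact Finset.prod_eq_zero (Finset.mem_univ i) (by simp [h0])
  have hB2 : B ≤ B ^ 2 := by nlinarith
  have hγ : 0 < ‖γ i‖ := norm_pos_iff.2 h0
  constructor
  · have h1 := Real_root_le hP0 hr (fun k => (h k).1)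
      ((h _).2 (leadingCoeff_ne_zero.2 hP0))
    rw [norm_neg, norm_inv] at h1
    rw [inv_le_comm₀ (by positivity) hγ]
    nlinarith
  · let _ : Invertible (-(γ i)⁻¹) := invertibleOfNonzero (by simp [h0])
    have hr' : P.reverse.IsRoot (-γ i) := by
      have := (eval₂_reverse_eq_zero_iff (RingHom.id ℂ) (-(γ i)⁻¹) P).2 hr
      rw [invOf_eq_inv, inv_neg, inv_inv] at this
      exact this
    have h1 := Real_root_le (B := B) (B' := 1) (mt reverse_eq_zero.1 hP0) hr'
      (fun k => by rw [coeff_reverse]; exact (h _).1)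
      (by rw [reverse_leadingCoeff, trailingCoeff_eq_coeff_zero (by simp [hc0]), hc0]; simp)
    rw [norm_neg] at h1
    nlinarith

end Crest.Agent.R316
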