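import Crest.Agent.R316.OpsU
import Crest.Agent.R316.Perturb
import Crest.Agent.R316.Real

/-!
Row 316: auxiliary constructions for the delineation.
-/

set_option autoImplicit false

namespace Crest.Agent.R316

open Crest.Agent.Lib.PT MvPolynomial Filter Topology

/-- the monic normalisation of `v`, assumed of degree `d` -/
noncomputable def delinF (v : UP) (d : ℕ) : UP :=
  Polynomial.X ^ d + ∑ k ∈ Finset.range d,
    Polynomial.monomial k (v.coeff k * v.coeff d ^ (d - 1 - k))

/-- `c ^ K * W (β / c, x)` -/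
noncomputable def delinHom (s K : ℕ) (c W : MP) : MP :=
  ∑ e ∈ W.support, coeff e W •
    (rename (fun i => i + s) c ^ (K - ∑ i ∈ Finset.range s, e i) * monomial e (1 : ℚ))

section alg

variable {R : Type} [Field R] [Algebra ℚ R]

theorem delin_ev_F (x : ℕ → R) (v : UP) (d : ℕ) :
    ev x (delinF v d) = Polynomial.X ^ d + ∑ k ∈ Finset.range d,
      Polynomial.monomial k (aeval x (v.coeff k) * aeval x (v.coeff d) ^ (d - 1 - k)) := by
  simp [ev, delinF, Polynomial.map_sum]

theorem delin_degree_lt (d : ℕ) (f : ℕ → R) :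
    (∑ k ∈ Finset.range d, Polynomial.monomial k (f k) : Polynomial R).degree < (d : WithBot ℕ) := by
  refine (Polynomial.degree_sum_le _ _).trans_lt
    ((Finset.sup_lt_iff (WithBot.bot_lt_coe d)).2 fun k hk => ?_)
  exact (Polynomial.degree_monomial_le _ _).trans_lt
    (WithBot.coe_lt_coe.2 (Finset.mem_range.1 hk))

theorem delin_monic (x : ℕ → R) (v : UP) (d : ℕ) :
    (ev x (delinF v d)).Monic ∧ (ev x (delinF v d)).natDegree = d := by
  rw [delin_ev_F]
  have h := delin_degree_lt d
    (fun k => aeval x (v.coeff k) * aeval x (v.coeff d) ^ (d - 1 - k))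
  refine ⟨Polynomial.monic_X_pow_add h, ?_⟩
  rw [Polynomial.natDegree_add_eq_left_of_degree_lt, Polynomial.natDegree_X_pow]
  rwa [Polynomial.degree_X_pow]

theorem delin_eval_F (x : ℕ → R) (v : UP) (d : ℕ) (hd : (ev x v).natDegree = d) (y : R) :
    aeval x (v.coeff d) * (ev x (delinF v d)).eval (aeval x (v.coeff d) * y) =
      aeval x (v.coeff d) ^ d * (ev x v).eval y := by
  rw [delin_ev_F, Polynomial.eval_eq_sum_range (p := ev x v), hd, Finset.sum_range_succ]
  simp only [Polynomial.eval_add, Polynomial.eval_pow, Polynomial.eval_X,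
    Polynomial.eval_finsetSum, Polynomial.eval_monomial, ev_coeff, mul_add, Finset.mul_sum]
  rw [add_comm]
  congr 1
  · refine Finset.sum_congr rfl fun k hk => ?_
    have hk' := Finset.mem_range.1 hk
    obtain ⟨j, rfl⟩ : ∃ j, d = k + 1 + j := ⟨d - (k + 1), by omega⟩
    rw [show k + 1 + j - 1 - k = j by omega]
    ring
  · ring

theorem delin_aeval_rename {s : ℕ} (β : Fin s → R) (x : ℕ → R) (c : MP) :
    aeval (app β x) (rename (fun i => i + s) c) = aeval x c := by
  rw [aeval_rename]
  congr 2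
  funext i
  simp

theorem delin_aeval_hom {s K : ℕ} {c W : MP} (hK : W.totalDegree ≤ K) (β : Fin s → R)
    (x : ℕ → R) (hc : aeval x c ≠ 0) :
    aeval (app β x) (delinHom s K c W) =
      aeval x c ^ K * aeval (app (fun j => β j / aeval x c) x) W := by
  classical
  set c₀ : R := aeval x c with hc₀
  conv_rhs => rw [W.as_sum]
  rw [delinHom, map_sum, map_sum, Finset.mul_sum]
  refine Finset.sum_congr rfl fun e he => ?_
  rw [map_smul, map_mul, map_pow, delin_aeval_rename, aeval_monomial, aeval_monomial, map_one,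
    one_mul, Algebra.smul_def, ← hc₀]
  have h1 : ∑ i ∈ Finset.range s, e i = ∑ i ∈ e.support.filter (· < s), e i := by
    symm
    refine Finset.sum_subset (fun i hi => Finset.mem_range.2 (Finset.mem_filter.1 hi).2) ?_
    intro i hi hi'
    by_contra h0
    exact hi' (Finset.mem_filter.2 ⟨Finsupp.mem_support_iff.2 h0, Finset.mem_range.1 hi⟩)
  have h2 : ∑ i ∈ Finset.range s, e i ≤ K := by
    rw [h1]
    exact (Finset.sum_le_sum_of_subset (Finset.filter_subset _ _)).trans
      ((le_totalDegree he).trans hK)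
  have h3 : (e.prod fun i k => app β x i ^ k) =
      c₀ ^ (∑ i ∈ Finset.range s, e i) * e.prod fun i k => app (fun j => β j / c₀) x i ^ k := by
    rw [h1, ← Finset.prod_pow_eq_pow_sum, Finset.prod_filter, Finsupp.prod, Finsupp.prod,
      ← Finset.prod_mul_distrib]
    refine Finset.prod_congr rfl fun i _ => ?_
    by_cases hi : i < s
    · rw [if_pos hi, app_lt _ _ hi, app_lt _ _ hi, ← mul_pow, mul_div_cancel₀ _ hc]
    · rw [if_neg hi, app_ge _ _ (not_lt.1 hi), app_ge _ _ (not_lt.1 hi), one_mul]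
  rw [h3]
  obtain ⟨j, hj⟩ : ∃ j, K = ∑ i ∈ Finset.range s, e i + j := ⟨_, (Nat.add_sub_cancel' h2).symm⟩
  rw [hj, Nat.add_sub_cancel_left]
  ring

end alg

section ch

variable {α : Type} [Enc α]

theorem delin_chu_F {v : α → UP} {d : α → ℕ} (hv : CHU v) (hd : CHF d) :
    CHU fun a => delinF (v a) (d a) := by
  unfold delinF
  fun_prop

theorem delin_sum_toF (s : ℕ) (l : List ℕ) : ∑ i ∈ Finset.range s, toF l i = (l.take s).sum := by
  induction s with
  | zero => simp
  | succ s ih =>
    rw [Finset.sum_range_succ, ih, List.take_add_one, List.sum_append, toF_apply,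
      List.getD_eq_getElem?_getD]
    cases l[s]? <;> simp

theorem delin_chp_hom {s K : α → ℕ} {c W : α → MP} (hs : CHF s) (hb : PB s) (hK : CHF K)
    (hc : CHP c) (hW : CHP W) : CHP fun a => delinHom (s a) (K a) (c a) (W a) := by
  have h0 : PB fun q : α × List Unit => q.2.length + s q.1 :=
    (PB.length PT.id.snd).add (hb.comp PT.id.fst)
  have h0' : CHF fun q : α × List Unit => q.2.length + s q.1 :=
    CHF.add (CHF.length CHF.id.snd) (hs.comp CHF.id.fst)
  have h1 : CHP fun a => rename (fun i => i + s a) (c a) :=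
    CHP.rename (f := fun a i => i + s a) hc h0' h0
  have h2 : CHF fun q : α × List ℕ => K q.1 - (q.2.take (s q.1)).sum :=
    CHF.sub (hK.comp CHF.id.fst) (CHF.natSum (CHF.take (hs.comp CHF.id.fst) CHF.id.snd))
  have h3 : CHP fun q : α × List ℕ => (monomial (toF q.2) (1 : ℚ) : MP) :=
    CHP.monomial CHF.id.snd (by fun_prop)
  have h4 : CHP fun q : α × List ℕ => rename (fun i => i + s q.1) (c q.1) ^
      (K q.1 - ∑ i ∈ Finset.range (s q.1), toF q.2 i) * (monomial (toF q.2) (1 : ℚ) : MP) :=
    (CHP.mul (CHP.pow (h1.comp (g := fun q : α × List ℕ => q.1) CHF.id.fst) h2) h3).congr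
      fun q => by rw [delin_sum_toF]
  exact CHP.linear (T := fun a e => rename (fun i => i + s a) (c a) ^
    (K a - ∑ i ∈ Finset.range (s a), e i) * monomial e (1 : ℚ)) hW h4

end ch

section top

theorem delin_continuous_aeval {R : Type} [Field R] [Algebra ℚ R] [TopologicalSpace R]
    [IsTopologicalRing R] (P : MP) : Continuous fun z : ℕ → R => aeval z P := by
  refine (map (algebraMap ℚ R) P).continuous_eval.congr fun y => ?_
  simp only [eval_map, aeval_def]

theorem delin_tendsto_app {R : Type} [TopologicalSpace R] {n : ℕ} {y : ℕ → Fin n → R}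
    {y₀ : Fin n → R} {x : ℕ → ℕ → R} {x₀ : ℕ → R} (hy : Tendsto y atTop (𝓝 y₀))
    (hx : Tendsto x atTop (𝓝 x₀)) : Tendsto (fun m => app (y m) (x m)) atTop (𝓝 (app y₀ x₀)) := by
  refine tendsto_pi_nhds.2 fun i => ?_
  by_cases hi : i < n
  · simp only [app_lt _ _ hi]
    exact tendsto_pi_nhds.1 hy _
  · simp only [app_ge _ _ (not_lt.1 hi)]
    exact tendsto_pi_nhds.1 hx _

theorem delin_ev_ne_zero {F : UP} (h : F.coeff 0 = 1) (x : ℕ → ℝ) : ev x F ≠ 0 := by
  intro h0
  have := ev_coeff x F 0
  rw [h0, h] at this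
  simp at this

/-- a divisor has locally constant degree on the stratum -/
theorem delin_eventually_dvd {F Pi : UP} (hd : F ∣ Pi) (h1 : Pi.coeff 0 = 1) {r : ℕ}
    (x₀ : Fin r → ℝ) : ∀ᶠ x in 𝓝 x₀, dg Pi (app x 0) = dg Pi (app x₀ 0) →
      dg F (app x 0) = dg F (app x₀ 0) := by
  obtain ⟨G, rfl⟩ := hd
  have e : ∀ z : ℕ → ℝ, dg (F * G) z = dg F z + dg G z := fun z => by
    have h0 := delin_ev_ne_zero h1 z
    rw [ev_mul] at h0
    rw [dg, ev_mul, Polynomial.natDegree_mul (left_ne_zero_of_mul h0) (right_ne_zero_of_mul h0)]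
    rfl
  filter_upwards [eventually_natDegree_le (fun x : Fin r → ℝ => ev (app x 0) F)
      (continuous_coeff_ev_app 0 F) x₀,
    eventually_natDegree_le (fun x : Fin r → ℝ => ev (app x 0) G)
      (continuous_coeff_ev_app 0 G) x₀] with x h2 h3 h4
  rw [e, e] at h4
  simp only [dg] at *
  omega

theorem delin_dg_complex (F : UP) (x : ℕ → ℝ) :
    (ev (fun i => (x i : ℂ)) F).natDegree = dg F x := by
  have := map_ev (Complex.ofRealAm.restrictScalars ℚ) x F
  change _ = ev (fun i => (x i : ℂ)) F at this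
  rw [← this, Polynomial.natDegree_map_eq_of_injective]
  · rfl
  · exact Complex.ofReal_injective

theorem delin_eval_complex (F : UP) (x : ℕ → ℝ) (t : ℝ) :
    (ev (fun i => (x i : ℂ)) F).eval (t : ℂ) = (((ev x F).eval t : ℝ) : ℂ) := by
  rw [eval_ev, eval_ev, ofReal_aeval]
  congr 2
  funext i
  cases i <;> rfl

theorem delin_eval_conj (F : UP) (x : ℕ → ℝ) (t : ℂ) :
    (ev (fun i => (x i : ℂ)) F).eval ((starRingEnd ℂ) t) =
      (starRingEnd ℂ) ((ev (fun i => (x i : ℂ)) F).eval t) := by
  rw [eval_ev, eval_ev, conj_aeval]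
  congr 2
  funext i
  cases i <;> simp

end top

end Crest.Agent.R316
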