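import Crest.Agent.R316.Core

/-! Row 316: closure properties of `CHF`. -/

set_option autoImplicit false

namespace Crest.Agent.R316

open Crest.Agent.Lib.PT

variable {α β γ δ : Type} [Enc α] [Enc β] [Enc γ] [Enc δ]

protected theorem CHF.pb_sz {f : α → β} (h : CHF f) : PB fun a => sz (f a) := h.1

protected theorem CHF.of_enc {f : α → β} {g : α → γ} (h : CHF g) (e : ∀ a, enc (f a) = enc (g a)) :
    CHF f := by
  refine ⟨h.1.of_le fun a => ?_, h.2.congr fun p => by rw [e]⟩
  unfold sz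
  rw [e]

protected theorem CHF.congr {f g : α → β} (h : CHF g) (e : ∀ a, f a = g a) : CHF f := by
  exact h.of_enc fun a => by rw [e]

@[fun_prop] protected theorem CHF.of_pt {f : α → β} (h : PT f) : CHF f := by
  exact ⟨PB.sz h, CH.of_decide (by fun_prop)⟩

@[fun_prop] protected theorem CHF.id : CHF fun a : α => a := CHF.of_pt PT.id

@[fun_prop] protected theorem CHF.const (b : β) : CHF fun _ : α => b := CHF.of_pt (PT.const b)

/-- `P (f a) ↔ ∃ d, d.size ≤ B a ∧ enc (f a) = d ∧ Q d` with `Q` an extension of `P` along `enc` -/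
@[fun_prop] protected theorem CH.comp {P : β → Prop} {f : α → β} (h : CH P) (hf : CHF f) :
    CH fun a => P (f a) := by
  obtain ⟨Q, hQ, hQe⟩ := h.extend (α := D) (fun b : β => enc b) (fun _ => rfl)
  obtain ⟨m, hm, hmb, hle⟩ := pb_exists_pt hf.1
  have := CH.exists_D (P := fun a d => enc (f a) = d ∧ Q d) hm hmb
    (hf.2.and (hQ.comp_pt PT.id.snd))
  refine this.congr fun a => ⟨fun hp => ⟨enc (f a), hle a, rfl, (hQe _).2 hp⟩, ?_⟩
  rintro ⟨d, -, rfl, hq⟩
  exact (hQe _).1 hq

@[fun_prop] protected theorem CHF.pair {f : α → β} {g : α → γ} (hf : CHF f) (hg : CHF g) :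
    CHF fun a => (f a, g a) := by
  refine ⟨((hf.1.add hg.1).add (PB.const 1)).of_le fun a => by simp, ?_⟩
  have h1 := hf.2.comp_pt (g := fun p : α × D => (p.1, p.2.car)) (by fun_prop)
  have h2 := hg.2.comp_pt (g := fun p : α × D => (p.1, p.2.cdr)) (by fun_prop)
  have h3 : CH fun p : α × D => p.2 ≠ D.nil := CH.of_decide (by fun_prop)
  refine ((h1.and h2).and h3).congr ?_
  rintro ⟨a, d⟩
  cases d <;> simp [enc_pair]

theorem fun_comp_pt {g : β → γ} {f : α → β} (hg : CHF g) (hf : PT f) : CHF fun a => g (f a) :=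
  ⟨PB.comp (g := fun b => sz (g b)) hg.1 hf,
    hg.2.comp_pt (g := fun p : α × D => (f p.1, p.2)) (by fun_prop)⟩

@[fun_prop] protected theorem CHF.comp {g : β → γ} {f : α → β} (hg : CHF g) (hf : CHF f) :
    CHF fun a => g (f a) := by
  refine ⟨hg.1.comp_sz hf.1, ?_⟩
  exact CH.comp (P := fun q : β × D => enc (g q.1) = q.2) (f := fun p : α × D => (f p.1, p.2)) hg.2
    ((fun_comp_pt hf PT.id.fst).pair (CHF.of_pt PT.id.snd))

@[fun_prop] protected theorem CHF.fst {f : α → β × γ} (h : CHF f) : CHF fun a => (f a).1 :=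
  CHF.comp (g := Prod.fst) (CHF.of_pt PT.id.fst) h

@[fun_prop] protected theorem CHF.snd {f : α → β × γ} (h : CHF f) : CHF fun a => (f a).2 :=
  CHF.comp (g := Prod.snd) (CHF.of_pt PT.id.snd) h

protected theorem CHF.comp₂ {g : β → γ → δ} {f₁ : α → β} {f₂ : α → γ}
    (hg : PT fun p : β × γ => g p.1 p.2) (h₁ : CHF f₁) (h₂ : CHF f₂) :
    CHF fun a => g (f₁ a) (f₂ a) :=
  CHF.comp (g := fun p : β × γ => g p.1 p.2) (CHF.of_pt hg) (h₁.pair h₂)

@[fun_prop] protected theorem CHF.add {f g : α → ℕ} (hf : CHF f) (hg : CHF g) :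
    CHF fun a => f a + g a :=
  CHF.comp₂ (g := fun x y : ℕ => x + y) (by fun_prop) hf hg

@[fun_prop] protected theorem CHF.mul {f g : α → ℕ} (hf : CHF f) (hg : CHF g) :
    CHF fun a => f a * g a :=
  CHF.comp₂ (g := fun x y : ℕ => x * y) (by fun_prop) hf hg

@[fun_prop] protected theorem CHF.sub {f g : α → ℕ} (hf : CHF f) (hg : CHF g) :
    CHF fun a => f a - g a :=
  CHF.comp₂ (g := fun x y : ℕ => x - y) (by fun_prop) hf hg

@[fun_prop] protected theorem CHF.div {f g : α → ℕ} (hf : CHF f) (hg : CHF g) :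
    CHF fun a => f a / g a :=
  CHF.comp₂ (g := fun x y : ℕ => x / y) (by fun_prop) hf hg

@[fun_prop] protected theorem CHF.mod {f g : α → ℕ} (hf : CHF f) (hg : CHF g) :
    CHF fun a => f a % g a :=
  CHF.comp₂ (g := fun x y : ℕ => x % y) (by fun_prop) hf hg

@[fun_prop] protected theorem CHF.max {f g : α → ℕ} (hf : CHF f) (hg : CHF g) :
    CHF fun a => max (f a) (g a) :=
  CHF.comp₂ (g := fun x y : ℕ => max x y) (by fun_prop) hf hg

@[fun_prop] protected theorem CHF.min {f g : α → ℕ} (hf : CHF f) (hg : CHF g) :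
    CHF fun a => min (f a) (g a) :=
  CHF.comp₂ (g := fun x y : ℕ => min x y) (by fun_prop) hf hg

@[fun_prop] protected theorem CHF.intAdd {f g : α → ℤ} (hf : CHF f) (hg : CHF g) :
    CHF fun a => f a + g a :=
  CHF.comp₂ (g := fun x y : ℤ => x + y) (by fun_prop) hf hg

@[fun_prop] protected theorem CHF.intMul {f g : α → ℤ} (hf : CHF f) (hg : CHF g) :
    CHF fun a => f a * g a :=
  CHF.comp₂ (g := fun x y : ℤ => x * y) (by fun_prop) hf hg

@[fun_prop] protected theorem CHF.intSub {f g : α → ℤ} (hf : CHF f) (hg : CHF g) :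
    CHF fun a => f a - g a :=
  CHF.comp₂ (g := fun x y : ℤ => x - y) (by fun_prop) hf hg

@[fun_prop] protected theorem CHF.intDiv {f g : α → ℤ} (hf : CHF f) (hg : CHF g) :
    CHF fun a => f a / g a :=
  CHF.comp₂ (g := fun x y : ℤ => x / y) (by fun_prop) hf hg

@[fun_prop] protected theorem CHF.intMod {f g : α → ℤ} (hf : CHF f) (hg : CHF g) :
    CHF fun a => f a % g a :=
  CHF.comp₂ (g := fun x y : ℤ => x % y) (by fun_prop) hf hg

@[fun_prop] protected theorem CHF.append {f g : α → List β} (hf : CHF f) (hg : CHF g) :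
    CHF fun a => f a ++ g a :=
  CHF.comp₂ (g := fun x y : List β => x ++ y) (by fun_prop) hf hg

@[fun_prop] protected theorem CHF.succ {f : α → ℕ} (hf : CHF f) : CHF fun a => (f a).succ :=
  CHF.comp (g := fun x : ℕ => x.succ) (CHF.of_pt (by fun_prop)) hf

@[fun_prop] protected theorem CHF.size {f : α → ℕ} (hf : CHF f) : CHF fun a => Nat.size (f a) :=
  CHF.comp (g := fun x : ℕ => Nat.size x) (CHF.of_pt (by fun_prop)) hf

@[fun_prop] protected theorem CHF.intNatCast {f : α → ℕ} (hf : CHF f) : CHF fun a => (f a : ℤ) :=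
  CHF.comp (g := fun x : ℕ => (x : ℤ)) (CHF.of_pt (by fun_prop)) hf

@[fun_prop] protected theorem CHF.ratNatCast {f : α → ℕ} (hf : CHF f) : CHF fun a => (f a : ℚ) :=
  CHF.comp (g := fun x : ℕ => (x : ℚ)) (CHF.of_pt (by fun_prop)) hf

@[fun_prop] protected theorem CHF.ratIntCast {f : α → ℤ} (hf : CHF f) : CHF fun a => (f a : ℚ) :=
  CHF.comp (g := fun x : ℤ => (x : ℚ)) (CHF.of_pt (by fun_prop)) hf

@[fun_prop] protected theorem CHF.intNeg {f : α → ℤ} (hf : CHF f) : CHF fun a => -f a :=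
  CHF.comp (g := fun x : ℤ => -x) (CHF.of_pt (by fun_prop)) hf

@[fun_prop] protected theorem CHF.toNat {f : α → ℤ} (hf : CHF f) : CHF fun a => (f a).toNat :=
  CHF.comp (g := fun x : ℤ => x.toNat) (CHF.of_pt (by fun_prop)) hf

@[fun_prop] protected theorem CHF.natAbs {f : α → ℤ} (hf : CHF f) : CHF fun a => (f a).natAbs :=
  CHF.comp (g := fun x : ℤ => x.natAbs) (CHF.of_pt (by fun_prop)) hf

@[fun_prop] protected theorem CHF.length {f : α → List β} (hf : CHF f) : CHF fun a => (f a).length :=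
  CHF.comp (g := fun x : List β => x.length) (CHF.of_pt (by fun_prop)) hf

@[fun_prop] protected theorem CHF.tail {f : α → List β} (hf : CHF f) : CHF fun a => (f a).tail :=
  CHF.comp (g := fun x : List β => x.tail) (CHF.of_pt (by fun_prop)) hf

@[fun_prop] protected theorem CHF.sz {f : α → β} (hf : CHF f) : CHF fun a => sz (f a) :=
  CHF.comp (g := fun x : β => sz x) (CHF.of_pt (by fun_prop)) hf

@[fun_prop] protected theorem CHF.natSum {f : α → List ℕ} (hf : CHF f) : CHF fun a => (f a).sum :=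
  CHF.comp (g := fun x : List ℕ => x.sum) (CHF.of_pt (by fun_prop)) hf

@[fun_prop] protected theorem CHF.cons {x : α → β} {l : α → List β} (hx : CHF x) (hl : CHF l) :
    CHF fun a => x a :: l a :=
  CHF.comp₂ (g := fun (x : β) (l : List β) => x :: l) (by fun_prop) hx hl

@[fun_prop] protected theorem CHF.drop {n : α → ℕ} {l : α → List β} (hn : CHF n) (hl : CHF l) :
    CHF fun a => (l a).drop (n a) :=
  CHF.comp₂ (g := fun (n : ℕ) (l : List β) => l.drop n) (by fun_prop) hn hl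

@[fun_prop] protected theorem CHF.take {n : α → ℕ} {l : α → List β} (hn : CHF n) (hl : CHF l) :
    CHF fun a => (l a).take (n a) :=
  CHF.comp₂ (g := fun (n : ℕ) (l : List β) => l.take n) (by fun_prop) hn hl

@[fun_prop] protected theorem CHF.getD {n : α → ℕ} {l : α → List β} {d : α → β} (hl : CHF l) (hn : CHF n)
    (hd : CHF d) : CHF fun a => (l a).getD (n a) (d a) :=
  CHF.comp (g := fun p : List β × ℕ × β => p.1.getD p.2.1 p.2.2) (CHF.of_pt (by fun_prop))
    (hl.pair (hn.pair hd))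

theorem pb_comp_chf {g : β → ℕ} {f : α → β} (hg : PB g) (hf : CHF f) : PB fun a => g (f a) :=
  hg.comp_sz hf.1

protected theorem CHF.of_graph [Dec β] {f : α → β} (hb : PB fun a => sz (f a))
    (h : CH fun p : α × β => f p.1 = p.2) : CHF f := by
  refine ⟨hb, ?_⟩
  have hd : PT (Dec.dec : D → β) := Dec.pt
  have h1 := h.comp_pt (g := fun p : α × D => (p.1, (Dec.dec p.2 : β))) (by fun_prop)
  have h2 : CH fun p : α × D => enc (Dec.dec p.2 : β) = p.2 := CH.of_decide (by fun_prop)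
  refine (h1.and h2).congr ?_
  rintro ⟨a, d⟩
  simp only
  constructor
  · rintro rfl
    simp [Dec.dec_enc]
  · rintro ⟨e1, e2⟩
    rw [e1, e2]

/-- a number bounded by a `CHF` number, with graph in `CH` -/
protected theorem CHF.of_graph_le {f N : α → ℕ} (hN : CHF N) (hle : ∀ a, f a ≤ N a)
    (h : CH fun p : α × ℕ => f p.1 = p.2) : CHF f := by
  exact CHF.of_graph (hN.1.of_le fun a => sz_nat_mono (hle a)) h

@[fun_prop] protected theorem CH.eq {f g : α → β} (hf : CHF f) (hg : CHF g) : CH fun a => f a = g a := by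
  classical
  exact CH.comp (P := fun q : β × β => q.1 = q.2) (CH.of_decide (by fun_prop)) (hf.pair hg)

@[fun_prop] protected theorem CH.ne {f g : α → β} (hf : CHF f) (hg : CHF g) : CH fun a => f a ≠ g a :=
  (CH.eq hf hg).not

@[fun_prop] protected theorem CH.lt {f g : α → ℕ} (hf : CHF f) (hg : CHF g) : CH fun a => f a < g a := by
  exact CH.comp (P := fun q : ℕ × ℕ => q.1 < q.2) (CH.of_decide (by fun_prop)) (hf.pair hg)

@[fun_prop] protected theorem CH.le {f g : α → ℕ} (hf : CHF f) (hg : CHF g) : CH fun a => f a ≤ g a := by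
  exact CH.comp (P := fun q : ℕ × ℕ => q.1 ≤ q.2) (CH.of_decide (by fun_prop)) (hf.pair hg)

@[fun_prop] protected theorem CH.int_lt {f g : α → ℤ} (hf : CHF f) (hg : CHF g) :
    CH fun a => f a < g a := by
  exact CH.comp (P := fun q : ℤ × ℤ => q.1 < q.2) (CH.of_decide (by fun_prop)) (hf.pair hg)

@[fun_prop] protected theorem CH.int_le {f g : α → ℤ} (hf : CHF f) (hg : CHF g) :
    CH fun a => f a ≤ g a := by
  exact CH.comp (P := fun q : ℤ × ℤ => q.1 ≤ q.2) (CH.of_decide (by fun_prop)) (hf.pair hg)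

@[fun_prop] protected theorem CH.dvd {f g : α → ℕ} (hf : CHF f) (hg : CHF g) : CH fun a => f a ∣ g a := by
  exact CH.comp (P := fun q : ℕ × ℕ => q.1 ∣ q.2) (CH.of_decide (by fun_prop)) (hf.pair hg)

@[fun_prop] protected theorem CH.mem {x : α → β} {l : α → List β} (hx : CHF x) (hl : CHF l) :
    CH fun a => x a ∈ l a := by
  classical
  exact CH.comp (P := fun q : β × List β => q.1 ∈ q.2) (CH.of_decide (by fun_prop)) (hx.pair hl)

@[fun_prop] protected theorem CHF.decide {P : α → Prop} [∀ a, Decidable (P a)] (h : CH P) :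
    CHF fun a => decide (P a) := by
  refine CHF.of_graph ((PB.const 5).of_le fun a => by simp) ?_
  have h1 : CH fun p : α × Bool => P p.1 := h.comp_pt PT.id.fst
  have h2 : CH fun p : α × Bool => p.2 = true := CH.of_pt PT.id.snd
  refine (h1.iff h2).congr ?_
  rintro ⟨a, b⟩
  cases b <;> simp

@[fun_prop] protected theorem CHF.ite {P : α → Prop} [∀ a, Decidable (P a)] {f g : α → β} (hP : CH P)
    (hf : CHF f) (hg : CHF g) : CHF fun a => if P a then f a else g a := by
  refine ⟨(hf.1.add hg.1).of_le fun a => by beta_reduce; split_ifs <;> omega, ?_⟩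
  have h1 : CH fun p : α × D => P p.1 := hP.comp_pt PT.id.fst
  refine ((h1.and hf.2).or (h1.not.and hg.2)).congr fun p => ?_
  by_cases h : P p.1 <;> simp [h]

@[fun_prop] protected theorem CH.ite {c P Q : α → Prop} [∀ a, Decidable (c a)] (hc : CH c) (hP : CH P)
    (hQ : CH Q) : CH fun a => if c a then P a else Q a := by
  refine ((hc.and hP).or (hc.not.and hQ)).congr fun a => ?_
  by_cases h : c a <;> simp [h]

protected theorem CH.thr {N t : α → ℕ} {B : α → ℕ → Prop} (hN : CHF N) (ht : CHF t)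
    (hB : CH fun p : α × ℕ => B p.1 p.2) : CH fun a => t a ≤ cnt (N a) (B a) := by
  have h1 : CH fun q : α × ℕ × ℕ => q.2.2 ≤ cnt q.2.1 (B q.1) :=
    CH.thr_pt (N := fun q : α × ℕ × ℕ => q.2.1) (t := fun q : α × ℕ × ℕ => q.2.2)
      (B := fun q : α × ℕ × ℕ => B q.1) (by fun_prop) (by fun_prop)
      (hB.comp_pt (g := fun p : (α × ℕ × ℕ) × ℕ => (p.1.1, p.2)) (by fun_prop))
  exact CH.comp (f := fun a => (a, N a, t a)) h1 (CHF.id.pair (hN.pair ht))

@[fun_prop] protected theorem CHF.cnt {N : α → ℕ} {B : α → ℕ → Prop} (hN : CHF N)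
    (hB : CH fun p : α × ℕ => B p.1 p.2) : CHF fun a => cnt (N a) (B a) := by
  refine CHF.of_graph_le hN (fun a => cnt_le _ _) ?_
  have hN' : CHF fun p : α × ℕ => N p.1 := fun_comp_pt hN PT.id.fst
  have hB' : CH fun p : (α × ℕ) × ℕ => B p.1.1 p.2 :=
    hB.comp_pt (g := fun p : (α × ℕ) × ℕ => (p.1.1, p.2)) (by fun_prop)
  have h1 := CH.thr (t := fun p : α × ℕ => p.2) (B := fun p : α × ℕ => B p.1) hN'
    (CHF.of_pt (by fun_prop)) hB'
  have h2 := CH.thr (t := fun p : α × ℕ => p.2 + 1) (B := fun p : α × ℕ => B p.1) hN'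
    (CHF.of_pt (by fun_prop)) hB'
  exact (h1.and h2.not).congr fun p => by omega

protected theorem CH.bex {N : α → ℕ} {B : α → ℕ → Prop} (hN : CHF N)
    (hB : CH fun p : α × ℕ => B p.1 p.2) : CH fun a => ∃ y < N a, B a y := by
  exact (CH.thr (t := fun _ => 1) hN (CHF.const 1) hB).congr fun a => cnt_pos_iff.symm

protected theorem CH.ball {N : α → ℕ} {B : α → ℕ → Prop} (hN : CHF N)
    (hB : CH fun p : α × ℕ => B p.1 p.2) : CH fun a => ∀ y < N a, B a y := by
  refine (CH.bex (B := fun a y => ¬ B a y) hN hB.not).not.congr fun a => ?_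
  simp

protected theorem CH.bex_le {N : α → ℕ} {B : α → ℕ → Prop} (hN : CHF N)
    (hB : CH fun p : α × ℕ => B p.1 p.2) : CH fun a => ∃ y ≤ N a, B a y := by
  refine (CH.bex (N := fun a => N a + 1) (hN.add (CHF.const 1)) hB).congr fun a => ?_
  simp only [Nat.lt_succ_iff]

protected theorem CH.ball_le {N : α → ℕ} {B : α → ℕ → Prop} (hN : CHF N)
    (hB : CH fun p : α × ℕ => B p.1 p.2) : CH fun a => ∀ y ≤ N a, B a y := by
  refine (CH.ball (N := fun a => N a + 1) (hN.add (CHF.const 1)) hB).congr fun a => ?_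
  simp only [Nat.lt_succ_iff]

protected theorem CH.exists_sz [Dec β] {B : α → ℕ} {P : α → β → Prop} (hB : CHF B) (hb : PB B)
    (hP : CH fun p : α × β => P p.1 p.2) : CH fun a => ∃ b : β, sz b ≤ B a ∧ P a b := by
  obtain ⟨m, hm, hmb, hle⟩ := pb_exists_pt hb
  have hd : PT (Dec.dec : D → β) := Dec.pt
  have h1 : CH fun p : α × D => sz (Dec.dec p.2 : β) ≤ B p.1 :=
    CH.le (CHF.of_pt (by fun_prop)) (fun_comp_pt hB PT.id.fst)
  have h2 : CH fun p : α × D => P p.1 (Dec.dec p.2 : β) :=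
    hP.comp_pt (g := fun p : α × D => (p.1, (Dec.dec p.2 : β))) (by fun_prop)
  have := CH.exists_D (P := fun a d => sz (Dec.dec d : β) ≤ B a ∧ P a (Dec.dec d)) hm hmb
    (h1.and h2)
  refine this.congr fun a => ⟨?_, ?_⟩
  · rintro ⟨b, hb, hp⟩
    exact ⟨enc b, hb.trans (hle a), by rw [Dec.dec_enc]; exact ⟨hb, hp⟩⟩
  · rintro ⟨d, -, hb, hp⟩
    exact ⟨_, hb, hp⟩

/-- lists of prescribed length with bounded entries -/
protected theorem CH.exists_list {n B : α → ℕ} {P : α → List ℕ → Prop} (hn : CHF n) (hb : PB n) (hB : CHF B)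
    (hP : CH fun p : α × List ℕ => P p.1 p.2) :
    CH fun a => ∃ l : List ℕ, l.length = n a ∧ (∀ x ∈ l, x < B a) ∧ P a l := by
  have h1 : CH fun p : α × List ℕ => p.2.length = n p.1 :=
    CH.eq (CHF.of_pt (by fun_prop)) (fun_comp_pt hn PT.id.fst)
  have h2 : CH fun p : α × List ℕ => ∀ x ∈ p.2, x < B p.1 :=
    CH.comp (P := fun q : List ℕ × ℕ => ∀ x ∈ q.1, x < q.2) (CH.of_decide (by fun_prop))
      ((CHF.of_pt PT.id.snd).pair (fun_comp_pt hB PT.id.fst))
  have := CH.exists_sz (B := fun a => (sz (B a) + 1) * n a + 1)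
    (P := fun a (l : List ℕ) => l.length = n a ∧ (∀ x ∈ l, x < B a) ∧ P a l)
    (((hB.sz.add (CHF.const 1)).mul hn).add (CHF.const 1))
    (((hB.1.add (PB.const 1)).mul hb).add (PB.const 1)) (h1.and (h2.and hP))
  refine this.congr fun a => ⟨?_, ?_⟩
  · rintro ⟨l, hl, hx, hp⟩
    refine ⟨l, ?_, hl, hx, hp⟩
    rw [← hl]
    exact sz_list_le l _ fun x hx' => sz_nat_mono (hx x hx').le
  · rintro ⟨l, -, h⟩
    exact ⟨l, h⟩

protected theorem CH.forall_list {n B : α → ℕ} {P : α → List ℕ → Prop} (hn : CHF n) (hb : PB n)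
    (hB : CHF B) (hP : CH fun p : α × List ℕ => P p.1 p.2) :
    CH fun a => ∀ l : List ℕ, l.length = n a → (∀ x ∈ l, x < B a) → P a l := by
  refine (CH.exists_list (P := fun a l => ¬ P a l) hn hb hB hP.not).not.congr fun a => ?_
  constructor
  · rintro h ⟨l, h1, h2, h3⟩
    exact h3 (h l h1 h2)
  · intro h l h1 h2
    by_contra h3
    exact h ⟨l, h1, h2, h3⟩

/-- quantify over the positions -/
protected theorem CH.forall_mem [Dec β] {l : α → List β} {P : α → β → Prop} (hl : CHF l)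
    (hP : CH fun p : α × β => P p.1 p.2) : CH fun a => ∀ x ∈ l a, P a x := by
  have h1 : CHF fun p : α × ℕ => (p.1, (l p.1).getD p.2 (Dec.dec D.nil : β)) :=
    (CHF.of_pt PT.id.fst).pair
      (CHF.getD (fun_comp_pt hl PT.id.fst) (CHF.of_pt PT.id.snd) (CHF.const _))
  have := CH.ball (B := fun a i => P a ((l a).getD i (Dec.dec D.nil : β))) hl.length
    (CH.comp hP h1)
  refine this.congr fun a => ⟨fun h i hi => ?_, fun h x hx => ?_⟩
  · rw [List.getD_eq_getElem _ _ hi]
    exact h _ (List.getElem_mem hi)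
  · obtain ⟨i, hi, rfl⟩ := List.getElem_of_mem hx
    have := h i hi
    rwa [List.getD_eq_getElem _ _ hi] at this

theorem lst_le (N : ℕ) (P : ℕ → Prop) : lst N P ≤ N := by
  classical
  unfold lst
  split_ifs with h
  · exact (Nat.find_spec h).1.le
  · exact le_rfl

theorem lst_lt_iff {N : ℕ} {P : ℕ → Prop} : lst N P < N ↔ ∃ y < N, P y := by
  classical
  unfold lst
  split_ifs with h
  · exact ⟨fun _ => h, fun _ => (Nat.find_spec h).1⟩
  · simpa using h

theorem lst_spec {N : ℕ} {P : ℕ → Prop} (h : ∃ y < N, P y) : P (lst N P) := by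
  classical
  unfold lst
  rw [dif_pos h]
  exact (Nat.find_spec h).2

theorem lst_min {N : ℕ} {P : ℕ → Prop} {y : ℕ} (h : y < lst N P) : ¬ P y := by
  classical
  have h0 := lst_le N P
  unfold lst at h h0
  split_ifs at h h0 with h1
  · intro hy
    exact Nat.find_min h1 h ⟨by omega, hy⟩
  · intro hy
    exact h1 ⟨y, h, hy⟩

@[fun_prop] protected theorem CHF.lst {N : α → ℕ} {B : α → ℕ → Prop} (hN : CHF N)
    (hB : CH fun p : α × ℕ => B p.1 p.2) : CHF fun a => lst (N a) (B a) := by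
  refine CHF.of_graph_le hN (fun a => lst_le _ _) ?_
  have hN' : CHF fun p : α × ℕ => N p.1 := fun_comp_pt hN PT.id.fst
  have hy : CHF fun p : α × ℕ => p.2 := CHF.of_pt PT.id.snd
  have hB' : CH fun p : (α × ℕ) × ℕ => B p.1.1 p.2 :=
    hB.comp_pt (g := fun p : (α × ℕ) × ℕ => (p.1.1, p.2)) (by fun_prop)
  have h1 := CH.ball (B := fun (p : α × ℕ) z => ¬ B p.1 z) hy hB'.not
  refine ((CH.le hy hN').and (h1.and ((CH.lt hy hN').imp hB))).congr ?_
  rintro ⟨a, y⟩
  simp only
  constructor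
  · rintro rfl
    exact ⟨lst_le _ _, fun z hz => lst_min hz, fun h => lst_spec (lst_lt_iff.1 h)⟩
  · rintro ⟨h1, h2, h3⟩
    rcases lt_trichotomy (lst (N a) (B a)) y with h | h | h
    · exact absurd (lst_spec (lst_lt_iff.1 (by omega))) (h2 _ h)
    · exact h
    · have := lst_le (N a) (B a)
      exact absurd (h3 (by omega)) (lst_min h)

@[fun_prop] protected theorem CHF.findGreatest {N : α → ℕ} {B : α → ℕ → Prop} [∀ a, DecidablePred (B a)]
    (hN : CHF N) (hB : CH fun p : α × ℕ => B p.1 p.2) :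
    CHF fun a => Nat.findGreatest (B a) (N a) := by
  refine CHF.of_graph_le hN (fun a => Nat.findGreatest_le _) ?_
  have hN' : CHF fun p : α × ℕ => N p.1 := fun_comp_pt hN PT.id.fst
  have hy : CHF fun p : α × ℕ => p.2 := CHF.of_pt PT.id.snd
  have hB' : CH fun p : (α × ℕ) × ℕ => B p.1.1 p.2 :=
    hB.comp_pt (g := fun p : (α × ℕ) × ℕ => (p.1.1, p.2)) (by fun_prop)
  have h0 : CH fun p : (α × ℕ) × ℕ => p.1.2 < p.2 := CH.of_decide (by fun_prop)
  have h1 := CH.ball_le (B := fun (p : α × ℕ) z => p.2 < z → ¬ B p.1 z) hN' (h0.imp hB'.not)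
  refine ((CH.le hy hN').and (((CH.ne hy (CHF.const 0)).imp hB).and h1)).congr ?_
  rintro ⟨a, y⟩
  simp only [Nat.findGreatest_eq_iff]
  exact and_congr Iff.rfl (and_congr Iff.rfl ⟨fun h z h1 h2 => h h2 h1, fun h z h1 h2 => h z h2 h1⟩)

theorem fun_cnt_sum (N M : ℕ) (hM : 0 < M) (f : ℕ → ℕ) (h : ∀ y < N, f y ≤ M) :
    cnt (N * M) (fun c => c % M < f (c / M)) = ∑ y ∈ Finset.range N, f y := by
  rw [cnt_eq_card, Finset.card_filter]
  induction N with
  | zero => simp
  | succ N ih =>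
    rw [add_mul, one_mul, Finset.sum_range_add, ih fun y hy => h y (by omega),
      Finset.sum_range_succ]
    congr 1
    have h1 : ∀ x ∈ Finset.range M,
        (if (N * M + x) % M < f ((N * M + x) / M) then 1 else 0) = if x < f N then 1 else 0 := by
      intro x hx
      rw [Finset.mem_range] at hx
      rw [mul_comm, Nat.mul_add_mod, Nat.mod_eq_of_lt hx, Nat.mul_add_div hM,
        Nat.div_eq_of_lt hx, add_zero]
    rw [Finset.sum_congr rfl h1, ← Finset.card_filter]
    have h2 : (Finset.range M).filter (fun x => x < f N) = Finset.range (f N) := by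
      ext x
      have := h N (by omega)
      simp only [Finset.mem_filter, Finset.mem_range]
      omega
    rw [h2, Finset.card_range]

/-- count the pairs `(y, z)` with `z < f a y`, coded as `y * 2 ^ m + z` -/
@[fun_prop] protected theorem CHF.sum {N : α → ℕ} {f : α → ℕ → ℕ} (hN : CHF N)
    (hf : CHF fun p : α × ℕ => f p.1 p.2) : CHF fun a => ∑ y ∈ Finset.range (N a), f a y := by
  obtain ⟨m, hm, hmb, hle⟩ := pb_uniform (g := fun p : α × ℕ => sz (f p.1 p.2)) hf.1 hN.1
  have hM : PT fun a => 2 ^ m a := by fun_prop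
  have hM' : CHF fun p : α × ℕ => 2 ^ m p.1 := CHF.of_pt (by fun_prop)
  have hy : CHF fun p : α × ℕ => p.2 := CHF.of_pt PT.id.snd
  have h1 : CHF fun p : α × ℕ => f p.1 (p.2 / 2 ^ m p.1) :=
    fun_comp_pt (g := fun p : α × ℕ => f p.1 p.2) (f := fun p : α × ℕ => (p.1, p.2 / 2 ^ m p.1)) hf
      (by fun_prop)
  have := CHF.cnt (N := fun a => N a * 2 ^ m a)
    (B := fun a c => c % 2 ^ m a < f a (c / 2 ^ m a)) (hN.mul (CHF.of_pt hM))
    (CH.lt (hy.mod hM') h1)
  refine this.congr fun a => (fun_cnt_sum _ _ (by positivity) _ fun y hy => ?_).symm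
  exact (lt_two_pow_sz _).le.trans
    (Nat.pow_le_pow_right (by norm_num) (hle a y (sz_nat_mono hy.le)))

@[fun_prop] protected theorem CH.prime {p : α → ℕ} (hp : CHF p) : CH fun a => (p a).Prime := by
  have hp' : CHF fun q : α × ℕ => p q.1 := fun_comp_pt hp PT.id.fst
  have hy : CHF fun q : α × ℕ => q.2 := CHF.of_pt PT.id.snd
  have h1 := CH.ball (B := fun a m => m ∣ p a → m = 1) hp
    ((CH.dvd hy hp').imp (CH.eq hy (CHF.const 1)))
  exact ((CH.le (CHF.const 2) hp).and h1).congr fun a => Nat.prime_def_lt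

@[fun_prop] protected theorem CHF.range {n : α → ℕ} (hn : CHF n) (hb : PB n) :
    CHF fun a => List.range (n a) := by
  obtain ⟨m, hm, hmb, hle⟩ := pb_exists_pt hb
  refine (CHF.take hn (CHF.of_pt (PT.range hm hmb))).congr fun a => ?_
  rw [List.take_range, min_eq_left (hle a)]

@[fun_prop] protected theorem CHF.pow {m n : α → ℕ} (hm : CHF m) (hn : CHF n) (hb : PB n) :
    CHF fun a => m a ^ n a := by
  have := CHF.comp₂ (g := fun (x : ℕ) (l : List ℕ) => x ^ l.length) (by fun_prop) hm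
    (CHF.range hn hb)
  exact this.congr fun a => by simp

@[fun_prop] protected theorem CHF.map [Dec β] [Dec γ] {l : α → List β} {g : α → β → γ} (hl : CHF l)
    (hg : CHF fun p : α × β => g p.1 p.2) : CHF fun a => (l a).map (g a) := by
  obtain ⟨m, hm, hmb, hle⟩ := pb_uniform (g := fun p : α × β => sz (g p.1 p.2)) hg.1 hl.1
  refine CHF.of_graph ((((hmb.add (PB.const 1)).mul hl.1).add (PB.const 1)).of_le fun a => ?_) ?_
  · have h1 := sz_list_le ((l a).map (g a)) (m a) fun y hy => by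
      obtain ⟨x, hx, rfl⟩ := List.mem_map.1 hy
      exact hle a x (sz_le_of_mem hx)
    rw [List.length_map] at h1
    have h2 := Nat.mul_le_mul_left (m a + 1) (length_le_sz (l a))
    omega
  have hl' : CHF fun p : α × List γ => l p.1 := fun_comp_pt hl PT.id.fst
  have h1 : CH fun p : α × List γ => p.2.length = (l p.1).length :=
    CH.eq (CHF.of_pt (by fun_prop)) hl'.length
  have h2 : CHF fun q : (α × List γ) × ℕ => (q.1.1, (l q.1.1).getD q.2 (Dec.dec D.nil : β)) :=
    (CHF.of_pt PT.id.fst.fst).pair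
      (CHF.getD (fun_comp_pt hl PT.id.fst.fst) (CHF.of_pt PT.id.snd) (CHF.const _))
  have h3 : CHF fun q : (α × List γ) × ℕ => g q.1.1 ((l q.1.1).getD q.2 (Dec.dec D.nil : β)) :=
    CHF.comp (g := fun p : α × β => g p.1 p.2) hg h2
  have h4 : CHF fun q : (α × List γ) × ℕ => q.1.2.getD q.2 (Dec.dec D.nil : γ) :=
    CHF.of_pt (by fun_prop)
  have h5 := CH.ball (B := fun (p : α × List γ) i =>
    p.2.getD i (Dec.dec D.nil : γ) = g p.1 ((l p.1).getD i (Dec.dec D.nil : β))) hl'.length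
    (CH.eq h4 h3)
  refine (h1.and h5).congr ?_
  rintro ⟨a, r⟩
  simp only
  constructor
  · rintro rfl
    refine ⟨by simp, fun i hi => ?_⟩
    rw [List.getD_eq_getElem _ _ hi, List.getD_eq_getElem _ _ (by simpa using hi)]
    simp
  · rintro ⟨e1, e2⟩
    refine List.ext_getElem (by simp [e1]) fun i h1 h2 => ?_
    have hi : i < (l a).length := by simpa using h1
    have := e2 i hi
    rw [List.getD_eq_getElem _ _ hi, List.getD_eq_getElem _ _ h2] at this
    rw [this]
    simp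

@[fun_prop] protected theorem CHF.prod_range {n : α → ℕ} {f : α → ℕ → ℕ} (hn : CHF n) (hb : PB n)
    (hf : CHF fun p : α × ℕ => f p.1 p.2) : CHF fun a => ∏ y ∈ Finset.range (n a), f a y := by
  have := CHF.comp (g := fun l : List ℕ => l.prod) (CHF.of_pt (by fun_prop))
    (CHF.map (g := f) (CHF.range hn hb) hf)
  exact this.congr fun a => prod_range_eq_list _ _

@[fun_prop] protected theorem CHF.digs {n K c : α → ℕ} (hn : CHF n) (hb : PB n) (hK : CHF K) (hc : CHF c) :
    CHF fun a => digs (n a) (K a) (c a) := by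
  have hn' : CHF fun p : α × ℕ => n p.1 := fun_comp_pt hn PT.id.fst
  have hK' : CHF fun p : α × ℕ => K p.1 := fun_comp_pt hK PT.id.fst
  have hc' : CHF fun p : α × ℕ => c p.1 := fun_comp_pt hc PT.id.fst
  have hy : CHF fun p : α × ℕ => p.2 := CHF.of_pt PT.id.snd
  have h1 : CHF fun p : α × ℕ => K p.1 ^ min p.2 (n p.1) :=
    CHF.pow hK' (hy.min hn') (PB.min_right _ (PB.comp hb PT.id.fst))
  have := CHF.map (g := fun a i => c a / K a ^ min i (n a) % K a) (CHF.range hn hb)
    ((hc'.div h1).mod hK')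
  refine this.congr fun a => ?_
  unfold digs
  refine List.map_congr_left fun i hi => ?_
  rw [min_eq_left (List.mem_range.1 hi).le]

/-- `PT.powMod` with modulus `max m 1` -/
protected theorem CHF.powMod {x e m : α → ℕ} (hx : CHF x) (he : CHF e) (hm : CHF m) (hpos : ∀ a, 0 < m a) :
    CHF fun a => x a ^ e a % m a := by
  have h1 : PT fun q : ℕ × ℕ × ℕ => q.1 ^ q.2.1 % max q.2.2 1 :=
    PT.powMod (by fun_prop) (by fun_prop) (by fun_prop) fun q => by omega
  have := CHF.comp (CHF.of_pt h1) (hx.pair (he.pair hm))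
  refine this.congr fun a => ?_
  rw [max_eq_left (hpos a)]

protected theorem CHF.exists_lt_two_pow {N : α → ℕ} (hN : CHF N) :
    ∃ m : α → ℕ, PT m ∧ PB m ∧ ∀ a, N a < 2 ^ m a := by
  obtain ⟨m, hm, hmb, hle⟩ := pb_exists_pt hN.1
  exact ⟨m, hm, hmb, fun a =>
    (lt_two_pow_sz _).trans_le (Nat.pow_le_pow_right (by norm_num) (hle a))⟩

/-- uniformise a polynomial bound over a range -/
theorem pb_uniform_range {g : α × ℕ → ℕ} (hg : PB g) {N : α → ℕ} (hN : CHF N) :
    ∃ m : α → ℕ, PT m ∧ PB m ∧ ∀ a y, y ≤ N a → g (a, y) ≤ m a := by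
  obtain ⟨m, hm, hmb, hle⟩ := pb_uniform hg hN.1
  exact ⟨m, hm, hmb, fun a y hy => hle a y (sz_nat_mono hy)⟩

/-- a prime above a given number (`Nat.exists_prime_lt_and_le_two_mul`) -/
theorem exists_chf_prime {N : α → ℕ} (hN : CHF N) :
    ∃ q : α → ℕ, CHF q ∧ ∀ a, (q a).Prime ∧ N a < q a := by
  have hy : CHF fun q : α × ℕ => q.2 := CHF.of_pt PT.id.snd
  refine ⟨fun a => lst (2 * N a + 3) fun y => y.Prime ∧ N a < y,
    CHF.lst (((CHF.const 2).mul hN).add (CHF.const 3))
      ((CH.prime hy).and (CH.lt (fun_comp_pt hN PT.id.fst) hy)), fun a => ?_⟩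
  obtain ⟨p, hp, h1, h2⟩ := Nat.exists_prime_lt_and_le_two_mul (N a + 1) (by omega)
  exact lst_spec (P := fun y => y.Prime ∧ N a < y) ⟨p, by omega, hp, by omega⟩

example {f g : α → ℕ} (hf : CHF f) (hg : CHF g) : CHF fun a => f a + g a * (f a - 3) / 2 := by
  fun_prop

example {f g : α → ℕ} (hf : CHF f) (hg : CHF g) :
    CH fun p : α × ℕ => f p.1 + 1 ≤ g p.1 * p.2 ∧ ¬ (p.2 = f p.1 ∨ (p.2 % 2).Prime) := by
  fun_prop

example {f : α → ℕ} {g : α × ℕ → ℕ} (hf : CHF f) (hg : CHF g) :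
    CHF fun p : α × List ℕ => ∑ y ∈ Finset.range (f p.1), (g (p.1, y + p.2.getD y 0) + 1) := by
  fun_prop

example {f : α → ℕ} {g : α → ℕ → ℕ} (hf : CHF f) (hg : CHF fun p : α × ℕ => g p.1 p.2) :
    CHF fun p : α × List ℕ => if f p.1 < 3 then g p.1 (f p.1 + p.2.length) else 2 := by
  fun_prop

end Crest.Agent.R316
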