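import Crest.Agent.R316.Fun

/-! Row 316: ring operations on big integers. -/

set_option autoImplicit false

namespace Crest.Agent.R316

open Crest.Agent.Lib.PT

variable {α β : Type} [Enc α] [Enc β]

theorem int_exists_gen {p : ℕ} (hp : p.Prime) :
    ∃ g < p, ∀ v < p, 0 < v → ∃ e < p, g ^ e % max p 1 = v := by
  have := Fact.mk hp
  obtain ⟨g, hg⟩ := IsCyclic.exists_monoid_generator (α := (ZMod p)ˣ)
  refine ⟨(g : ZMod p).val, ZMod.val_lt _, fun v hv h0 => ?_⟩
  have hv0 : (v : ZMod p) ≠ 0 := by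
    rw [Ne, ZMod.natCast_eq_zero_iff]
    exact Nat.not_dvd_of_pos_of_lt h0 hv
  obtain ⟨k, hk⟩ := hg (Units.mk0 _ hv0)
  have hk' : g ^ k = Units.mk0 _ hv0 := hk
  refine ⟨k % orderOf g, ?_, ?_⟩
  · have h1 : k % orderOf g < orderOf g := Nat.mod_lt _ (orderOf_pos g)
    have h2 : orderOf g ≤ Fintype.card (ZMod p)ˣ := orderOf_le_card_univ
    rw [ZMod.card_units] at h2
    omega
  · rw [max_eq_left hp.one_lt.le]
    have h3 : ((((g : ZMod p).val ^ (k % orderOf g) : ℕ)) : ZMod p) = v := by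
      rw [Nat.cast_pow, ZMod.natCast_zmod_val, ← Units.val_pow_eq_pow_val, pow_mod_orderOf, hk',
        Units.val_mk0]
    have h4 := (ZMod.natCast_eq_natCast_iff' _ _ _).1 h3
    rwa [Nat.mod_eq_of_lt hv] at h4

theorem int_tower_mono {m n : ℕ} (h : m ≤ n) : (2 : ℤ) ^ 2 ^ m ≤ 2 ^ 2 ^ n :=
  pow_le_pow_right₀ (by norm_num) (Nat.pow_le_pow_right (by norm_num) h)

theorem int_tower_mul (m n : ℕ) : (2 : ℤ) ^ 2 ^ m * 2 ^ 2 ^ n ≤ 2 ^ 2 ^ (m + n + 1) := by
  rw [← pow_add]
  refine pow_le_pow_right₀ (by norm_num) ?_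
  have h1 : 2 ^ m ≤ 2 ^ (m + n) := Nat.pow_le_pow_right (by norm_num) (by omega)
  have h2 : 2 ^ n ≤ 2 ^ (m + n) := Nat.pow_le_pow_right (by norm_num) (by omega)
  rw [pow_succ]
  omega

theorem int_two_le_tower (m : ℕ) : (2 : ℤ) ≤ 2 ^ 2 ^ m :=
  le_self_pow₀ (by norm_num) (by positivity)

theorem int_tower_add (m n : ℕ) : (2 : ℤ) ^ 2 ^ m + 2 ^ 2 ^ n ≤ 2 ^ 2 ^ (m + n + 1) := by
  refine le_trans ?_ (int_tower_mul m n)
  nlinarith [int_two_le_tower m, int_two_le_tower n]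

theorem int_pow_le_tower (m : ℕ) : (2 : ℤ) ^ m ≤ 2 ^ 2 ^ m :=
  pow_le_pow_right₀ (by norm_num) Nat.lt_two_pow_self.le

theorem int_res_modEq {p : ℕ} (hp : p.Prime) (x : ℤ) :
    (if p.Prime then x % (p : ℤ) else 0) ≡ x [ZMOD p] := by
  rw [if_pos hp]
  exact Int.mod_modEq x p

theorem int_res_toNat {p : ℕ} (hp : p.Prime) (x : ℤ) :
    (((if p.Prime then x % (p : ℤ) else 0).toNat : ℕ) : ℤ) ≡ x [ZMOD p] := by
  rw [Int.toNat_of_nonneg]
  · exact int_res_modEq hp x
  · rw [if_pos hp]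
    exact Int.emod_nonneg _ (by exact_mod_cast hp.ne_zero)

/-- Iterated product modulo a prime: if no factor vanishes, take the least generator `g` of
`(ZMod p)ˣ` (`lst`, `IsCyclic`), the discrete logarithms `lst p (fun e => g ^ e % p = v % p)`, add
them (`CHF.sum`) and exponentiate (`CHF.powMod`). -/
protected theorem CHF.prodMod {N p : α → ℕ} {f : α → ℕ → ℕ} (hN : CHF N) (hp : CHF p)
    (hf : CHF fun q : α × ℕ => f q.1 q.2) :
    CHF fun a => if (p a).Prime then (∏ y ∈ Finset.range (N a), f a y) % p a else 0 := by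
  classical
  have hP : CHF fun a => max (p a) 1 := by fun_prop
  have hpos : ∀ a, 0 < max (p a) 1 := fun a => by omega
  let gen : α → ℕ := fun a =>
    lst (p a) fun g => ∀ v < p a, 0 < v → ∃ e < p a, g ^ e % max (p a) 1 = v
  have hgen : CHF gen := by
    refine CHF.lst hp ?_
    refine CH.ball (N := fun q : α × ℕ => p q.1) (by fun_prop) ?_
    refine CH.imp (by fun_prop) ?_
    refine CH.bex (N := fun q : (α × ℕ) × ℕ => p q.1.1) (by fun_prop) ?_
    refine CH.eq ?_ (by fun_prop)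
    exact CHF.powMod (x := fun q : ((α × ℕ) × ℕ) × ℕ => q.1.1.2) (e := fun q => q.2)
      (m := fun q => max (p q.1.1.1) 1) (by fun_prop) (by fun_prop) (by fun_prop)
      fun q => hpos _
  let dlog : α → ℕ → ℕ := fun a y =>
    lst (p a) fun e => gen a ^ e % max (p a) 1 = f a y % max (p a) 1
  have hdlog : CHF fun q : α × ℕ => dlog q.1 q.2 := by
    refine CHF.lst (N := fun q : α × ℕ => p q.1) (by fun_prop) ?_
    refine CH.eq ?_ ?_
    · exact CHF.powMod (x := fun q : (α × ℕ) × ℕ => gen q.1.1) (e := fun q => q.2)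
        (m := fun q => max (p q.1.1) 1) (by fun_prop) (by fun_prop) (by fun_prop)
        fun q => hpos _
    · exact CHF.mod (hf.comp (f := fun q : (α × ℕ) × ℕ => q.1) (by fun_prop)) (by fun_prop)
  have hs : CHF fun a => ∑ y ∈ Finset.range (N a), dlog a y := CHF.sum hN hdlog
  have hpow : CHF fun a => gen a ^ (∑ y ∈ Finset.range (N a), dlog a y) % max (p a) 1 :=
    CHF.powMod hgen hs hP hpos
  have hdvd : CH fun a => ∃ y < N a, p a ∣ f a y :=
    CH.bex hN (CH.dvd (by fun_prop) hf)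
  refine (CHF.ite (CH.prime hp) (CHF.ite hdvd (CHF.const 0) hpow) (CHF.const 0)).congr
    fun a => ?_
  by_cases hpr : (p a).Prime
  swap
  · rw [if_neg hpr, if_neg hpr]
  rw [if_pos hpr, if_pos hpr]
  split_ifs with h
  · obtain ⟨y, hy, hd⟩ := h
    exact Nat.mod_eq_zero_of_dvd (hd.trans (Finset.dvd_prod_of_mem _ (Finset.mem_range.2 hy)))
  · push Not at h
    have hg : ∀ v < p a, 0 < v → ∃ e < p a, gen a ^ e % max (p a) 1 = v :=
      lst_spec (int_exists_gen hpr)
    have hmax : max (p a) 1 = p a := max_eq_left hpr.one_lt.le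
    have hd : ∀ y ∈ Finset.range (N a), f a y ≡ gen a ^ dlog a y [MOD p a] := by
      intro y hy
      have h1 : gen a ^ dlog a y % max (p a) 1 = f a y % max (p a) 1 := by
        refine lst_spec (P := fun e => gen a ^ e % max (p a) 1 = f a y % max (p a) 1)
          (hg _ ?_ ?_)
        · rw [hmax]
          exact Nat.mod_lt _ hpr.pos
        · rw [hmax]
          exact Nat.pos_of_ne_zero fun h0 =>
            h y (Finset.mem_range.1 hy) (Nat.dvd_of_mod_eq_zero h0)
      rw [hmax] at h1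
      exact h1.symm
    rw [hmax, ← Finset.prod_pow_eq_pow_sum]
    exact Nat.ModEq.prod hd

protected theorem CHZ.congr {F G : α → ℤ} (h : CHZ G) (e : ∀ a, F a = G a) : CHZ F := by
  rwa [show F = G from funext e]

protected theorem CHZ.bound {F : α → ℤ} (h : CHZ F) :
    ∃ m : α → ℕ, PT m ∧ PB m ∧ ∀ a, |F a| ≤ 2 ^ 2 ^ m a := by
  obtain ⟨⟨m, hm, hF⟩, -⟩ := h
  obtain ⟨m', h1, h2, h3⟩ := pb_exists_pt hm
  exact ⟨m', h1, h2, fun a => (hF a).trans (int_tower_mono (h3 a))⟩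

/-- the residue modulo a `CHF` prime -/
protected theorem CHZ.res {F : α → ℤ} {p : α → ℕ} (h : CHZ F) (hp : CHF p) :
    CHF fun a => if (p a).Prime then F a % (p a : ℤ) else 0 := by
  exact h.2.comp (f := fun a => (a, p a)) (CHF.id.pair hp)

/-- a practical way to build a `CHZ`: a bound and a natural number congruent to `F` -/
protected theorem CHZ.of_res {F : α → ℤ} {m : α → ℕ} {g : α × ℕ → ℤ} (hm : PB m)
    (hF : ∀ a, |F a| ≤ 2 ^ 2 ^ m a) (hg : CHF g)
    (h : ∀ a (p : ℕ), p.Prime → g (a, p) ≡ F a [ZMOD p]) : CHZ F := by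
  classical
  refine ⟨⟨m, hm, hF⟩, ?_⟩
  have h1 : CHF fun q : α × ℕ => if q.2.Prime then g q % (q.2 : ℤ) else 0 := by fun_prop
  refine h1.congr fun q => ?_
  split_ifs with hq
  · exact (h q.1 q.2 hq).symm
  · rfl

@[fun_prop] protected theorem CHZ.of_chf {F : α → ℤ} (h : CHF F) : CHZ F := by
  exact CHZ.of_res (g := fun q => F q.1) h.1
    (fun a => (abs_lt_two_pow_sz _).trans (int_pow_le_tower _)) (by fun_prop) fun _ _ _ => rfl

@[fun_prop] protected theorem CHZ.natCast {n : α → ℕ} (h : CHF n) : CHZ fun a => (n a : ℤ) :=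
  CHZ.of_chf h.intNatCast

@[fun_prop] protected theorem CHZ.const (c : ℤ) : CHZ fun _ : α => c := CHZ.of_chf (CHF.const c)

@[fun_prop] protected theorem CHZ.comp {F : β → ℤ} {g : α → β} (h : CHZ F) (hg : CHF g) :
    CHZ fun a => F (g a) := by
  obtain ⟨⟨m, hm, hF⟩, h2⟩ := h
  exact ⟨⟨fun a => m (g a), pb_comp_chf hm hg, fun a => hF _⟩,
    h2.comp (f := fun q : α × ℕ => (g q.1, q.2)) (by fun_prop)⟩

@[fun_prop] protected theorem CHZ.add {F G : α → ℤ} (hF : CHZ F) (hG : CHZ G) : CHZ fun a => F a + G a := by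
  obtain ⟨⟨m, hm, hF⟩, h1⟩ := hF
  obtain ⟨⟨n, hn, hG⟩, h2⟩ := hG
  exact CHZ.of_res (m := fun a => m a + n a + 1) (by fun_prop)
    (fun a => (abs_add_le _ _).trans ((add_le_add (hF a) (hG a)).trans (int_tower_add _ _)))
    (h1.intAdd h2) fun a p hp => (int_res_modEq hp _).add (int_res_modEq hp _)

@[fun_prop] protected theorem CHZ.neg {F : α → ℤ} (hF : CHZ F) : CHZ fun a => -F a := by
  obtain ⟨⟨m, hm, hF⟩, h1⟩ := hF
  exact CHZ.of_res hm (fun a => by rw [abs_neg]; exact hF a) h1.intNeg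
    fun a p hp => (int_res_modEq hp _).neg

@[fun_prop] protected theorem CHZ.sub {F G : α → ℤ} (hF : CHZ F) (hG : CHZ G) : CHZ fun a => F a - G a := by
  exact (hF.add hG.neg).congr fun a => sub_eq_add_neg _ _

@[fun_prop] protected theorem CHZ.mul {F G : α → ℤ} (hF : CHZ F) (hG : CHZ G) : CHZ fun a => F a * G a := by
  obtain ⟨⟨m, hm, hF⟩, h1⟩ := hF
  obtain ⟨⟨n, hn, hG⟩, h2⟩ := hG
  refine CHZ.of_res (m := fun a => m a + n a + 1) (by fun_prop) (fun a => ?_)
    (h1.intMul h2) fun a p hp => (int_res_modEq hp _).mul (int_res_modEq hp _)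
  rw [abs_mul]
  exact (mul_le_mul (hF a) (hG a) (abs_nonneg _) (by positivity)).trans (int_tower_mul _ _)

@[fun_prop] protected theorem CHZ.ite {P : α → Prop} [∀ a, Decidable (P a)] {F G : α → ℤ} (hP : CH P)
    (hF : CHZ F) (hG : CHZ G) : CHZ fun a => if P a then F a else G a := by
  obtain ⟨⟨m, hm, hF⟩, h1⟩ := hF
  obtain ⟨⟨n, hn, hG⟩, h2⟩ := hG
  refine CHZ.of_res (m := fun a => m a + n a) (by fun_prop) (fun a => ?_)
    (CHF.ite (P := fun q : α × ℕ => P q.1) (hP.comp (by fun_prop)) h1 h2) fun a p hp => ?_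
  · split_ifs
    · exact (hF a).trans (int_tower_mono (by omega))
    · exact (hG a).trans (int_tower_mono (by omega))
  · by_cases h : P a
    · simp only [if_pos h]
      exact int_res_modEq hp _
    · simp only [if_neg h]
      exact int_res_modEq hp _

@[fun_prop] protected theorem CHZ.sum {N : α → ℕ} {F : α → ℕ → ℤ} (hN : CHF N)
    (hF : CHZ fun q : α × ℕ => F q.1 q.2) : CHZ fun a => ∑ y ∈ Finset.range (N a), F a y := by
  obtain ⟨⟨m, hm, hF⟩, h1⟩ := hF
  obtain ⟨M, -, hM, hmM⟩ := pb_uniform_range hm hN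
  obtain ⟨k, -, hk, hNk⟩ := hN.exists_lt_two_pow
  have h2 : CHF fun q : (α × ℕ) × ℕ =>
      (if q.1.2.Prime then F q.1.1 q.2 % (q.1.2 : ℤ) else 0).toNat :=
    (h1.comp (f := fun q : (α × ℕ) × ℕ => ((q.1.1, q.2), q.1.2)) (by fun_prop)).toNat
  have h3 := (CHF.sum (N := fun q : α × ℕ => N q.1)
    (f := fun q y => (if q.2.Prime then F q.1 y % (q.2 : ℤ) else 0).toNat)
    (by fun_prop) h2).intNatCast
  refine CHZ.of_res (m := fun a => k a + M a + 1) (by fun_prop) (fun a => ?_) h3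
    fun a p hp => ?_
  · refine (Finset.abs_sum_le_sum_abs _ _).trans ?_
    refine (Finset.sum_le_card_nsmul _ _ ((2 : ℤ) ^ 2 ^ M a) fun y hy => ?_).trans ?_
    · exact (hF (a, y)).trans (int_tower_mono (hmM a y (Finset.mem_range.1 hy).le))
    · rw [Finset.card_range, nsmul_eq_mul]
      refine le_trans ?_ (int_tower_mul _ _)
      have h4 : (N a : ℤ) ≤ 2 ^ k a := by exact_mod_cast (hNk a).le
      exact mul_le_mul_of_nonneg_right (h4.trans (int_pow_le_tower _)) (by positivity)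
  · simp only [Nat.cast_sum]
    exact Int.ModEq.sum fun y _ => int_res_toNat hp _

@[fun_prop] protected theorem CHZ.prod {N : α → ℕ} {F : α → ℕ → ℤ} (hN : CHF N)
    (hF : CHZ fun q : α × ℕ => F q.1 q.2) : CHZ fun a => ∏ y ∈ Finset.range (N a), F a y := by
  obtain ⟨⟨m, hm, hF⟩, h1⟩ := hF
  obtain ⟨M, -, hM, hmM⟩ := pb_uniform_range hm hN
  obtain ⟨k, -, hk, hNk⟩ := hN.exists_lt_two_pow
  have h2 : CHF fun q : (α × ℕ) × ℕ =>
      (if q.1.2.Prime then F q.1.1 q.2 % (q.1.2 : ℤ) else 0).toNat :=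
    (h1.comp (f := fun q : (α × ℕ) × ℕ => ((q.1.1, q.2), q.1.2)) (by fun_prop)).toNat
  have h3 := (CHF.prodMod (N := fun q : α × ℕ => N q.1) (p := fun q => q.2)
    (f := fun q y => (if q.2.Prime then F q.1 y % (q.2 : ℤ) else 0).toNat)
    (by fun_prop) (by fun_prop) h2).intNatCast
  refine CHZ.of_res (m := fun a => M a + k a) (by fun_prop) (fun a => ?_) h3
    fun a p hp => ?_
  · rw [Finset.abs_prod]
    refine (Finset.prod_le_prod (g := fun _ => (2 : ℤ) ^ 2 ^ M a) (fun y _ => abs_nonneg _)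
      fun y hy => ?_).trans ?_
    · exact (hF (a, y)).trans (int_tower_mono (hmM a y (Finset.mem_range.1 hy).le))
    · rw [Finset.prod_const, Finset.card_range, ← pow_mul, pow_add]
      exact pow_le_pow_right₀ (by norm_num) (Nat.mul_le_mul_left _ (hNk a).le)
  · simp only [if_pos hp, Int.natCast_mod, Nat.cast_prod]
    refine (Int.mod_modEq _ _).trans (Int.ModEq.prod fun y _ => ?_)
    have := int_res_toNat hp (F a y)
    rwa [if_pos hp] at this

@[fun_prop] protected theorem CHZ.pow {F : α → ℤ} {e : α → ℕ} (hF : CHZ F) (he : CHF e) :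
    CHZ fun a => F a ^ e a := by
  exact (CHZ.prod (F := fun a _ => F a) he (hF.comp (by fun_prop))).congr fun a => by simp

end Crest.Agent.R316
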