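import Crest.Agent.R316.Poly

/-! Row 316: interpolation modulo primes and iterated products of polynomials. -/

set_option autoImplicit false

namespace Crest.Agent.R316

open Crest.Agent.Lib.PT MvPolynomial

variable {α β : Type} [Enc α] [Enc β]

/-- sum of the absolute values of the coefficients -/
noncomputable def l1 (P : MvPolynomial ℕ ℤ) : ℤ := ∑ d ∈ P.support, |coeff d P|

theorem interp_l1_eq {P : MvPolynomial ℕ ℤ} {s : Finset (ℕ →₀ ℕ)} (h : P.support ⊆ s) :
    l1 P = ∑ d ∈ s, |coeff d P| :=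
  Finset.sum_subset h fun d _ hd => by rw [notMem_support_iff.1 hd, abs_zero]

theorem abs_coeff_le_l1 (P : MvPolynomial ℕ ℤ) (d : ℕ →₀ ℕ) : |coeff d P| ≤ l1 P := by
  by_cases h : d ∈ P.support
  · exact Finset.single_le_sum (f := fun d => |coeff d P|) (fun _ _ => abs_nonneg _) h
  · rw [notMem_support_iff.1 h, abs_zero]
    exact Finset.sum_nonneg fun _ _ => abs_nonneg _

theorem l1_nonneg (P : MvPolynomial ℕ ℤ) : 0 ≤ l1 P := by
  exact Finset.sum_nonneg fun _ _ => abs_nonneg _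

theorem l1_add_le (P Q : MvPolynomial ℕ ℤ) : l1 (P + Q) ≤ l1 P + l1 Q := by
  rw [interp_l1_eq (support_add (p := P) (q := Q)),
    interp_l1_eq (P := P) (s := P.support ∪ Q.support) Finset.subset_union_left,
    interp_l1_eq (P := Q) (s := P.support ∪ Q.support) Finset.subset_union_right,
    ← Finset.sum_add_distrib]
  exact Finset.sum_le_sum fun d _ => by rw [coeff_add]; exact abs_add_le _ _

theorem l1_neg (P : MvPolynomial ℕ ℤ) : l1 (-P) = l1 P := by
  simp [l1]

theorem interp_l1_monomial (d : ℕ →₀ ℕ) (c : ℤ) : l1 (monomial d c) = |c| := by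
  rw [interp_l1_eq (s := {d}) support_monomial_subset]
  simp

theorem interp_l1_sum_le {ι : Type} (s : Finset ι) (P : ι → MvPolynomial ℕ ℤ) :
    l1 (∑ i ∈ s, P i) ≤ ∑ i ∈ s, l1 (P i) :=
  Finset.le_sum_of_subadditive l1 (by simp [l1]) l1_add_le s P

theorem l1_mul_le (P Q : MvPolynomial ℕ ℤ) : l1 (P * Q) ≤ l1 P * l1 Q := by
  have e : P * Q = ∑ d ∈ P.support, ∑ e ∈ Q.support, monomial (d + e) (coeff d P * coeff e Q) := by
    conv_lhs => rw [P.as_sum, Q.as_sum]
    simp only [Finset.sum_mul_sum, monomial_mul]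
  rw [e]
  refine (interp_l1_sum_le _ _).trans ?_
  rw [l1, l1, Finset.sum_mul_sum]
  refine Finset.sum_le_sum fun d _ => (interp_l1_sum_le _ _).trans_eq ?_
  simp only [interp_l1_monomial, abs_mul]

theorem l1_monomial (d : ℕ →₀ ℕ) (c : ℤ) : l1 (monomial d c) = |c| := by
  exact interp_l1_monomial d c

theorem l1_prod_le {ι : Type} (s : Finset ι) (P : ι → MvPolynomial ℕ ℤ) :
    l1 (∏ i ∈ s, P i) ≤ ∏ i ∈ s, l1 (P i) := by
  classical
  induction s using Finset.induction_on with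
  | empty =>
    rw [Finset.prod_empty, Finset.prod_empty, ← C_1, ← monomial_zero', l1_monomial, abs_one]
  | insert i s hi ih =>
    rw [Finset.prod_insert hi, Finset.prod_insert hi]
    exact (l1_mul_le _ _).trans (mul_le_mul_of_nonneg_left ih (l1_nonneg _))

theorem interp_sum_pow {p : ℕ} (hp : p.Prime) {k : ℕ} (hk : k ≠ 0) :
    ∑ t ∈ Finset.range p, ((t : ℕ) : ZMod p) ^ k = if p - 1 ∣ k then -1 else 0 := by
  classical
  have := Fact.mk hp
  have h1 : ∑ t ∈ Finset.range p, ((t : ℕ) : ZMod p) ^ k = ∑ x : ZMod p, x ^ k := by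
    refine Finset.sum_nbij (fun t => (t : ZMod p)) (fun _ _ => Finset.mem_univ _) ?_ ?_
      (fun _ _ => rfl)
    · intro a ha b hb hab
      have := (ZMod.natCast_eq_natCast_iff' a b p).1 hab
      rwa [Nat.mod_eq_of_lt (by simpa using ha), Nat.mod_eq_of_lt (by simpa using hb)] at this
    · intro x _
      exact ⟨x.val, by simpa using ZMod.val_lt x, ZMod.natCast_zmod_val x⟩
  let φ : (ZMod p)ˣ ↪ ZMod p := ⟨fun x => x, Units.val_injective⟩
  have h2 : Finset.univ.map φ = Finset.univ \ {0} := by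
    ext x
    simpa only [Finset.mem_map, Finset.mem_univ, Function.Embedding.coeFn_mk, true_and,
      Finset.mem_sdiff, Finset.mem_singleton, φ] using! isUnit_iff_ne_zero
  have h3 := FiniteField.sum_pow_units (ZMod p) k
  rw [ZMod.card] at h3
  rw [h1, ← Finset.sum_sdiff ({0} : Finset (ZMod p)).subset_univ, Finset.sum_singleton,
    zero_pow hk, add_zero, ← h2, Finset.sum_map, ← h3]
  rfl

theorem interp_sum_box_prod {R : Type} [CommSemiring R] (n K : ℕ) (f : ℕ → ℕ → R) :
    ∑ z ∈ box n K, ∏ i ∈ Finset.range n, f i (z i)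
      = ∏ i ∈ Finset.range n, ∑ t ∈ Finset.range K, f i t := by
  classical
  rw [Finset.prod_sum, box, Finset.finsupp, Finset.sum_map]
  refine Finset.sum_congr (by congr; exact Subsingleton.elim _ _) fun z _ => ?_
  rw [← Finset.prod_attach]
  refine Finset.prod_congr rfl fun i _ => ?_
  rw [Function.Embedding.coeFn_mk, Finsupp.indicator_of_mem i.2]

theorem interp_eval_eq {P : MvPolynomial ℕ ℤ} {n K : ℕ} (h : P.support ⊆ box n K) (x : ℕ → ℤ) :
    eval x P = ∑ d ∈ box n K, coeff d P * ∏ i ∈ Finset.range n, x i ^ d i := by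
  rw [eval_eq, Finset.sum_subset h fun d _ hd => by rw [notMem_support_iff.1 hd, zero_mul]]
  refine Finset.sum_congr rfl fun d hd => ?_
  congr 1
  refine Finset.prod_subset (fun i hi => ?_) fun i _ hi => by
    rw [Finsupp.notMem_support_iff.1 hi, pow_zero]
  rw [Finset.mem_range]
  by_contra h0
  exact Finsupp.mem_support_iff.1 hi ((mem_box.1 hd).1 i (by omega))

/-- interpolation modulo a prime -/
theorem interp_coeff {P : MvPolynomial ℕ ℤ} {n K p : ℕ} (hp : p.Prime) (hK : K < p)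
    (h : P.support ⊆ box n K) {e : ℕ →₀ ℕ} (he : e ∈ box n K) :
    (-1) ^ n * ∑ z ∈ box n p, eval (fun i => ((z i : ℕ) : ℤ)) P *
      ∏ i ∈ Finset.range n, ((z i : ℕ) : ℤ) ^ (p - 1 - e i) ≡ coeff e P [ZMOD p] := by
  classical
  rw [← ZMod.intCast_eq_intCast_iff]
  simp only [interp_eval_eq h, Finset.sum_mul, mul_assoc, ← Finset.prod_mul_distrib, ← pow_add]
  push_cast
  rw [Finset.sum_comm]
  simp only [← Finset.mul_sum]
  have h1 : ∀ d ∈ box n K, ∑ z ∈ box n p, ∏ i ∈ Finset.range n,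
      ((z i : ℕ) : ZMod p) ^ (d i + (p - 1 - e i)) = if d = e then (-1) ^ n else 0 := by
    intro d hd
    rw [interp_sum_box_prod n p fun i t => (t : ZMod p) ^ (d i + (p - 1 - e i))]
    have h2 : ∀ i ∈ Finset.range n, ∑ t ∈ Finset.range p, (t : ZMod p) ^ (d i + (p - 1 - e i))
        = if d i = e i then -1 else 0 := by
      intro i hi
      have h3 := (mem_box.1 hd).2 i (Finset.mem_range.1 hi)
      have h4 := (mem_box.1 he).2 i (Finset.mem_range.1 hi)
      rw [interp_sum_pow hp (by omega)]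
      refine if_congr ⟨fun h5 => ?_, fun h5 => ?_⟩ rfl rfl
      · have := Nat.eq_of_dvd_of_lt_two_mul (by omega) h5 (by omega)
        omega
      · rw [show d i + (p - 1 - e i) = p - 1 by omega]
    rw [Finset.prod_congr rfl h2]
    split_ifs with hde
    · simp [hde]
    · obtain ⟨i, hi⟩ : ∃ i, d i ≠ e i := by
        by_contra h0
        exact hde (Finsupp.ext fun i => by simpa using not_exists.1 h0 i)
      have hin : i < n := by
        by_contra h0
        exact hi (by rw [(mem_box.1 hd).1 i (by omega), (mem_box.1 he).1 i (by omega)])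
      exact Finset.prod_eq_zero (Finset.mem_range.2 hin) (if_neg hi)
  rw [Finset.sum_congr rfl fun d hd => by rw [h1 d hd]]
  simp only [mul_ite, mul_zero, Finset.sum_ite_eq', if_pos he]
  rw [mul_left_comm, ← mul_pow]
  simp

theorem interp_ch_mem_box {n K : α → ℕ} {l : α → List ℕ} (hn : CHF n) (hK : CHF K) (hl : CHF l) :
    CH fun a => toF (l a) ∈ box (n a) (K a) := by
  have h1 : CH fun a => ∀ i < (l a).length, n a ≤ i → (l a).getD i 0 = 0 :=
    CH.ball hl.length (CH.imp (by fun_prop) (by fun_prop))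
  have h2 : CH fun a => ∀ i < n a, (l a).getD i 0 < K a := CH.ball hn (by fun_prop)
  refine (h1.and h2).congr fun a => ?_
  rw [mem_box]
  refine and_congr ⟨fun h i _ hi => h i hi, fun h i hi => ?_⟩ Iff.rfl
  by_cases h0 : i < (l a).length
  · exact h i h0 hi
  · exact List.getD_eq_default _ _ (by omega)

theorem interp_support_mul {P Q : MvPolynomial ℕ ℤ} {n K K' : ℕ} (hP : P.support ⊆ box n K)
    (hQ : Q.support ⊆ box n K') : (P * Q).support ⊆ box n (K + K') := by
  classical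
  intro d hd
  obtain ⟨a, ha, b, hb, rfl⟩ := Finset.mem_add.1 (support_mul P Q hd)
  have ha' := mem_box.1 (hP ha)
  have hb' := mem_box.1 (hQ hb)
  refine mem_box.2 ⟨fun i hi => ?_, fun i hi => ?_⟩
  · rw [Finsupp.add_apply, ha'.1 i hi, hb'.1 i hi]
  · rw [Finsupp.add_apply]
    exact add_lt_add (ha'.2 i hi) (hb'.2 i hi)

theorem interp_support_prod {P : ℕ → MvPolynomial ℕ ℤ} {n K N : ℕ}
    (hP : ∀ y < N, (P y).support ⊆ box n K) :
    (∏ y ∈ Finset.range N, P y).support ⊆ box n (1 + N * K) := by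
  induction N with
  | zero =>
    intro d hd
    rw [Finset.prod_range_zero, ← C_1, ← monomial_zero'] at hd
    rw [Finset.mem_singleton.1 (support_monomial_subset hd)]
    exact mem_box.2 ⟨fun _ _ => rfl, fun _ _ => by simp⟩
  | succ N ih =>
    rw [Finset.prod_range_succ, add_mul, one_mul, ← add_assoc]
    exact interp_support_mul (ih fun y hy => hP y (by omega)) (hP N (by omega))

/-- For a prime `p > 2 ^ m + 1` and `e` in the box, modulo `p`,
`coeff e P = (-1) ^ m ∑_{z ∈ [1, p - 1] ^ m} P (z) ∏ z i ^ (p - 1 - e i)`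
(`FiniteField.sum_pow_units`); the right-hand side is a `CHZ` function of `(a, l, p)`, take its
residue (`CHZ.res`) and use `CHZ.of_large`. -/
protected theorem CHP.of_evalZ {P : α → MvPolynomial ℕ ℤ} {m : α → ℕ} (hm : PB m)
    (hs : ∀ a, (P a).support ⊆ box (m a) (2 ^ m a)) (hc : ∀ a d, |coeff d (P a)| ≤ 2 ^ 2 ^ m a)
    (hE : CHZ fun q : α × List ℕ => eval (fun i => ((q.2.getD i 0 : ℕ) : ℤ)) (P q.1)) :
    CHP fun a => map (Int.castRingHom ℚ) (P a) := by
  classical
  obtain ⟨M, hM1, hM2, hM⟩ := pb_exists_pt hm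
  have hMc : CHF M := CHF.of_pt hM1
  have hs' : ∀ a, (P a).support ⊆ box (M a) (2 ^ M a) := fun a =>
    (hs a).trans (box_mono (hM a) (Nat.pow_le_pow_right (by norm_num) (hM a)) (by positivity))
  refine ⟨⟨M, hM2, fun a => (support_map_subset _ _).trans (hs' a)⟩, ?_⟩
  simp only [coeff_map]
  refine CHQ.intCast (F := fun q : α × List ℕ => coeff (toF q.2) (P q.1)) ?_
  have hb1 : PB fun q : α × List ℕ => M q.1 := by fun_prop
  have hb2 : PB fun q : (α × List ℕ) × ℕ => M q.1.1 := by fun_prop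
  have hb3 : PB fun q : ((α × List ℕ) × ℕ) × ℕ => M q.1.1.1 := by fun_prop
  have hdig : CHF fun q : ((α × List ℕ) × ℕ) × ℕ => digs (M q.1.1.1) q.1.2 q.2 :=
    CHF.digs (by fun_prop) hb3 (by fun_prop) (by fun_prop)
  have h1 : CHZ fun q : ((α × List ℕ) × ℕ) × ℕ =>
      eval (fun i => (((digs (M q.1.1.1) q.1.2 q.2).getD i 0 : ℕ) : ℤ)) (P q.1.1.1) :=
    hE.comp (g := fun q : ((α × List ℕ) × ℕ) × ℕ => (q.1.1.1, digs (M q.1.1.1) q.1.2 q.2))
      (CHF.pair (by fun_prop) hdig)
  have h2 : CHZ fun q : ((α × List ℕ) × ℕ) × ℕ => ∏ i ∈ Finset.range (M q.1.1.1),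
      (((digs (M q.1.1.1) q.1.2 q.2).getD i 0 : ℕ) : ℤ) ^ (q.1.2 - 1 - q.1.1.2.getD i 0) := by
    refine CHZ.prod (F := fun (q : ((α × List ℕ) × ℕ) × ℕ) i =>
      (((digs (M q.1.1.1) q.1.2 q.2).getD i 0 : ℕ) : ℤ) ^ (q.1.2 - 1 - q.1.1.2.getD i 0))
      (by fun_prop) (CHZ.pow (CHZ.natCast ?_) (by fun_prop))
    exact CHF.getD (hdig.comp (CHF.fst CHF.id)) (by fun_prop) (by fun_prop)
  have h3 : CHZ fun q : (α × List ℕ) × ℕ => (-1) ^ M q.1.1 *
      ∑ c ∈ Finset.range (q.2 ^ M q.1.1),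
        eval (fun i => (((digs (M q.1.1) q.2 c).getD i 0 : ℕ) : ℤ)) (P q.1.1) *
          ∏ i ∈ Finset.range (M q.1.1),
            (((digs (M q.1.1) q.2 c).getD i 0 : ℕ) : ℤ) ^ (q.2 - 1 - q.1.2.getD i 0) :=
    CHZ.mul (CHZ.pow (CHZ.const _) (by fun_prop))
      (CHZ.sum (CHF.pow (by fun_prop) (by fun_prop) hb2) (h1.mul h2))
  have h4 := h3.res (p := fun q => q.2) (by fun_prop)
  have h5 : CH fun q : (α × List ℕ) × ℕ => toF q.1.2 ∈ box (M q.1.1) (2 ^ M q.1.1) :=
    interp_ch_mem_box (by fun_prop) (CHF.pow (CHF.const 2) (by fun_prop) hb2) (by fun_prop)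
  refine CHZ.of_large (lo := fun q => 2 ^ M q.1) hb1
    (fun q => (hc _ _).trans (int_tower_mono (hM _)))
    (CHF.pow (CHF.const 2) (by fun_prop) hb1) (CHF.ite h5 h4 (CHF.const 0)) fun q p hp hlo => ?_
  dsimp only
  split_ifs with h6
  · refine (Int.mod_modEq _ _).trans ?_
    have h7 := interp_coeff hp hlo (hs' q.1) h6
    rw [sum_box] at h7
    exact h7
  · rw [notMem_support_iff.1 fun h => h6 (hs' _ h)]

/-- clear denominators: a positive `CHZ` multiple is an integer polynomial whose values at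
natural points are `CHZ` and whose `l1` norm is doubly exponentially bounded -/
theorem CHP.exists_int {P : α → MP} (h : CHP P) :
    ∃ (Dn : α → ℤ) (Z : α → MvPolynomial ℕ ℤ) (m : α → ℕ), CHZ Dn ∧ PB m ∧
      (CHZ fun q : α × List ℕ => eval (fun i => ((q.2.getD i 0 : ℕ) : ℤ)) (Z q.1)) ∧
      ∀ a, 0 < Dn a ∧ map (Int.castRingHom ℚ) (Z a) = (Dn a : ℚ) • P a ∧
        (Z a).support ⊆ box (m a) (2 ^ m a) ∧ l1 (Z a) ≤ 2 ^ 2 ^ m a := by
  classical
  obtain ⟨m, hm1, hm2, hm⟩ := h.bound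
  have hmc : CHF m := CHF.of_pt hm1
  have hK : CHF fun a => 2 ^ m a := CHF.pow (CHF.const 2) hmc hm2
  have hN : CHF fun a => (2 ^ m a) ^ m a := CHF.pow hK hmc hm2
  have hb1 : PB fun q : α × ℕ => m q.1 := by fun_prop
  have hdig : CHF fun q : α × ℕ => digs (m q.1) (2 ^ m q.1) q.2 :=
    CHF.digs (by fun_prop) hb1 (hK.comp (CHF.fst CHF.id)) (by fun_prop)
  obtain ⟨Dn, Zc, hDn, hZc, hZ⟩ := CHQ.common
    (F := fun a c => coeff (toF (digs (m a) (2 ^ m a) c)) (P a)) hN
    (CHQ.coeff (h.comp (CHF.fst CHF.id)) hdig)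
  obtain ⟨k, -, hk2, hk⟩ := (CHZ.sum (F := fun a c => Zc (a, c) * Zc (a, c)) hN (hZc.mul hZc)).bound
  let Z : α → MvPolynomial ℕ ℤ := fun a => ∑ c ∈ Finset.range ((2 ^ m a) ^ m a),
    monomial (toF (digs (m a) (2 ^ m a) c)) (Zc (a, c))
  have hmap : ∀ a, map (Int.castRingHom ℚ) (Z a) = (Dn a : ℚ) • P a := by
    intro a
    have e1 : P a = ∑ d ∈ box (m a) (2 ^ m a), monomial d (coeff d (P a)) := by
      conv_lhs => rw [(P a).as_sum]
      exact Finset.sum_subset (hm a) fun d _ hd => by rw [notMem_support_iff.1 hd, monomial_zero]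
    conv_rhs => rw [e1, sum_box, Finset.smul_sum]
    rw [map_sum]
    refine Finset.sum_congr rfl fun c hc => ?_
    rw [map_monomial, smul_monomial, smul_eq_mul, ← (hZ a).2 c (Finset.mem_range.1 hc)]
    rfl
  have hsup : ∀ a, (Z a).support ⊆ box (m a) (2 ^ m a) := by
    intro a
    rw [← support_map_of_injective (Z a) (f := Int.castRingHom ℚ) Int.cast_injective, hmap]
    exact support_smul.trans (hm a)
  refine ⟨Dn, Z, fun a => m a + k a, hDn, by fun_prop, ?_, fun a => ⟨(hZ a).1, hmap a,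
    (hsup a).trans (box_mono (Nat.le_add_right _ _)
      (Nat.pow_le_pow_right (by norm_num) (Nat.le_add_right _ _))
      (by positivity)), ?_⟩⟩
  · have hdig' : CHF fun q : ((α × List ℕ) × ℕ) × ℕ => digs (m q.1.1.1) (2 ^ m q.1.1.1) q.1.2 :=
      hdig.comp (f := fun q : ((α × List ℕ) × ℕ) × ℕ => (q.1.1.1, q.1.2)) (by fun_prop)
    have h1 : CHZ fun q : (α × List ℕ) × ℕ => ∏ i ∈ Finset.range (m q.1.1),
        ((q.1.2.getD i 0 : ℕ) : ℤ) ^ (digs (m q.1.1) (2 ^ m q.1.1) q.2).getD i 0 :=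
      CHZ.prod (F := fun (q : (α × List ℕ) × ℕ) i =>
        ((q.1.2.getD i 0 : ℕ) : ℤ) ^ (digs (m q.1.1) (2 ^ m q.1.1) q.2).getD i 0) (by fun_prop)
        (CHZ.pow (CHZ.natCast (by fun_prop)) (CHF.getD hdig' (by fun_prop) (by fun_prop)))
    have h2 : CHZ fun q : (α × List ℕ) × ℕ => Zc (q.1.1, q.2) := hZc.comp (by fun_prop)
    refine (CHZ.sum (N := fun q : α × List ℕ => (2 ^ m q.1) ^ m q.1)
      (F := fun q c => Zc (q.1, c) * ∏ i ∈ Finset.range (m q.1),
        ((q.2.getD i 0 : ℕ) : ℤ) ^ (digs (m q.1) (2 ^ m q.1) c).getD i 0)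
      (hN.comp (CHF.fst CHF.id)) (h2.mul h1)).congr fun q => ?_
    simp only [Z, map_sum, eval_monomial]
    refine Finset.sum_congr rfl fun c _ => ?_
    congr 1
    refine Finsupp.prod_of_support_subset _ (fun i hi => ?_) _ fun i _ => pow_zero _
    rw [Finset.mem_range]
    by_contra h0
    exact Finsupp.mem_support_iff.1 hi (List.getD_eq_default _ _ (by simp [digs]; omega))
  · refine (interp_l1_sum_le _ _).trans ?_
    refine le_trans ?_ (((le_abs_self _).trans (hk a)).trans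
      (int_tower_mono (Nat.le_add_left _ _)))
    refine Finset.sum_le_sum fun c _ => ?_
    rw [l1_monomial, ← abs_mul_abs_self]
    exact Int.le_self_sq _ |>.trans_eq (sq _)

@[fun_prop] protected theorem CHP.prod {N : α → ℕ} {P : α → ℕ → MP} (hN : CHF N)
    (hP : CHP fun q : α × ℕ => P q.1 q.2) : CHP fun a => ∏ y ∈ Finset.range (N a), P a y := by
  obtain ⟨Dn, Z, m, hDn, hm, hE, hZ⟩ := hP.exists_int
  obtain ⟨M, -, hM, hmM⟩ := pb_uniform_range hm hN
  obtain ⟨k, -, hk, hNk⟩ := hN.exists_lt_two_pow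
  have h1 : CHP fun a => map (Int.castRingHom ℚ) (∏ y ∈ Finset.range (N a), Z (a, y)) := by
    refine CHP.of_evalZ (m := fun a => M a + k a) (by fun_prop) (fun a => ?_) (fun a d => ?_) ?_
    · refine (interp_support_prod (n := M a) (K := 2 ^ M a) fun y hy =>
        (hZ (a, y)).2.2.1.trans (box_mono (hmM a y hy.le)
          (Nat.pow_le_pow_right (by norm_num) (hmM a y hy.le)) (by positivity))).trans
        (box_mono (by omega) ?_ (by positivity))
      have h2 := hNk a
      have h3 : 0 < 2 ^ M a := by positivity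
      rw [pow_add]
      nlinarith
    · refine (abs_coeff_le_l1 _ _).trans ((l1_prod_le _ _).trans ?_)
      refine (Finset.prod_le_prod (g := fun _ => (2 : ℤ) ^ 2 ^ M a) (fun y _ => l1_nonneg _)
        fun y hy => ?_).trans ?_
      · exact (hZ (a, y)).2.2.2.trans (int_tower_mono (hmM a y (Finset.mem_range.1 hy).le))
      · rw [Finset.prod_const, Finset.card_range, ← pow_mul, pow_add]
        exact pow_le_pow_right₀ (by norm_num) (Nat.mul_le_mul_left _ (hNk a).le)
    · refine (CHZ.prod (N := fun q : α × List ℕ => N q.1)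
        (F := fun q y => eval (fun i => ((q.2.getD i 0 : ℕ) : ℤ)) (Z (q.1, y))) (by fun_prop)
        (hE.comp (g := fun q : (α × List ℕ) × ℕ => ((q.1.1, q.2), q.1.2)) (by fun_prop))).congr
        fun q => ?_
      rw [map_prod]
  have h2 : CHZ fun a => ∏ y ∈ Finset.range (N a), Dn (a, y) :=
    CHZ.prod (F := fun a y => Dn (a, y)) hN hDn
  refine (CHP.smul (CHQ.intCast h2).inv h1).congr fun a => ?_
  have h3 : ((∏ y ∈ Finset.range (N a), Dn (a, y) : ℤ) : ℚ) ≠ 0 := by
    exact_mod_cast (Finset.prod_pos fun y _ => (hZ (a, y)).1).ne'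
  rw [map_prod, Finset.prod_congr rfl fun y _ => (hZ (a, y)).2.1, Finset.prod_smul, ← Int.cast_prod,
    smul_smul, inv_mul_cancel₀ h3, one_smul]

@[fun_prop] protected theorem CHP.mul {P Q : α → MP} (hP : CHP P) (hQ : CHP Q) :
    CHP fun a => P a * Q a := by
  have h1 : CHP fun q : α × ℕ => if q.2 = 0 then P q.1 else Q q.1 :=
    CHP.ite (by fun_prop) (hP.comp (by fun_prop)) (hQ.comp (by fun_prop))
  refine (CHP.prod (N := fun _ => 2) (P := fun a y => if y = 0 then P a else Q a)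
    (CHF.const 2) h1).congr fun a => ?_
  simp [Finset.prod_range_succ]

@[fun_prop] protected theorem CHP.pow {P : α → MP} {e : α → ℕ} (hP : CHP P) (he : CHF e) :
    CHP fun a => P a ^ e a := by
  exact (CHP.prod (P := fun a _ => P a) he (hP.comp (by fun_prop))).congr fun a => by simp

end Crest.Agent.R316
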