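import Crest.Agent.R316.OpsU
import Crest.Agent.R316.Perturb

/-! Row 316: one polynomial for all fibres over algebraic points; strata of the atoms. -/

set_option autoImplicit false

namespace Crest.Agent.R316

open Crest.Agent.Lib.PT MvPolynomial Filter Topology

variable {α : Type} [Enc α]

/-- move the variable `0` behind the first `r` parameters, kill the other parameters -/
noncomputable def Lift_sub (r i : ℕ) : MP :=
  if i = 0 then X r else if i - 1 < r then X (i - 1) else 0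

theorem Lift_aeval_sub {r : ℕ} (β : Fin r → ℂ) (p : MP) :
    aeval (app (fun i => Polynomial.C (β i)) (scons Polynomial.X 0)) (aeval (Lift_sub r) p : MP) =
      tx (app β 0) p := by
  have h : (aeval (app (fun i => Polynomial.C (β i)) (scons Polynomial.X 0)) :
      MP →ₐ[ℚ] Polynomial ℂ).comp (aeval (Lift_sub r)) = tx (app β 0) := by
    refine MvPolynomial.algHom_ext fun i => ?_
    rcases i with _ | i
    · have h0 := app_add (fun i => Polynomial.C (β i)) (scons Polynomial.X 0) 0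
      rw [zero_add] at h0
      simp [Lift_sub, h0]
    · by_cases hi : i < r
      · simp [Lift_sub, hi, app_lt]
      · simp [Lift_sub, hi, app_ge _ _ (not_lt.1 hi)]
  exact DFunLike.congr_fun h p

theorem Lift_lead_zero (V : UP) :
    lead V (0 : ℕ → ℂ) = (ev (scons Polynomial.X 0 : ℕ → Polynomial ℂ) V).leadingCoeff := by
  have h : tx (0 : ℕ → ℂ) = aeval (scons Polynomial.X 0 : ℕ → Polynomial ℂ) := by
    refine MvPolynomial.algHom_ext fun i => ?_
    rcases i with _ | i <;> simp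
  rw [lead, ev, h]

theorem Lift_map_lead0 (R : Type) [Field R] [Algebra ℚ R] (V : UP) :
    (lead V (0 : ℕ → ℚ)).map (algebraMap ℚ R) = lead V (0 : ℕ → R) := by
  have h1 := map_lead (Algebra.ofId ℚ R) (algebraMap ℚ R).injective V (0 : ℕ → ℚ)
  have h2 : (fun i => Algebra.ofId ℚ R ((0 : ℕ → ℚ) i)) = (0 : ℕ → R) := by
    funext i
    simp
  rw [h2] at h1
  exact h1

/-- `W l = aeval (0 ↦ X r, i + 1 ↦ if i < r then X i else 0) (V.coeff l)`,
`Pi = ∏_{l ≤ B} tupProd r F d (W l)` with `F` the monic multiple of `E`, `E' = lead Pi 0`; use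
`ev_tupProd` in the ring `ℂ[X]` at the point `scons X 0`. -/
theorem exists_lift {r : α → ℕ} {V : α → UP} {E : α → Polynomial ℚ} (hr : CHF r) (hb : PB r)
    (hV : CHU V) (h1 : ∀ a, (V a).coeff 0 = 1) (hE : CHX E) (h0 : ∀ a, E a ≠ 0) :
    ∃ E' : α → Polynomial ℚ, CHX E' ∧ (∀ a, E' a ≠ 0) ∧
      ∀ a (x : Fin (r a) → ℝ), (∀ i, Polynomial.aeval (x i) (E a) = 0) →
        ∀ t : ℝ, (lead (V a) (app x 0)).IsRoot t → Polynomial.aeval t (E' a) = 0 := by
  classical
  obtain ⟨B, hB, hdeg⟩ := hV.natDegree_le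
  have hF : CHX fun a => (E a).leadingCoeff⁻¹ • E a := CHX.smul (CHQ.leadingCoeff hE).inv hE
  have hr' : CHF fun q : α × ℕ => r q.1 := hr.comp (by fun_prop)
  have hb' : PB fun q : α × ℕ => r q.1 := pb_comp_chf hb (by fun_prop)
  have hS : CHP fun q : (α × ℕ) × List Unit => Lift_sub (r q.1.1) q.2.length := by
    have hr2 : CHF fun q : (α × ℕ) × List Unit => r q.1.1 := hr'.comp (by fun_prop)
    have hb2 : PB fun q : (α × ℕ) × List Unit => r q.1.1 := pb_comp_chf hb (by fun_prop)
    exact CHP.ite (by fun_prop) (CHP.X hr2 hb2)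
      (CHP.ite (CH.lt (by fun_prop) hr2) (CHP.X (by fun_prop) (by fun_prop)) (CHP.const 0))
  have hW : CHP fun q : α × ℕ => (aeval (Lift_sub (r q.1)) ((V q.1).coeff q.2) : MP) :=
    CHP.aeval (Q := fun q : α × ℕ => Lift_sub (r q.1))
      (CHP.coeffU (hV.comp (by fun_prop)) (by fun_prop)) hS
  have hT : CHU fun q : α × ℕ => tupProd (r q.1)
      (fun _ => ((E q.1).leadingCoeff⁻¹ • E q.1).map (C : ℚ →+* MP)) (fun _ => (E q.1).natDegree)
      (aeval (Lift_sub (r q.1)) ((V q.1).coeff q.2)) :=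
    CHU.tupProd (F := fun (q : α × ℕ) _ => ((E q.1).leadingCoeff⁻¹ • E q.1).map (C : ℚ →+* MP))
      (d := fun (q : α × ℕ) _ => (E q.1).natDegree) hr' hb'
      (CHU.mapC (hF.comp (g := fun q : (α × ℕ) × ℕ => q.1.1) (by fun_prop)))
      ((CHF.natDegree hE).comp (f := fun q : (α × ℕ) × ℕ => q.1.1) (by fun_prop)) hW
  have hPi := CHU.prod (N := fun a => B a + 1) (F := fun a l => tupProd (r a)
      (fun _ => ((E a).leadingCoeff⁻¹ • E a).map (C : ℚ →+* MP)) (fun _ => (E a).natDegree)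
      (aeval (Lift_sub (r a)) ((V a).coeff l))) (by fun_prop) hT
  refine ⟨_, CHX.lead0 hPi, fun a => lead_ne_zero ?_ _, fun a x hx t ht => ?_⟩
  · rw [Polynomial.coeff_zero_prod]
    exact Finset.prod_eq_one fun l _ => tupProd_coeff_zero _ _ _ _
  have hc : (E a).leadingCoeff⁻¹ ≠ 0 := inv_ne_zero (Polynomial.leadingCoeff_ne_zero.2 (h0 a))
  have hmon : (((E a).leadingCoeff⁻¹ • E a).map (algebraMap ℚ ℂ)).Monic := by
    refine Polynomial.Monic.map _ ?_
    rw [Polynomial.Monic,
      Polynomial.leadingCoeff_smul_of_smul_regular _ (IsSMulRegular.of_ne_zero hc), smul_eq_mul,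
      inv_mul_cancel₀ (Polynomial.leadingCoeff_ne_zero.2 (h0 a))]
  obtain ⟨β, hβ⟩ := exists_enum_roots hmon (d := (E a).natDegree) (by
    rw [Polynomial.natDegree_map, Polynomial.natDegree_smul _ hc])
  have hx' : ∀ i, ∃ j, β j = (x i : ℂ) := by
    intro i
    have h2 : (((E a).leadingCoeff⁻¹ • E a).map (algebraMap ℚ ℂ)).eval (x i : ℂ) = 0 := by
      have h3 : Polynomial.aeval (x i : ℂ) (E a) = 0 := by
        have h4 := Polynomial.aeval_algebraMap_apply ℂ (x i) (E a)
        rw [hx i, map_zero] at h4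
        exact h4
      rw [Polynomial.eval_map_algebraMap, map_smul, h3, smul_zero]
    rw [hβ, Polynomial.eval_prod, Finset.prod_eq_zero_iff] at h2
    obtain ⟨j, -, hj⟩ := h2
    refine ⟨j, ?_⟩
    simp only [Polynomial.eval_sub, Polynomial.eval_X, Polynomial.eval_C] at hj
    exact (sub_eq_zero.1 hj).symm
  choose ι₀ hι₀ using hx'
  have hev : ∀ l, ev (scons Polynomial.X 0 : ℕ → Polynomial ℂ) (tupProd (r a)
      (fun _ => ((E a).leadingCoeff⁻¹ • E a).map (C : ℚ →+* MP)) (fun _ => (E a).natDegree)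
      (aeval (Lift_sub (r a)) ((V a).coeff l))) = ∏ ι : Fin (r a) → Fin (E a).natDegree,
        (1 + Polynomial.C (tx (app (fun i => β (ι i)) 0) ((V a).coeff l)) * Polynomial.X) := by
    intro l
    rw [ev_tupProd (β := fun _ j => Polynomial.C (β j)) (fun i => ?_)]
    · exact Finset.prod_congr rfl fun ι _ => by rw [Lift_aeval_sub]
    · rw [ev_map_C, IsScalarTower.algebraMap_eq ℚ ℂ (Polynomial ℂ), ← Polynomial.map_map, hβ,
        Polynomial.map_prod]
      simp
  have h2 : (lead (V a) (app x 0)).map (Complex.ofRealAm.restrictScalars ℚ).toRingHom =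
      tx (app (fun i => β (ι₀ i)) 0)
        ((V a).coeff ((V a).map (tx (app x (0 : ℕ → ℝ))).toRingHom).natDegree) := by
    rw [lead, Polynomial.leadingCoeff, Polynomial.coeff_map]
    refine (map_tx (Complex.ofRealAm.restrictScalars ℚ) _ _).trans ?_
    rw [map_app (Complex.ofRealAm.restrictScalars ℚ)]
    have h5 : (fun j => (Complex.ofRealAm.restrictScalars ℚ) (x j)) = fun i => β (ι₀ i) := by
      funext i
      exact (hι₀ i).symm
    have h6 : (fun i => (Complex.ofRealAm.restrictScalars ℚ) ((0 : ℕ → ℝ) i)) = 0 := by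
      funext i
      simp
    rw [h5, h6]
  have h3 : (lead (V a) (app x 0)).map (Complex.ofRealAm.restrictScalars ℚ).toRingHom ≠ 0 :=
    Polynomial.map_ne_zero (lead_ne_zero (h1 a) _)
  have h4 : ((lead (V a) (app x 0)).map
      (Complex.ofRealAm.restrictScalars ℚ).toRingHom).eval (t : ℂ) = 0 :=
    ht.map (f := (Complex.ofRealAm.restrictScalars ℚ).toRingHom)
  rw [h2] at h3 h4
  refine (algebraMap ℝ ℂ).injective ?_
  rw [map_zero, ← Polynomial.aeval_algebraMap_apply ℂ, ← Polynomial.eval_map_algebraMap,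
    Lift_map_lead0, Lift_lead_zero, ev_prod, Polynomial.leadingCoeff_prod, Polynomial.eval_prod]
  refine Finset.prod_eq_zero (Finset.mem_range.2 (Nat.lt_succ_of_le
    ((Polynomial.natDegree_map_le (f := (tx (app x (0 : ℕ → ℝ))).toRingHom)).trans (hdeg a)))) ?_
  rw [hev, leadingCoeff_prod_one_add, Polynomial.eval_prod]
  refine Finset.prod_eq_zero (i := ι₀) ?_ h4
  simp only [Finset.mem_filter]
  exact ⟨Finset.mem_univ ι₀, h3⟩

/-- `Pi = ∏_{τ < T} (1 + C (P τ) X)` -/
theorem exists_atom_strata {T : α → ℕ} {P : α → ℕ → MP} (hT : CHF T)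
    (hP : CHP fun q : α × ℕ => P q.1 q.2) :
    ∃ Pi : α → UP, CHU Pi ∧ (∀ a, (Pi a).coeff 0 = 1) ∧
      ∀ a (n : ℕ) (x : ℕ → ℝ) (y₀ : Fin n → ℝ), ∀ᶠ y in 𝓝 y₀,
        dg (Pi a) (app y x) = dg (Pi a) (app y₀ x) →
          bits (T a) (P a) (app y x) = bits (T a) (P a) (app y₀ x) := by
  classical
  have hU : CHU fun q : α × ℕ => 1 + Polynomial.C (P q.1 q.2) * Polynomial.X :=
    (CHU.const 1).add ((CHU.C hP).mul (CHU.const _))
  refine ⟨_, CHU.prod (F := fun a τ => 1 + Polynomial.C (P a τ) * Polynomial.X) hT hU,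
    fun a => ?_, fun a n x y₀ => ?_⟩
  · rw [Polynomial.coeff_zero_prod]
    exact Finset.prod_eq_one fun l _ => by simp
  have hd : ∀ z : ℕ → ℝ, dg (∏ τ ∈ Finset.range (T a), (1 + Polynomial.C (P a τ) * Polynomial.X)) z
      = ((Finset.range (T a)).filter fun τ => aeval z (P a τ) ≠ 0).card := by
    intro z
    rw [dg, ev_prod, ← natDegree_prod_one_add]
    simp only [ev_add, ev_mul, ev_one, ev_C, ev_X]
  have hpos : ∀ᶠ y in 𝓝 y₀, ∀ τ ∈ Finset.range (T a),
      (0 < aeval (app y₀ x) (P a τ) → 0 < aeval (app y x) (P a τ)) ∧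
      (aeval (app y₀ x) (P a τ) < 0 → aeval (app y x) (P a τ) < 0) := by
    refine (Filter.eventually_all_finset _).2 fun τ _ => Filter.Eventually.and ?_ ?_
    · by_cases h : 0 < aeval (app y₀ x) (P a τ)
      · exact (((continuous_aeval_app x (P a τ)).tendsto y₀).eventually
          (lt_mem_nhds h)).mono fun y hy _ => hy
      · exact Filter.Eventually.of_forall fun y hy => absurd hy h
    · by_cases h : aeval (app y₀ x) (P a τ) < 0
      · exact (((continuous_aeval_app x (P a τ)).tendsto y₀).eventually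
          (gt_mem_nhds h)).mono fun y hy _ => hy
      · exact Filter.Eventually.of_forall fun y hy => absurd hy h
  refine hpos.mono fun y hy hc => ?_
  rw [hd, hd] at hc
  have hs := Finset.eq_of_subset_of_card_le (s := (Finset.range (T a)).filter
    fun τ => aeval (app y₀ x) (P a τ) ≠ 0) (fun τ hτ => by
      obtain ⟨h1, h2⟩ := Finset.mem_filter.1 hτ
      refine Finset.mem_filter.2 ⟨h1, ?_⟩
      rcases lt_or_gt_of_ne h2 with h | h
      · exact ((hy τ h1).2 h).ne
      · exact ((hy τ h1).1 h).ne') hc.le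
  refine List.map_congr_left fun τ hτ => ?_
  have h1 : τ ∈ Finset.range (T a) := Finset.mem_range.2 (List.mem_range.1 hτ)
  refine decide_eq_decide.2 ⟨fun h => ?_, (hy τ h1).1⟩
  have h2 : τ ∈ (Finset.range (T a)).filter fun τ => aeval (app y₀ x) (P a τ) ≠ 0 := by
    rw [hs]
    exact Finset.mem_filter.2 ⟨h1, h.ne'⟩
  rcases lt_or_gt_of_ne (Finset.mem_filter.1 h2).2 with h3 | h3
  · exact absurd ((hy τ h1).2 h3) h.not_gt
  · exact h3

theorem isRoot_lead_zero_iff (V : UP) (t : ℝ) :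
    (lead V (0 : ℕ → ℝ)).IsRoot t ↔ Polynomial.aeval t (lead V (0 : ℕ → ℚ)) = 0 := by
  rw [← Lift_map_lead0, Polynomial.IsRoot, Polynomial.eval_map_algebraMap]

end Crest.Agent.R316
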