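import Crest.Agent.R316.Interp

/-!
Row 316: from bit strings to the abstract problem.

Parse the string into `r`, `s` and a list of items (tag `6..10`, list of gates as triples); the
string is valid if re-encoding gives it back, the items form one prefix expression and the circuits
are well formed. Only the variable indices that occur matter: with `xs`, `ys` the lists of the
indices of `varX`, `varY` gates, `varY i` becomes the variable `ys.idxOf i` and `varX i` the variable
`ys.length + xs.idxOf i`. For the item at position `k` with circuit polynomial `p`, let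
`P (2 k) = p` and `P (2 k + 1) = -p`. A circuit with `m` gates has degree at most `2 ^ m`, `l1` norm
and values doubly exponentially bounded, and its value modulo a prime is a `PT` fold
(`CHZ.of_res`, `CHP.of_evalZ`); all this for arbitrary (also ill-formed) gate lists, reading
missing positions as `0`.
-/

set_option autoImplicit false

namespace Crest.Agent.R316

open Crest.Agent.Lib.PT MvPolynomial

/-- tokens: a tag and two arguments -/
abbrev parse_Tok : Type := ℕ × ℕ × ℕ

/-! ### circuits over an arbitrary commutative ring -/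

section circ

variable {R R' : Type} [CommRing R] [CommRing R']

/-- the value of a gate token -/
def parse_tval (v : ℕ → R) (prev : List R) (t : parse_Tok) : R :=
  if t.1 = 0 then (if t.2.1 = 0 then (t.2.2 : R) else -(t.2.2 : R))
  else if t.1 ≤ 2 then v t.2.1
  else if t.1 = 3 then prev.getD t.2.1 0 + prev.getD t.2.2 0
  else if t.1 = 4 then prev.getD t.2.1 0 - prev.getD t.2.2 0
  else prev.getD t.2.1 0 * prev.getD t.2.2 0

/-- the values of all gates -/
def parse_cvals (v : ℕ → R) (prev : List R) (c : List parse_Tok) : List R :=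
  c.foldl (fun prev t => prev ++ [parse_tval v prev t]) prev

/-- the value of a circuit -/
def parse_cval (v : ℕ → R) (c : List parse_Tok) : R := (parse_cvals v [] c).getLastD 0

theorem parse_getD_map (φ : R →+* R') (l : List R) (i : ℕ) :
    (l.map φ).getD i 0 = φ (l.getD i 0) := by
  rw [← map_zero φ, List.getD_map]

theorem parse_tval_map (φ : R →+* R') (v : ℕ → R) (prev : List R) (t : parse_Tok) :
    φ (parse_tval v prev t) = parse_tval (fun i => φ (v i)) (prev.map φ) t := by
  unfold parse_tval
  simp only [parse_getD_map]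
  split_ifs <;> simp

theorem parse_cvals_map (φ : R →+* R') (v : ℕ → R) (c : List parse_Tok) (prev : List R) :
    (parse_cvals v prev c).map φ = parse_cvals (fun i => φ (v i)) (prev.map φ) c := by
  induction c generalizing prev with
  | nil => rfl
  | cons t c ih =>
    have := ih (prev ++ [parse_tval v prev t])
    simp only [parse_cvals, List.foldl_cons, List.map_append, List.map_cons, List.map_nil,
      parse_tval_map] at this ⊢
    exact this

theorem parse_getLastD_map (φ : R → R') (h0 : φ 0 = 0) (l : List R) :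
    (l.map φ).getLastD 0 = φ (l.getLastD 0) := by
  rw [List.getLastD_eq_getLast?, List.getLastD_eq_getLast?, List.getLast?_map]
  cases l.getLast? <;> simp [h0]

theorem parse_cval_map (φ : R →+* R') (v : ℕ → R) (c : List parse_Tok) :
    φ (parse_cval v c) = parse_cval (fun i => φ (v i)) c := by
  unfold parse_cval
  rw [← parse_getLastD_map φ (map_zero φ), parse_cvals_map]
  rfl

theorem parse_cval_ind (Pr : ℕ → R → Prop) (v : ℕ → R) (c : List parse_Tok)
    (mono : ∀ k x, Pr k x → Pr (k + 1) x) (zero : Pr 0 0)
    (add : ∀ k x y, Pr k x → Pr k y → Pr (k + 1) (x + y))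
    (neg : ∀ k x, Pr k x → Pr k (-x))
    (mul : ∀ k x y, Pr k x → Pr k y → Pr (k + 1) (x * y))
    (hc : ∀ t ∈ c, Pr 0 (t.2.2 : R) ∧ (t.1 ≠ 0 → t.1 ≤ 2 → Pr 0 (v t.2.1))) :
    Pr c.length (parse_cval v c) := by
  have mono' : ∀ k x, Pr 0 x → Pr k x := fun k x h => by
    induction k with
    | zero => exact h
    | succ k ih => exact mono k x ih
  have key : ∀ (c' : List parse_Tok) (prev : List R), (∀ t ∈ c', t ∈ c) →
      (∀ x ∈ prev, Pr prev.length x) →
      ∀ x ∈ parse_cvals v prev c', Pr (prev.length + c'.length) x := by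
    intro c'
    induction c' with
    | nil => intro prev _ h; simpa [parse_cvals] using h
    | cons t c' ih =>
      intro prev hm h
      have hget : ∀ i, Pr prev.length (prev.getD i 0) := fun i => by
        rcases lt_or_ge i prev.length with hi | hi
        · rw [List.getD_eq_getElem _ _ hi]
          exact h _ (List.getElem_mem hi)
        · rw [List.getD_eq_default _ _ hi]
          exact mono' _ _ zero
      have ht := hc t (hm t (by simp))
      have := ih (prev ++ [parse_tval v prev t]) (fun s hs => hm s (by simp [hs])) (by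
        intro x hx
        rw [List.length_append, List.length_singleton]
        rcases List.mem_append.mp hx with hx | hx
        · exact mono _ _ (h x hx)
        · rw [List.mem_singleton.mp hx]
          unfold parse_tval
          split_ifs with h1 h2 h3 h4 h5
          · exact mono' _ _ ht.1
          · exact mono' _ _ (neg _ _ ht.1)
          · exact mono' _ _ (ht.2 h1 h3)
          · exact add _ _ _ (hget _) (hget _)
          · rw [sub_eq_add_neg]
            exact add _ _ _ (hget _) (neg _ _ (hget _))
          · exact mul _ _ _ (hget _) (hget _))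
      rw [List.length_append, List.length_singleton, add_assoc, add_comm 1] at this
      exact this
  have h1 := key c [] (fun _ h => h) (by simp)
  rw [List.length_nil, zero_add] at h1
  unfold parse_cval
  rw [List.getLastD_eq_getLast?]
  cases h : (parse_cvals v [] c).getLast? with
  | none => exact mono' _ _ zero
  | some x => exact h1 x (List.mem_of_getLast? h)

theorem parse_cval_bound (N : R → ℤ) (v : ℕ → R) (c : List parse_Tok) (B : ℕ)
    (h0 : ∀ x, 0 ≤ N x) (zero : N 0 = 0) (add : ∀ x y, N (x + y) ≤ N x + N y)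
    (neg : ∀ x, N (-x) = N x) (mul : ∀ x y, N (x * y) ≤ N x * N y)
    (hc : ∀ t ∈ c, N (t.2.2 : R) ≤ 2 ^ B) (hv : ∀ i, N (v i) ≤ 2 ^ B) :
    N (parse_cval v c) ≤ 2 ^ 2 ^ (B + c.length) := by
  refine parse_cval_ind (fun k x => N x ≤ 2 ^ 2 ^ (B + k)) v c
    (fun k x h => h.trans (int_tower_mono (by omega))) (by rw [zero]; positivity)
    (fun k x y hx hy => ?_) (fun k x h => by rwa [neg]) (fun k x y hx hy => ?_)
    fun t ht => ⟨(hc t ht).trans (int_pow_le_tower _), fun _ _ => (hv _).trans (int_pow_le_tower _)⟩
  · have := int_two_le_tower (B + k)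
    rw [← add_assoc, pow_succ, pow_mul, sq]
    nlinarith [add x y]
  · rw [← add_assoc, pow_succ, pow_mul, sq]
    exact (mul x y).trans (mul_le_mul hx hy (h0 _) (by positivity))

end circ

/-- the values of all gates modulo `p` -/
def parse_cmod (p : ℤ) (l : List ℕ) (c : List parse_Tok) : List ℤ :=
  c.foldl (fun prev t => prev ++ [parse_tval (fun i => ((l.getD i 0 : ℕ) : ℤ)) prev t % p]) []

theorem parse_cmod_map (p : ℕ) (l : List ℕ) (c : List parse_Tok) :
    (parse_cmod p l c).map (Int.castRingHom (ZMod p))
      = (parse_cvals (fun i => ((l.getD i 0 : ℕ) : ℤ)) [] c).map (Int.castRingHom (ZMod p)) := by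
  have key : ∀ (prev prev' : List ℤ),
      prev.map (Int.castRingHom (ZMod p)) = prev'.map (Int.castRingHom (ZMod p)) →
      (c.foldl (fun prev t => prev ++ [parse_tval (fun i => ((l.getD i 0 : ℕ) : ℤ)) prev t % p])
        prev).map (Int.castRingHom (ZMod p))
      = (parse_cvals (fun i => ((l.getD i 0 : ℕ) : ℤ)) prev' c).map (Int.castRingHom (ZMod p)) := by
    induction c with
    | nil => intro prev prev' h; exact h
    | cons t c ih =>
      intro prev prev' h
      simp only [parse_cvals, List.foldl_cons] at ih ⊢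
      refine ih _ _ ?_
      rw [List.map_append, List.map_append, h, List.map_singleton, List.map_singleton,
        parse_tval_map, ← h, ← parse_tval_map]
      simp
  exact key [] [] rfl

theorem parse_pt_cmod : PT fun q : ℕ × List ℕ × List parse_Tok =>
    parse_cmod ((max q.1 1 : ℕ) : ℤ) q.2.1 q.2.2 := by
  unfold parse_cmod
  refine PT.foldl_add (fun p => sz p.1 + 20) (by unfold parse_tval; fun_prop) (by fun_prop)
    (by fun_prop) (by fun_prop) fun a acc x _ => ?_
  generalize parse_tval (fun i => ((a.2.1.getD i 0 : ℕ) : ℤ)) acc x = y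
  have hp : (0 : ℤ) < ((max a.1 1 : ℕ) : ℤ) := by omega
  have h1 := Int.emod_nonneg y hp.ne'
  have h2 := Int.emod_lt_of_pos y hp
  have h3 : sz (y % ((max a.1 1 : ℕ) : ℤ)).natAbs ≤ sz a.1 := sz_nat_mono (by omega)
  have h4 := sz_append acc [y % ((max a.1 1 : ℕ) : ℤ)]
  have h5 := sz_fst_le a
  rw [sz_cons, sz_int, sz_nil] at h4
  simp only
  omega

theorem parse_arg_le {c : List parse_Tok} {t : parse_Tok} (ht : t ∈ c) :
    (t.2.2 : ℤ) ≤ 2 ^ sz c := by
  have h1 := lt_two_pow_sz t.2.2
  have h2 : sz t.2.2 ≤ sz c := (sz_snd_le _).trans ((sz_snd_le _).trans (sz_le_of_mem ht))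
  have h3 := Nat.pow_le_pow_right (show 0 < 2 by norm_num) h2
  exact_mod_cast h1.le.trans h3

theorem parse_chp {α : Type} [Enc α] {c : α → List parse_Tok} {n : α → ℕ} (hc : PT c) (hn : PB n)
    (h : ∀ a, ∀ t ∈ c a, t.1 ≠ 0 → t.1 ≤ 2 → t.2.1 < n a) :
    CHP fun a => map (Int.castRingHom ℚ) (parse_cval (X : ℕ → MvPolynomial ℕ ℤ) (c a)) := by
  refine CHP.of_evalZ (m := fun a => n a + sz (c a) + (c a).length + 1) (by fun_prop)
    (fun a d hd => ?_) (fun a d => ?_) ?_
  · have := parse_cval_ind
      (fun k (P : MvPolynomial ℕ ℤ) => ∀ d ∈ P.support, (∀ i, n a ≤ i → d i = 0) ∧ ∀ i, d i ≤ 2 ^ k)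
      X (c a) (fun k x h d hd => ⟨(h d hd).1, fun i => ((h d hd).2 i).trans
        (Nat.pow_le_pow_right (by norm_num) (by omega))⟩) (by simp)
      (fun k x y hx hy d hd => by
        classical
        have h2 : 2 ^ k ≤ 2 ^ (k + 1) := Nat.pow_le_pow_right (by norm_num) (by omega)
        rcases Finset.mem_union.mp (support_add hd) with hd | hd
        · exact ⟨(hx d hd).1, fun i => ((hx d hd).2 i).trans h2⟩
        · exact ⟨(hy d hd).1, fun i => ((hy d hd).2 i).trans h2⟩)
      (fun k x hx d hd => hx d (by simpa using hd))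
      (fun k x y hx hy d hd => by
        classical
        obtain ⟨d1, h1, d2, h2, rfl⟩ := Finset.mem_add.mp (support_mul x y hd)
        refine ⟨fun i hi => by simp [(hx d1 h1).1 i hi, (hy d2 h2).1 i hi], fun i => ?_⟩
        have := (hx d1 h1).2 i
        have := (hy d2 h2).2 i
        rw [Finsupp.add_apply, pow_succ]
        omega)
      (fun t ht => ⟨fun d hd => by
        classical
        rw [← map_natCast (C : ℤ →+* MvPolynomial ℕ ℤ), C_apply] at hd
        rw [Finset.mem_singleton.mp (support_monomial_subset hd)]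
        simp, fun h1 h2 d hd => by
        have h3 := h a t ht h1 h2
        rw [support_X, Finset.mem_singleton] at hd
        subst hd
        refine ⟨fun i hi => Finsupp.single_eq_of_ne (by omega), fun i => ?_⟩
        rw [Finsupp.single_apply]
        split_ifs <;> simp⟩) d hd
    refine mem_box.mpr ⟨fun i hi => this.1 i (by omega), fun i _ => (this.2 i).trans_lt ?_⟩
    exact Nat.pow_lt_pow_right (by norm_num) (by omega)
  · refine (abs_coeff_le_l1 _ d).trans ((parse_cval_bound l1 X (c a) (sz (c a)) l1_nonneg
      (by simp [l1]) l1_add_le l1_neg l1_mul_le (fun t ht => ?_) fun i => ?_).trans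
      (int_tower_mono (by omega)))
    · rw [← map_natCast (C : ℤ →+* MvPolynomial ℕ ℤ), C_apply, l1_monomial, abs_of_nonneg (by omega)]
      exact parse_arg_le ht
    · rw [X, l1_monomial, abs_one]
      exact one_le_pow₀ (by norm_num)
  · have he : ∀ q : α × List ℕ, eval (fun i => ((q.2.getD i 0 : ℕ) : ℤ)) (parse_cval X (c q.1))
        = parse_cval (fun i => ((q.2.getD i 0 : ℕ) : ℤ)) (c q.1) := fun q => by
      rw [parse_cval_map]
      simp only [eval_X]
    simp only [he]
    refine CHZ.of_res (m := fun q => sz (c q.1) + sz q.2 + (c q.1).length)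
      (g := fun q => (parse_cmod ((max q.2 1 : ℕ) : ℤ) q.1.2 (c q.1.1)).getLastD 0) (by fun_prop)
      (fun q => ?_) (CHF.of_pt ?_) fun q p hp => ?_
    · refine parse_cval_bound (fun x : ℤ => |x|) _ (c q.1) (sz (c q.1) + sz q.2) abs_nonneg
        abs_zero abs_add_le abs_neg (fun x y => (abs_mul x y).le) (fun t ht => ?_) fun i => ?_
      · rw [abs_of_nonneg (by omega)]
        exact (parse_arg_le ht).trans (pow_le_pow_right₀ (by norm_num) (by omega))
      · rw [abs_of_nonneg (by omega)]
        have h1 := lt_two_pow_sz (q.2.getD i 0)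
        have h2 : sz (q.2.getD i 0) ≤ sz (c q.1) + sz q.2 := by
          rcases lt_or_ge i q.2.length with hi | hi
          · rw [List.getD_eq_getElem _ _ hi]
            have := sz_le_of_mem (List.getElem_mem hi)
            omega
          · rw [List.getD_eq_default _ _ hi]
            have := sz_pos q.2
            simp only [sz_zero]
            omega
        exact_mod_cast h1.le.trans (Nat.pow_le_pow_right (show 0 < 2 by norm_num) h2)
    · exact (parse_pt_cmod.comp (f := fun q : (α × List ℕ) × ℕ => (q.2, q.1.2, c q.1.1))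
        (by fun_prop)).getLastD (PT.const 0)
    · rw [← ZMod.intCast_eq_intCast_iff]
      have h1 := congrArg (fun l => l.getLastD 0) (parse_cmod_map p q.2 (c q.1))
      simp only [parse_getLastD_map _ (map_zero (Int.castRingHom (ZMod p)))] at h1
      rw [max_eq_left hp.one_le]
      exact h1

/-! ### from bits to tokens -/

open Crest.RealEA

/-- one step of the right-to-left reader of numbers -/
def parse_bstep (b : Bool) (s : Option Bool × List (List Bool)) : Option Bool × List (List Bool) :=
  s.1.elim (some b, s.2) fun d =>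
    (none, if b = true then (d :: s.2.headD []) :: s.2.tail else [] :: s.2)

/-- the numbers written in a bit string -/
def parse_nats (w : List Bool) : List ℕ := (w.foldr parse_bstep (none, [])).2.map ofBits

theorem parse_pt_nats : PT parse_nats := by
  unfold parse_nats
  refine PT.map (PT.snd (PT.foldr_add (f := fun _ => parse_bstep) (fun _ => 20)
    (by unfold parse_bstep; fun_prop) (by fun_prop) (by fun_prop) (by fun_prop)
    fun a acc x _ => ?_)) (by fun_prop)
  obtain ⟨o, l⟩ := acc
  cases o with
  | none => simp [parse_bstep]; omega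
  | some d =>
    cases l with
    | nil => cases x <;> simp [parse_bstep]
    | cons h l => cases x <;> simp [parse_bstep] <;> omega

theorem parse_nats_encode (ns : List ℕ) : parse_nats (ns.flatMap natBits) = ns := by
  have h1 : ∀ (l : List Bool) (acc : List (List Bool)),
      (l.flatMap fun d => [true, d]).foldr parse_bstep (none, [] :: acc) = (none, l :: acc) := by
    intro l acc
    induction l with
    | nil => rfl
    | cons d l ih =>
      rw [List.flatMap_cons, List.foldr_append, ih]
      simp [parse_bstep]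
  have h2 : (ns.flatMap natBits).foldr parse_bstep (none, []) = (none, ns.map Nat.bits) := by
    induction ns with
    | nil => rfl
    | cons k ns ih =>
      rw [List.flatMap_cons, List.foldr_append, ih, natBits, List.foldr_append]
      exact h1 _ _
  unfold parse_nats
  rw [h2, List.map_map]
  simp [Function.comp_def]

/-- the number of arguments of a tag -/
def parse_ar (t : ℕ) : ℕ := if t = 0 ∨ (3 ≤ t ∧ t ≤ 5) then 2 else if t ≤ 7 then 1 else 0

/-- the numbers of a token -/
def parse_tnats (t : parse_Tok) : List ℕ := t.1 :: [t.2.1, t.2.2].take (parse_ar t.1)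

/-- one step of the tokenizer -/
def parse_tstep (s : List ℕ × List parse_Tok) : List ℕ × List parse_Tok :=
  if s.1 = [] then s else
    (s.1.tail.drop (parse_ar (s.1.headD 0)),
      (s.1.headD 0, (s.1.tail.take (parse_ar (s.1.headD 0))).getD 0 0,
        (s.1.tail.take (parse_ar (s.1.headD 0))).getD 1 0) :: s.2)

/-- the tokens of a list of numbers -/
def parse_toks (ns : List ℕ) : List parse_Tok := (parse_tstep^[ns.length] (ns, [])).2.reverse

@[fun_prop] theorem parse_pt_ar : PT parse_ar := by unfold parse_ar; fun_prop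

@[fun_prop] theorem parse_pt_tnats : PT parse_tnats := by unfold parse_tnats; fun_prop

theorem parse_sz_getD_le {l m : List ℕ} (h : l.Sublist m) (i : ℕ) : sz (l.getD i 0) ≤ sz m := by
  rcases lt_or_ge i l.length with hi | hi
  · rw [List.getD_eq_getElem _ _ hi]
    exact sz_le_of_mem (h.subset (List.getElem_mem hi))
  · rw [List.getD_eq_default _ _ hi]
    exact sz_pos m

theorem parse_pt_toks : PT parse_toks := by
  unfold parse_toks
  refine PT.reverse (PT.snd (PT.iterate_inv_add (f := fun _ => parse_tstep)
    (fun a s => s.1.Sublist a) (fun a => 3 * sz a + 3) (by unfold parse_tstep; fun_prop)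
    (by fun_prop) (by fun_prop) (by fun_prop) (by fun_prop) (fun _ => List.Sublist.refl _)
    (fun a s h => ?_) fun a s h => ?_))
  · unfold parse_tstep
    split_ifs
    · exact h
    · exact ((List.drop_sublist _ _).trans (List.tail_sublist _)).trans h
  · unfold parse_tstep
    split_ifs
    · omega
    · have h1 := parse_sz_getD_le h 0
      have h2 := parse_sz_getD_le (((List.take_sublist (parse_ar (s.1.headD 0)) _).trans
        (List.tail_sublist _)).trans h) 0
      have h3 := parse_sz_getD_le (((List.take_sublist (parse_ar (s.1.headD 0)) _).trans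
        (List.tail_sublist _)).trans h) 1
      have h4 := sz_sublist_le ((List.drop_sublist (parse_ar (s.1.headD 0)) _).trans
        (List.tail_sublist s.1))
      have h5 : s.1.headD 0 = s.1.getD 0 0 := by cases s.1 <;> rfl
      rw [← h5] at h1
      simp only [sz_pair, sz_cons, sz_prod s]
      omega

/-- unused arguments are zero -/
def parse_canon (t : parse_Tok) : Prop :=
  (parse_ar t.1 < 2 → t.2.2 = 0) ∧ (parse_ar t.1 = 0 → t.2.1 = 0)

theorem parse_toks_encode (L : List parse_Tok) (hL : ∀ t ∈ L, parse_canon t) :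
    parse_toks (L.flatMap parse_tnats) = L := by
  have key : ∀ (L : List parse_Tok), (∀ t ∈ L, parse_canon t) → ∀ (acc : List parse_Tok) (j : ℕ),
      L.length ≤ j → parse_tstep^[j] (L.flatMap parse_tnats, acc) = ([], L.reverse ++ acc) := by
    intro L
    induction L with
    | nil => intro _ acc j _; exact Function.iterate_fixed (by simp [parse_tstep]) j
    | cons t L ih =>
      intro hL acc j hj
      obtain ⟨j, rfl⟩ : ∃ i, j = i + 1 := ⟨j - 1, by simp at hj; omega⟩
      have h1 : parse_tstep ((t :: L).flatMap parse_tnats, acc)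
          = (L.flatMap parse_tnats, t :: acc) := by
        obtain ⟨h2, h3⟩ := hL t (by simp)
        obtain ⟨t, a, b⟩ := t
        have h4 : parse_ar t = 0 ∨ parse_ar t = 1 ∨ parse_ar t = 2 := by
          unfold parse_ar; split_ifs <;> simp
        simp only at h2 h3
        rcases h4 with h | h | h
        · simp [parse_tstep, parse_tnats, h, h2 (by omega), h3 h]
        · simp [parse_tstep, parse_tnats, h, h2 (by omega)]
        · simp [parse_tstep, parse_tnats, h]
      rw [Function.iterate_succ_apply, h1, ih (fun s hs => hL s (by simp [hs])) _ j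
        (by simpa using hj)]
      simp
  unfold parse_toks
  rw [key L hL [] _ ?_]
  · simp
  · clear key hL
    induction L with
    | nil => simp
    | cons t L ih => simp [parse_tnats] at ih ⊢; omega

/-- the token of a gate -/
def parse_gtok : AGate → parse_Tok
  | AGate.const z => (0, if z < 0 then 1 else 0, z.natAbs)
  | AGate.varX i => (1, i, 0)
  | AGate.varY i => (2, i, 0)
  | AGate.add a b => (3, a, b)
  | AGate.sub a b => (4, a, b)
  | AGate.mul a b => (5, a, b)

/-- the tokens of a formula -/
def parse_ftoks : Form → List parse_Tok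
  | Form.eqZero c => (6, c.length, 0) :: c.map parse_gtok
  | Form.pos c => (7, c.length, 0) :: c.map parse_gtok
  | Form.and φ ψ => (8, 0, 0) :: (parse_ftoks φ ++ parse_ftoks ψ)
  | Form.or φ ψ => (9, 0, 0) :: (parse_ftoks φ ++ parse_ftoks ψ)
  | Form.not φ => (10, 0, 0) :: parse_ftoks φ

theorem parse_gtok_nats (g : AGate) : parse_tnats (parse_gtok g) = g.toNats := by
  cases g <;> rfl

theorem parse_ftoks_nats (φ : Form) : (parse_ftoks φ).flatMap parse_tnats = φ.toNats := by
  have h : ∀ c : List AGate, (c.map parse_gtok).flatMap parse_tnats = c.flatMap AGate.toNats :=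
    fun c => by simp [List.flatMap_map, parse_gtok_nats]
  induction φ with
  | eqZero c => rw [parse_ftoks, List.flatMap_cons, h]; rfl
  | pos c => rw [parse_ftoks, List.flatMap_cons, h]; rfl
  | and φ ψ h1 h2 => rw [parse_ftoks, List.flatMap_cons, List.flatMap_append, h1, h2]; rfl
  | or φ ψ h1 h2 => rw [parse_ftoks, List.flatMap_cons, List.flatMap_append, h1, h2]; rfl
  | not φ h1 => rw [parse_ftoks, List.flatMap_cons, h1]; rfl

theorem parse_ftoks_canon (φ : Form) : ∀ t ∈ parse_ftoks φ, parse_canon t := by
  have h : ∀ c : List AGate, ∀ t ∈ c.map parse_gtok, parse_canon t := fun c t ht => by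
    obtain ⟨g, -, rfl⟩ := List.mem_map.mp ht
    cases g <;> simp [parse_gtok, parse_canon, parse_ar]
  induction φ with
  | eqZero c => exact List.forall_mem_cons.mpr ⟨by simp [parse_canon, parse_ar], h c⟩
  | pos c => exact List.forall_mem_cons.mpr ⟨by simp [parse_canon, parse_ar], h c⟩
  | and φ ψ h1 h2 =>
    exact List.forall_mem_cons.mpr ⟨by simp [parse_canon], List.forall_mem_append.mpr ⟨h1, h2⟩⟩
  | or φ ψ h1 h2 =>
    exact List.forall_mem_cons.mpr ⟨by simp [parse_canon], List.forall_mem_append.mpr ⟨h1, h2⟩⟩
  | not φ h1 => exact List.forall_mem_cons.mpr ⟨by simp [parse_canon], h1⟩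

/-! ### the validity check -/

/-- the token is the token of a gate -/
def parse_isGate (t : parse_Tok) : Prop :=
  (t.1 = 0 → t.2.1 = 0 ∨ (t.2.1 = 1 ∧ t.2.2 ≠ 0)) ∧ (t.1 = 1 ∨ t.1 = 2 → t.2.2 = 0)

instance : DecidablePred parse_isGate := fun t => by unfold parse_isGate; infer_instance

/-- the gate token at position `i` is well formed -/
def parse_wf (r s i : ℕ) (t : parse_Tok) : Prop :=
  (t.1 = 1 → t.2.1 < r) ∧ (t.1 = 2 → t.2.1 < s) ∧ (3 ≤ t.1 → t.2.1 < i ∧ t.2.2 < i)

instance (r s i : ℕ) : DecidablePred (parse_wf r s i) := fun t => by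
  unfold parse_wf; infer_instance

theorem parse_exists_gate {t : parse_Tok} (h5 : t.1 ≤ 5) (h : parse_isGate t) :
    ∃ g, parse_gtok g = t := by
  obtain ⟨t, a, b⟩ := t
  obtain ⟨h1, h2⟩ := h
  simp only at h1 h2 h5
  interval_cases t
  · rcases h1 rfl with rfl | ⟨rfl, hb⟩
    · exact ⟨AGate.const b, by simp [parse_gtok]⟩
    · exact ⟨AGate.const (-b), by simp [parse_gtok, Nat.pos_of_ne_zero hb]⟩
  · exact ⟨AGate.varX a, by simp [parse_gtok, h2 (Or.inl rfl)]⟩
  · exact ⟨AGate.varY a, by simp [parse_gtok, h2 (Or.inr rfl)]⟩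
  · exact ⟨AGate.add a b, rfl⟩
  · exact ⟨AGate.sub a b, rfl⟩
  · exact ⟨AGate.mul a b, rfl⟩

theorem parse_gtok_isGate (g : AGate) : (parse_gtok g).1 ≤ 5 ∧ parse_isGate (parse_gtok g) := by
  cases g with
  | const z => by_cases h : z < 0 <;> simp [parse_gtok, parse_isGate, h]; omega
  | _ => simp [parse_gtok, parse_isGate]

theorem parse_wf_gtok (r s i : ℕ) (g : AGate) : parse_wf r s i (parse_gtok g) ↔ g.WF r s i := by
  cases g <;> simp [parse_gtok, parse_wf, AGate.WF]

theorem parse_circuitWF (r s : ℕ) (c : List AGate) : CircuitWF r s c ↔ c.map parse_gtok ≠ [] ∧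
    ∀ i < (c.map parse_gtok).length, parse_wf r s i ((c.map parse_gtok).getD i (0, 0, 0)) := by
  unfold CircuitWF
  refine and_congr (by simp) ⟨fun h i hi => ?_, fun h i => ?_⟩
  · rw [List.getD_eq_getElem _ _ hi, List.getElem_map, parse_wf_gtok]
    exact h ⟨i, by simpa using hi⟩
  · have := h i (by simp)
    rwa [List.getD_eq_getElem _ _ (by simp), List.getElem_map, parse_wf_gtok] at this

/-- one step of the right-to-left check -/
def parse_cstep (r s : ℕ) (t : parse_Tok) (x : List parse_Tok × ℕ × Bool) :
    List parse_Tok × ℕ × Bool :=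
  if t.1 ≤ 5 then (t :: x.1, x.2.1, x.2.2 && decide (parse_isGate t))
  else if t.1 ≤ 7 then ([], x.2.1 + 1, x.2.2 && decide (t.2 = (x.1.length, 0) ∧ x.1 ≠ [] ∧
    ∀ i < x.1.length, parse_wf r s i (x.1.getD i (0, 0, 0))))
  else if t.1 ≤ 9 then ([], x.2.1 - 1, x.2.2 && decide (t.2 = (0, 0) ∧ x.1 = [] ∧ 2 ≤ x.2.1))
  else ([], x.2.1, x.2.2 && decide (t = (10, 0, 0) ∧ x.1 = [] ∧ 1 ≤ x.2.1))

theorem parse_pt_chk : PT fun q : ℕ × ℕ × List parse_Tok =>
    q.2.2.foldr (parse_cstep q.1 q.2.1) ([], 0, true) := by
  refine PT.foldr_add (fun p => sz p.2 + 20) ?_ (by fun_prop) (by fun_prop) (by fun_prop)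
    fun a acc x _ => ?_
  · unfold parse_cstep parse_isGate parse_wf
    fun_prop
  · have h1 := sz_add_le acc.2.1 1
    have h2 : sz (acc.2.1 - 1) ≤ sz acc.2.1 := sz_nat_mono (by omega)
    have h3 : sz (1 : ℕ) = 7 := by simp [sz_nat]
    have h4 := sz_pos acc.1
    unfold parse_cstep
    rw [sz_prod acc, sz_prod acc.2]
    split_ifs <;> simp only [sz_pair, sz_cons, sz_bool, sz_nil] <;> omega

theorem parse_chk_gates (r s n : ℕ) (c : List AGate) :
    (c.map parse_gtok).foldr (parse_cstep r s) ([], n, true) = (c.map parse_gtok, n, true) := by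
  induction c with
  | nil => rfl
  | cons g c ih =>
    rw [List.map_cons, List.foldr_cons, ih]
    simp [parse_cstep, parse_gtok_isGate g]

theorem parse_chk_complete (r s : ℕ) (φ : Form) (h : φ.WF r s) (n : ℕ) :
    (parse_ftoks φ).foldr (parse_cstep r s) ([], n, true) = ([], n + 1, true) := by
  induction φ generalizing n with
  | eqZero c =>
    have := (parse_circuitWF r s c).mp h
    rw [parse_ftoks, List.foldr_cons, parse_chk_gates, parse_cstep, if_neg (by simp),
      if_pos (by simp), decide_eq_true ⟨by simp, this⟩]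
    rfl
  | pos c =>
    have := (parse_circuitWF r s c).mp h
    rw [parse_ftoks, List.foldr_cons, parse_chk_gates, parse_cstep, if_neg (by simp),
      if_pos (by simp), decide_eq_true ⟨by simp, this⟩]
    rfl
  | and φ ψ h1 h2 =>
    rw [parse_ftoks, List.foldr_cons, List.foldr_append, h2 h.2, h1 h.1]
    simp [parse_cstep]
  | or φ ψ h1 h2 =>
    rw [parse_ftoks, List.foldr_cons, List.foldr_append, h2 h.2, h1 h.1]
    simp [parse_cstep]
  | not φ h1 =>
    rw [parse_ftoks, List.foldr_cons, h1 h]
    simp [parse_cstep]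

theorem parse_chk_sound (r s : ℕ) (L : List parse_Tok) :
    (L.foldr (parse_cstep r s) ([], 0, true)).2.2 = true →
      ∃ (c : List AGate) (fs : List Form), (∀ φ ∈ fs, φ.WF r s) ∧
        (L.foldr (parse_cstep r s) ([], 0, true)).1 = c.map parse_gtok ∧
        (L.foldr (parse_cstep r s) ([], 0, true)).2.1 = fs.length ∧
        L = c.map parse_gtok ++ fs.flatMap parse_ftoks := by
  induction L with
  | nil => exact fun _ => ⟨[], [], by simp, rfl, rfl, rfl⟩
  | cons t L ih =>
    rw [List.foldr_cons]
    generalize L.foldr (parse_cstep r s) ([], 0, true) = x at ih ⊢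
    obtain ⟨gs, n, ok⟩ := x
    simp only at ih
    unfold parse_cstep
    split_ifs with h5 h7 h9 <;> simp only [Bool.and_eq_true, decide_eq_true_eq] <;>
      rintro ⟨hok, h⟩ <;> obtain ⟨c, fs, hwf, rfl, rfl, rfl⟩ := ih hok
    · obtain ⟨g, rfl⟩ := parse_exists_gate h5 h
      exact ⟨g :: c, fs, hwf, rfl, rfl, rfl⟩
    · obtain ⟨t, a⟩ := t
      obtain ⟨rfl, h⟩ : a = _ ∧ _ := h
      have hc := (parse_circuitWF r s c).mpr h
      obtain rfl | rfl : t = 6 ∨ t = 7 := by simp only at h5 h7; omega
      · exact ⟨[], Form.eqZero c :: fs, List.forall_mem_cons.mpr ⟨hc, hwf⟩, rfl, rfl,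
          by simp [parse_ftoks]⟩
      · exact ⟨[], Form.pos c :: fs, List.forall_mem_cons.mpr ⟨hc, hwf⟩, rfl, rfl,
          by simp [parse_ftoks]⟩
    · obtain ⟨t, a⟩ := t
      obtain ⟨rfl, h1, h2⟩ : a = _ ∧ _ := h
      rcases fs with _ | ⟨φ, _ | ⟨ψ, fs⟩⟩
      · simp at h2
      · simp at h2
      have hw : φ.WF r s ∧ ψ.WF r s := ⟨hwf _ (by simp), hwf _ (by simp)⟩
      have hw' : ∀ χ ∈ fs, χ.WF r s := fun χ hχ => hwf _ (by simp [hχ])
      obtain rfl | rfl : t = 8 ∨ t = 9 := by simp only at h7 h9; omega
      · exact ⟨[], Form.and φ ψ :: fs, List.forall_mem_cons.mpr ⟨hw, hw'⟩, rfl, rfl,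
          by simp [parse_ftoks, h1]⟩
      · exact ⟨[], Form.or φ ψ :: fs, List.forall_mem_cons.mpr ⟨hw, hw'⟩, rfl, rfl,
          by simp [parse_ftoks, h1]⟩
    · obtain ⟨rfl, h1, h2⟩ := h
      rcases fs with _ | ⟨φ, fs⟩
      · simp at h2
      exact ⟨[], Form.not φ :: fs, List.forall_mem_cons.mpr ⟨hwf φ (by simp),
        fun χ hχ => hwf _ (by simp [hχ])⟩, rfl, rfl, by simp [parse_ftoks, h1]⟩

theorem parse_ftoks_vars (r s : ℕ) (φ : Form) (h : φ.WF r s) :
    ∀ t ∈ parse_ftoks φ, (t.1 = 1 → t.2.1 < r) ∧ (t.1 = 2 → t.2.1 < s) := by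
  have hc : ∀ c : List AGate, CircuitWF r s c → ∀ t ∈ c.map parse_gtok,
      (t.1 = 1 → t.2.1 < r) ∧ (t.1 = 2 → t.2.1 < s) := fun c h t ht => by
    obtain ⟨i, hi, rfl⟩ := List.getElem_of_mem ht
    have := ((parse_circuitWF r s c).mp h).2 i hi
    rw [List.getD_eq_getElem _ _ hi] at this
    exact ⟨this.1, this.2.1⟩
  induction φ with
  | eqZero c => exact List.forall_mem_cons.mpr ⟨by simp, hc c h⟩
  | pos c => exact List.forall_mem_cons.mpr ⟨by simp, hc c h⟩
  | and φ ψ h1 h2 =>
    exact List.forall_mem_cons.mpr ⟨by simp, List.forall_mem_append.mpr ⟨h1 h.1, h2 h.2⟩⟩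
  | or φ ψ h1 h2 =>
    exact List.forall_mem_cons.mpr ⟨by simp, List.forall_mem_append.mpr ⟨h1 h.1, h2 h.2⟩⟩
  | not φ h1 => exact List.forall_mem_cons.mpr ⟨by simp, h1 h⟩

/-! ### evaluation -/

/-- rename the variables -/
def parse_ren (xs ys : List ℕ) (t : parse_Tok) : parse_Tok :=
  if t.1 = 1 then (1, ys.length + xs.idxOf t.2.1, 0)
  else if t.1 = 2 then (1, ys.idxOf t.2.1, 0) else t

/-- the circuit of the atom at the head of `l` -/
def parse_cir (xs ys : List ℕ) (l : List parse_Tok) : List parse_Tok :=
  (l.tail.take (l.headD (0, 0, 0)).2.1).map (parse_ren xs ys)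

/-- one step of the stack machine -/
def parse_estep (a : ℕ × Bool × Bool) (k : List Bool) : List Bool :=
  if a.1 ≤ 5 then k
  else if a.1 = 6 then (!a.2.1 && !a.2.2) :: k
  else if a.1 = 7 then a.2.1 :: k
  else if a.1 = 8 then (k.headD false && k.tail.headD false) :: k.tail.tail
  else if a.1 = 9 then (k.headD false || k.tail.headD false) :: k.tail.tail
  else (!k.headD false) :: k.tail

theorem parse_pt_run : PT fun l : List (ℕ × Bool × Bool) => l.foldr parse_estep [] := by
  refine PT.foldr_add (f := fun _ => parse_estep) (fun _ => 6)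
    (by unfold parse_estep; fun_prop) (by fun_prop) (by fun_prop) (by fun_prop)
    fun a acc x _ => ?_
  have h1 := sz_tail_le acc
  have h2 := sz_tail_le acc.tail
  unfold parse_estep
  split_ifs <;> (try simp only [sz_cons, sz_bool]) <;> omega

/-- annotate every token with the signs of the value of its suffix -/
noncomputable def parse_ann (v : List parse_Tok → ℝ) : List parse_Tok → List (ℕ × Bool × Bool)
  | [] => []
  | t :: l => (t.1, decide (0 < v (t :: l)), decide (0 < -v (t :: l))) :: parse_ann v l

theorem parse_ann_eq (v : List parse_Tok → ℝ) (l : List parse_Tok) :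
    parse_ann v l = (List.range l.length).map fun k =>
      ((l.getD k (0, 0, 0)).1, decide (0 < v (l.drop k)), decide (0 < -v (l.drop k))) := by
  induction l with
  | nil => rfl
  | cons t l ih =>
    rw [parse_ann, ih, List.length_cons, List.range_succ_eq_map, List.map_cons, List.map_map]
    rfl

theorem parse_run_gates (v : List parse_Tok → ℝ) (c : List AGate) (l : List parse_Tok) :
    (parse_ann v (c.map parse_gtok ++ l)).foldr parse_estep []
      = (parse_ann v l).foldr parse_estep [] := by
  induction c with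
  | nil => rfl
  | cons g c ih =>
    rw [List.map_cons, List.cons_append, parse_ann, List.foldr_cons, ih, parse_estep,
      if_pos (parse_gtok_isGate g).1]

theorem parse_cval_circuit (xs ys : List ℕ) (z x y : ℕ → ℝ) (c : List AGate)
    (h : ∀ t ∈ c.map parse_gtok, (t.1 = 1 → z (ys.length + xs.idxOf t.2.1) = x t.2.1) ∧
      (t.1 = 2 → z (ys.idxOf t.2.1) = y t.2.1)) :
    parse_cval z ((c.map parse_gtok).map (parse_ren xs ys)) = circuitValue x y c := by
  have key : ∀ prev : List ℝ, parse_cvals z prev ((c.map parse_gtok).map (parse_ren xs ys))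
      = c.foldl (fun prev g => prev ++ [g.value x y prev]) prev := by
    induction c with
    | nil => intro prev; rfl
    | cons g c ih =>
      intro prev
      have h1 : parse_tval z prev (parse_ren xs ys (parse_gtok g)) = g.value x y prev := by
        have h2 := h (parse_gtok g) (by simp)
        cases g with
        | const w =>
          by_cases hw : w < 0
          · simp [parse_tval, parse_ren, parse_gtok, AGate.value, hw, abs_of_neg hw]
          · simp [parse_tval, parse_ren, parse_gtok, AGate.value, hw,
              abs_of_nonneg (not_lt.mp hw)]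
        | varX i => simpa [parse_tval, parse_ren, parse_gtok, AGate.value] using h2
        | varY i => simpa [parse_tval, parse_ren, parse_gtok, AGate.value] using h2
        | _ => simp [parse_tval, parse_ren, parse_gtok, AGate.value]
      have := ih (fun t ht => h t (by rw [List.map_cons]; exact List.mem_cons_of_mem _ ht))
        (prev ++ [g.value x y prev])
      simp only [parse_cvals, List.map_cons, List.foldl_cons, h1] at this ⊢
      exact this
  unfold parse_cval circuitValue circuitValues
  rw [key]

open Classical in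
theorem parse_run_form (xs ys : List ℕ) (z x y : ℕ → ℝ) (φ : Form)
    (h : ∀ t ∈ parse_ftoks φ, (t.1 = 1 → z (ys.length + xs.idxOf t.2.1) = x t.2.1) ∧
      (t.1 = 2 → z (ys.idxOf t.2.1) = y t.2.1)) (l : List parse_Tok) :
    (parse_ann (fun l => parse_cval z (parse_cir xs ys l)) (parse_ftoks φ ++ l)).foldr
        parse_estep []
      = decide (φ.Holds x y) ::
        (parse_ann (fun l => parse_cval z (parse_cir xs ys l)) l).foldr parse_estep [] := by
  have hc : ∀ (c : List AGate) (t : ℕ) (l : List parse_Tok),
      parse_cir xs ys ((t, c.length, 0) :: (c.map parse_gtok ++ l))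
        = (c.map parse_gtok).map (parse_ren xs ys) := fun c t l => by
    simp [parse_cir]
  induction φ generalizing l with
  | eqZero c =>
    rw [parse_ftoks, List.cons_append, parse_ann, List.foldr_cons, parse_run_gates, hc,
      parse_cval_circuit xs ys z x y c fun t ht => h t (List.mem_cons_of_mem _ ht)]
    simp only [parse_estep, Form.Holds]
    rcases lt_trichotomy (circuitValue x y c) 0 with h1 | h1 | h1
    · simp [h1, h1.ne]
    · simp [h1]
    · simp [h1, h1.ne']
  | pos c =>
    rw [parse_ftoks, List.cons_append, parse_ann, List.foldr_cons, parse_run_gates, hc,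
      parse_cval_circuit xs ys z x y c fun t ht => h t (List.mem_cons_of_mem _ ht)]
    simp [parse_estep, Form.Holds]
  | and φ ψ h1 h2 =>
    rw [parse_ftoks, List.cons_append, parse_ann, List.foldr_cons, List.append_assoc,
      h1 fun t ht => h t (List.mem_cons_of_mem _ (List.mem_append_left _ ht)),
      h2 fun t ht => h t (List.mem_cons_of_mem _ (List.mem_append_right _ ht))]
    simp [parse_estep, Form.Holds]
  | or φ ψ h1 h2 =>
    rw [parse_ftoks, List.cons_append, parse_ann, List.foldr_cons, List.append_assoc,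
      h1 fun t ht => h t (List.mem_cons_of_mem _ (List.mem_append_left _ ht)),
      h2 fun t ht => h t (List.mem_cons_of_mem _ (List.mem_append_right _ ht))]
    simp [parse_estep, Form.Holds]
  | not φ h1 =>
    rw [parse_ftoks, List.cons_append, parse_ann, List.foldr_cons,
      h1 fun t ht => h t (List.mem_cons_of_mem _ ht)]
    simp [parse_estep, Form.Holds]

/-- the indices of the variables with tag `g` -/
def parse_vars (g : ℕ) (L : List parse_Tok) : List ℕ :=
  (L.filter fun t => decide (t.1 = g)).map fun t => t.2.1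

theorem parse_mem_vars {g : ℕ} {L : List parse_Tok} {t : parse_Tok} (h : t ∈ L) (hg : t.1 = g) :
    t.2.1 ∈ parse_vars g L :=
  List.mem_map.mpr ⟨t, List.mem_filter.mpr ⟨h, by simpa using hg⟩, rfl⟩

/-- the tokens of the body -/
def parse_body (w : List Bool) : List parse_Tok := parse_toks (parse_nats w).tail.tail

/-- the circuit at position `k` -/
def parse_circ (L : List parse_Tok) (k : ℕ) : List parse_Tok :=
  parse_cir (parse_vars 1 L) (parse_vars 2 L) (L.drop k)

/-- the polynomials of the atoms -/
noncomputable def parse_P (L : List parse_Tok) (τ : ℕ) : MP :=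
  if τ % 2 = 0 then map (Int.castRingHom ℚ) (parse_cval X (parse_circ L (τ / 2)))
  else -map (Int.castRingHom ℚ) (parse_cval X (parse_circ L (τ / 2)))

/-- the evaluation from the sign bits -/
def parse_Ev (L : List parse_Tok) (bs : List Bool) : Bool :=
  (((List.range L.length).map fun k => ((L.getD k (0, 0, 0)).1, bs.getD (2 * k) false,
    bs.getD (2 * k + 1) false)).foldr parse_estep []).headD false

theorem parse_aeval (z : ℕ → ℝ) (c : List parse_Tok) :
    aeval z (map (Int.castRingHom ℚ) (parse_cval X c)) = parse_cval z c := by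
  have := parse_cval_map (((aeval z : MP →ₐ[ℚ] ℝ) : MP →+* ℝ).comp (map (Int.castRingHom ℚ))) X c
  simpa using this

theorem parse_Ev_form (z x y : ℕ → ℝ) (φ : Form)
    (h : ∀ t ∈ parse_ftoks φ, (t.1 = 1 → z ((parse_vars 2 (parse_ftoks φ)).length +
        (parse_vars 1 (parse_ftoks φ)).idxOf t.2.1) = x t.2.1) ∧
      (t.1 = 2 → z ((parse_vars 2 (parse_ftoks φ)).idxOf t.2.1) = y t.2.1)) :
    parse_Ev (parse_ftoks φ) (bits (2 * (parse_ftoks φ).length) (parse_P (parse_ftoks φ)) z) = true
      ↔ φ.Holds x y := by
  have h1 := parse_run_form _ _ z x y φ h []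
  rw [List.append_nil, parse_ann_eq] at h1
  unfold parse_Ev
  rw [List.map_congr_left (g := fun k => (((parse_ftoks φ).getD k (0, 0, 0)).1,
    decide (0 < parse_cval z (parse_circ (parse_ftoks φ) k)),
    decide (0 < -parse_cval z (parse_circ (parse_ftoks φ) k))))]
  · unfold parse_circ
    rw [h1]
    simp
  · intro k hk
    have hk' := List.mem_range.mp hk
    have h2 : ∀ τ < 2 * (parse_ftoks φ).length,
        (bits (2 * (parse_ftoks φ).length) (parse_P (parse_ftoks φ)) z).getD τ false
          = decide (0 < aeval z (parse_P (parse_ftoks φ) τ)) := fun τ hτ => by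
      rw [List.getD_eq_getElem _ _ (by simpa [bits] using hτ)]
      simp [bits]
    rw [h2 _ (by omega), h2 _ (by omega), parse_P, parse_P, if_pos (by omega), if_neg (by omega),
      map_neg, parse_aeval, parse_aeval, show 2 * k / 2 = k by omega,
      show (2 * k + 1) / 2 = k by omega]

theorem parse_true_iff (S : Sentence) (hS : S.WF) : S.IsTrue ↔
    ∃ x : Fin (parse_vars 1 (parse_ftoks S.body)).length → ℝ,
      ∀ y : Fin (parse_vars 2 (parse_ftoks S.body)).length → ℝ,
        parse_Ev (parse_ftoks S.body) (bits (2 * (parse_ftoks S.body).length)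
          (parse_P (parse_ftoks S.body)) (app y (app x 0))) = true := by
  have hv := parse_ftoks_vars S.r S.s S.body hS
  constructor
  · rintro ⟨x, hx⟩
    refine ⟨fun j => extend x (parse_vars 1 (parse_ftoks S.body))[j], fun y' => ?_⟩
    refine (parse_Ev_form _ _ _ _ fun t ht => ⟨fun h => ?_, fun h => ?_⟩).mpr
      (hx fun i => app y' 0 ((parse_vars 2 (parse_ftoks S.body)).idxOf (i : ℕ)))
    · have h1 := List.idxOf_lt_length_of_mem (parse_mem_vars ht h)
      rw [add_comm, app_add, app_lt _ _ h1]
      simp
    · have h1 := List.idxOf_lt_length_of_mem (parse_mem_vars ht h)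
      rw [extend, dif_pos ((hv t ht).2 h), app_lt _ _ h1, app_lt _ _ h1]
  · rintro ⟨x', hx⟩
    refine ⟨fun i => app x' 0 ((parse_vars 1 (parse_ftoks S.body)).idxOf (i : ℕ)), fun y => ?_⟩
    refine (parse_Ev_form _ _ _ _ fun t ht => ⟨fun h => ?_, fun h => ?_⟩).mp
      (hx fun j => extend y (parse_vars 2 (parse_ftoks S.body))[j])
    · rw [add_comm, app_add, extend, dif_pos ((hv t ht).1 h)]
    · have h1 := List.idxOf_lt_length_of_mem (parse_mem_vars ht h)
      rw [app_lt _ _ h1]
      simp

theorem parse_pt_vars (g : ℕ) : PT (parse_vars g) := by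
  unfold parse_vars
  fun_prop

theorem parse_pt_ren : PT fun q : List ℕ × List ℕ × parse_Tok => parse_ren q.1 q.2.1 q.2.2 := by
  unfold parse_ren
  fun_prop

theorem parse_pt_cir :
    PT fun q : List ℕ × List ℕ × List parse_Tok => parse_cir q.1 q.2.1 q.2.2 := by
  unfold parse_cir
  exact PT.map (g := fun (q : List ℕ × List ℕ × List parse_Tok) t => parse_ren q.1 q.2.1 t)
    (by fun_prop)
    (parse_pt_ren.comp (f := fun p : (List ℕ × List ℕ × List parse_Tok) × parse_Tok =>
      (p.1.1, p.1.2.1, p.2)) (by fun_prop))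

theorem parse_pt_circ : PT fun q : List parse_Tok × ℕ => parse_circ q.1 q.2 :=
  parse_pt_cir.comp (f := fun q : List parse_Tok × ℕ =>
    (parse_vars 1 q.1, parse_vars 2 q.1, q.1.drop q.2))
    (((parse_pt_vars 1).comp PT.id.fst).pair (((parse_pt_vars 2).comp PT.id.fst).pair
      (PT.drop PT.id.snd PT.id.fst)))

theorem parse_pt_Ev : PT fun q : List parse_Tok × List Bool => parse_Ev q.1 q.2 := by
  have h : PT fun q : List parse_Tok × List Bool => (List.range q.1.length).map fun k =>
      ((q.1.getD k (0, 0, 0)).1, q.2.getD (2 * k) false, q.2.getD (2 * k + 1) false) := by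
    fun_prop
  exact (parse_pt_run.comp h).headD (PT.const false)

/-- the code of parsed data -/
def parse_code (q : ℕ × ℕ × List parse_Tok) : List Bool :=
  (q.1 :: q.2.1 :: q.2.2.flatMap parse_tnats).flatMap natBits

/-- the result of the check -/
def parse_chk (q : ℕ × ℕ × List parse_Tok) : List parse_Tok × ℕ × Bool :=
  q.2.2.foldr (parse_cstep q.1 q.2.1) ([], 0, true)

/-- the parsed data -/
def parse_data (w : List Bool) : ℕ × ℕ × List parse_Tok :=
  ((parse_nats w).headD 0, (parse_nats w).tail.headD 0, parse_body w)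

/-- validity -/
def parse_V (w : List Bool) : Bool :=
  decide (parse_code (parse_data w) = w ∧ parse_chk (parse_data w) = ([], 1, true))

theorem parse_pt_code : PT parse_code := by
  have h2 : PT natBits := by unfold natBits; fun_prop
  unfold parse_code
  refine PT.flatMap (g := fun _ => natBits) ?_ (h2.comp PT.id.snd)
  exact PT.id.fst.cons (PT.id.snd.fst.cons (PT.flatMap (g := fun _ => parse_tnats) PT.id.snd.snd
    (parse_pt_tnats.comp PT.id.snd)))

theorem parse_pt_body : PT parse_body := parse_pt_toks.comp parse_pt_nats.tail.tail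

theorem parse_pt_V : PT parse_V := by
  have h0 : PT parse_data := (parse_pt_nats.headD (PT.const 0)).pair
    ((parse_pt_nats.tail.headD (PT.const 0)).pair parse_pt_body)
  have h1 : PT parse_chk := parse_pt_chk
  exact PT.decide_and (PT.decide_eq (parse_pt_code.comp h0) PT.id)
    (PT.decide_eq (h1.comp h0) (PT.const _))

theorem exists_parse :
    ∃ (r s T : List Bool → ℕ) (P : List Bool → ℕ → MP) (V : List Bool → Bool)
      (Ev : List Bool × List Bool → Bool),
      PT r ∧ PB r ∧ PT s ∧ PB s ∧ PT T ∧ PB T ∧ (CHP fun q : List Bool × ℕ => P q.1 q.2) ∧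
      PT V ∧ PT Ev ∧ ∀ w, w ∈ Crest.RealEA.EATR ↔ V w = true ∧
        ∃ x : Fin (r w) → ℝ, ∀ y : Fin (s w) → ℝ,
          Ev (w, bits (T w) (P w) (app y (app x 0))) = true := by
  have hb := parse_pt_body
  have hv : ∀ g, PT fun w => parse_vars g (parse_body w) := fun g => (parse_pt_vars g).comp hb
  have hc : PT fun q : List Bool × ℕ => parse_circ (parse_body q.1) (q.2 / 2) :=
    parse_pt_circ.comp ((hb.comp PT.id.fst).pair (PT.id.snd.div (PT.const 2)))
  have hp : CHP fun q : List Bool × ℕ =>
      map (Int.castRingHom ℚ) (parse_cval X (parse_circ (parse_body q.1) (q.2 / 2))) := by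
    refine parse_chp (n := fun q => (parse_vars 1 (parse_body q.1)).length +
      (parse_vars 2 (parse_body q.1)).length + 1) hc
      ((((PB.length ((hv 1).comp PT.id.fst)).add (PB.length ((hv 2).comp PT.id.fst)))).add
        (PB.const 1)) fun q t ht h0 h2 => ?_
    obtain ⟨u, -, rfl⟩ := List.mem_map.mp ht
    have h3 := List.idxOf_le_length (a := u.2.1) (l := parse_vars 1 (parse_body q.1))
    have h4 := List.idxOf_le_length (a := u.2.1) (l := parse_vars 2 (parse_body q.1))
    unfold parse_ren at h0 h2 ⊢
    split_ifs at h0 h2 ⊢ <;> first | omega | (simp only; omega)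
  refine ⟨fun w => (parse_vars 1 (parse_body w)).length,
    fun w => (parse_vars 2 (parse_body w)).length, fun w => 2 * (parse_body w).length,
    fun w => parse_P (parse_body w),
    parse_V,
    fun q => parse_Ev (parse_body q.1) q.2, (hv 1).length, PB.length (hv 1), (hv 2).length,
    PB.length (hv 2), (PT.const 2).mul hb.length, (PB.const 2).mul (PB.length hb), ?_, parse_pt_V,
    ?_, fun w => ?_⟩
  · unfold parse_P
    exact CHP.ite (CH.eq (by fun_prop) (by fun_prop)) hp hp.neg
  · exact parse_pt_Ev.comp (f := fun q : List Bool × List Bool => (parse_body q.1, q.2))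
      ((hb.comp PT.id.fst).pair PT.id.snd)
  · rw [parse_V, decide_eq_true_eq, parse_code, parse_chk, parse_data]
    constructor
    · rintro ⟨S, hS, ht, rfl⟩
      have h1 : parse_nats S.encode = S.r :: S.s :: S.body.toNats := parse_nats_encode _
      have h2 : parse_body S.encode = parse_ftoks S.body := by
        rw [parse_body, h1, List.tail_cons, List.tail_cons, ← parse_ftoks_nats,
          parse_toks_encode _ (parse_ftoks_canon _)]
      dsimp only
      rw [h1, h2]
      simp only [List.tail_cons, List.headD_cons, parse_ftoks_nats]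
      exact ⟨⟨rfl, parse_chk_complete _ _ _ hS 0⟩, (parse_true_iff S hS).mp ht⟩
    · rintro ⟨⟨h1, h2⟩, h3⟩
      obtain ⟨c, fs, hwf, h4, h5, h6⟩ := parse_chk_sound _ _ (parse_body w) (by rw [h2])
      rw [h2] at h4 h5
      obtain ⟨φ, rfl⟩ := List.length_eq_one_iff.mp h5.symm
      rw [← h4, List.nil_append, List.flatMap_singleton] at h6
      dsimp only at h3
      rw [h6] at h3
      simp only [h6, parse_ftoks_nats] at h1
      have hS : Sentence.WF ⟨(parse_nats w).headD 0, (parse_nats w).tail.headD 0, φ⟩ :=
        hwf φ (by simp)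
      exact ⟨_, hS, (parse_true_iff _ hS).mpr h3, h1⟩

end Crest.Agent.R316
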