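import Crest.Agent.R316.Newton

/-!
Row 316: eliminants of Pham systems `y j ^ D = g j (y)`, `deg (g j) < D` (pure algebra).

Plan. Put `f j = X j ^ D - g j`, `s = card σ`, `ρ h = rho D (totalDegree h) g h`.
1. `rho_eq`: the term of index `k` vanishes when `∑ k j > totalDegree h - s (D - 1)`; so `ρ` is
   `R`-linear and `rho D K g h = ρ h` for `K ≥ totalDegree h`; `ρ` commutes with ring maps.
2. `rho_mul_f`: `ρ (f i * h) = 0` (shift `k ↦ k + single i 1`).
3. `rho_monomial`: `ρ (y ^ a) = 0` if `|a| < s (D - 1)`, and for `|a| = s (D - 1)` it is `1` if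
   `a = (D - 1, ..., D - 1)` and `0` otherwise.
4. Divided differences over `S = MvPolynomial σ R` (outer variables `y`, inner variables `z`):
   `exists_divdiff`.
5. The Bezoutian `Δ = det θ ∈ MvPolynomial σ S` has `Δ * (y j - z j) = ∑ adj j i * (f i (y) - f i (z))`,
   `Δ = ∏ y j ^ (D - 1) + (total degree < s (D - 1))`, `Δ (y, y) = jac D g`.
   Hence with `b a = coeff a Δ`, for all `h`: `∑ a, ρ (h y ^ a) • b a - h ∈ span {f i}`
   (apply the residue over the coefficient ring `S`).
6. The matrices `N h = (ρ (h * b c * y ^ a))_{a c}` indexed by the support of `Δ` are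
   multiplicative, `trace (N h) = ρ (h * jac)`, and `w a = b a (ξ)` is a nonzero left eigenvector of
   `N h` with eigenvalue `h (ξ)`. Conclude with `eval_reflect_ofPS_trace`, `ofPS_congr`.
-/

set_option autoImplicit false

namespace Crest.Agent.R316

open MvPolynomial

variable {σ R : Type} [Fintype σ] [DecidableEq σ]

/-- the exponent `(k j + 1) D - 1` -/
noncomputable def pham_e (D : ℕ) (k : σ → ℕ) : σ →₀ ℕ :=
  Finsupp.equivFunOnFinite.symm fun j => (k j + 1) * D - 1

omit [DecidableEq σ] in
lemma pham_e_apply (D : ℕ) (k : σ → ℕ) (j : σ) : pham_e D k j = (k j + 1) * D - 1 := rfl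

lemma pham_rho_def [CommRing R] (D K : ℕ) (g : σ → MvPolynomial σ R) (h : MvPolynomial σ R) :
    rho D K g h = ∑ k ∈ Fintype.piFinset fun _ : σ => Finset.range (K + 1),
      coeff (pham_e D k) (h * ∏ j, g j ^ k j) := rfl

omit [DecidableEq σ] in
lemma pham_coeff_eq_zero [CommRing R] {p : MvPolynomial σ R} {d : σ →₀ ℕ}
    (h : p.totalDegree < ∑ i, d i) : coeff d p = 0 := by
  apply coeff_eq_zero_of_totalDegree_lt
  rwa [← Finsupp.degree_apply, Finsupp.degree_eq_sum]

omit [DecidableEq σ] in
lemma pham_term_eq_zero [CommRing R] {D : ℕ} {g : σ → MvPolynomial σ R}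
    (hg : ∀ j, (g j).totalDegree < D) {h : MvPolynomial σ R} {k : σ → ℕ}
    (hk : h.totalDegree < ∑ j, k j + Fintype.card σ * (D - 1)) :
    coeff (pham_e D k) (h * ∏ j, g j ^ k j) = 0 := by
  apply pham_coeff_eq_zero
  have h1 : (∏ j, g j ^ k j).totalDegree ≤ ∑ j, k j * (D - 1) :=
    (totalDegree_finsetProd _ _).trans (Finset.sum_le_sum fun j _ =>
      (totalDegree_pow _ _).trans (Nat.mul_le_mul_left _ (by have := hg j; omega)))
  have h2 : ∑ j, pham_e D k j = ∑ j, k j * (D - 1) + (∑ j, k j + Fintype.card σ * (D - 1)) := by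
    rw [← Finset.card_univ, ← smul_eq_mul, ← Finset.sum_const, ← Finset.sum_add_distrib,
      ← Finset.sum_add_distrib]
    refine Finset.sum_congr rfl fun j _ => ?_
    obtain ⟨D', rfl⟩ : ∃ D', D = D' + 1 := ⟨D - 1, by have := hg j; omega⟩
    rw [pham_e_apply, Nat.add_sub_cancel]
    apply Nat.sub_eq_of_eq_add
    ring
  have h3 := totalDegree_mul h (∏ j, g j ^ k j)
  omega

lemma pham_rho_eq [CommRing R] {D K : ℕ} {g : σ → MvPolynomial σ R}
    (hg : ∀ j, (g j).totalDegree < D) {h : MvPolynomial σ R} (hK : h.totalDegree ≤ K) :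
    rho D K g h = rho D h.totalDegree g h := by
  rw [pham_rho_def, pham_rho_def]
  symm
  refine Finset.sum_subset (Fintype.piFinset_subset _ _ fun _ =>
    Finset.range_subset_range.mpr (by omega)) fun k _ hk => pham_term_eq_zero hg ?_
  rw [Fintype.mem_piFinset, not_forall] at hk
  obtain ⟨j, hj⟩ := hk
  rw [Finset.mem_range] at hj
  have := Finset.single_le_sum (f := k) (fun i _ => Nat.zero_le (k i)) (Finset.mem_univ j)
  omega

theorem rho_eq [CommRing R] {D K K' : ℕ} {g : σ → MvPolynomial σ R}
    (hg : ∀ j, (g j).totalDegree < D) {h : MvPolynomial σ R} (hK : h.totalDegree ≤ K)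
    (hK' : h.totalDegree ≤ K') : rho D K g h = rho D K' g h := by
  rw [pham_rho_eq hg hK, pham_rho_eq hg hK']

theorem rho_mul_f [CommRing R] {D K : ℕ} {g : σ → MvPolynomial σ R}
    (hg : ∀ j, (g j).totalDegree < D) (i : σ) {h : MvPolynomial σ R}
    (hK : h.totalDegree + D ≤ K) : rho D K g ((X i ^ D - g i) * h) = 0 := by
  have hD := hg i
  rw [pham_rho_def]
  simp only [sub_mul, coeff_sub, Finset.sum_sub_distrib]
  rw [sub_eq_zero]
  set P := Fintype.piFinset fun _ : σ => Finset.range (K + 1) with hP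
  have h1 : ∑ k ∈ P, coeff (pham_e D k) (X i ^ D * h * ∏ j, g j ^ k j) =
      ∑ k ∈ P.filter (fun k => k i ≠ 0), coeff (pham_e D k) (X i ^ D * h * ∏ j, g j ^ k j) := by
    symm
    refine Finset.sum_subset (Finset.filter_subset _ _) fun k hk hk' => ?_
    have h0 : k i = 0 := by simpa [hk] using hk'
    rw [mul_assoc, X_pow_eq_monomial, coeff_monomial_mul', if_neg]
    rw [Finsupp.single_le_iff, pham_e_apply, h0]
    omega
  have h2 : ∑ k ∈ P, coeff (pham_e D k) (g i * h * ∏ j, g j ^ k j) =
      ∑ k ∈ P.filter (fun k => k i ≠ K), coeff (pham_e D k) (g i * h * ∏ j, g j ^ k j) := by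
    symm
    refine Finset.sum_subset (Finset.filter_subset _ _) fun k hk hk' => ?_
    have h0 : k i = K := by simpa [hk] using hk'
    refine pham_term_eq_zero hg ?_
    have := Finset.single_le_sum (f := k) (fun i _ => Nat.zero_le (k i)) (Finset.mem_univ i)
    have := totalDegree_mul (g i) h
    omega
  rw [h1, h2]
  symm
  refine Finset.sum_nbij' (fun k => Function.update k i (k i + 1))
    (fun k => Function.update k i (k i - 1)) ?_ ?_ ?_ ?_ ?_
  · intro k hk
    simp only [hP, Finset.mem_filter, Fintype.mem_piFinset, Finset.mem_range] at hk ⊢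
    refine ⟨fun j => ?_, by simp⟩
    by_cases hj : j = i
    · subst hj
      have := hk.1 j
      have := hk.2
      simp only [Function.update_self]
      omega
    · simpa [hj] using hk.1 j
  · intro k hk
    simp only [hP, Finset.mem_filter, Fintype.mem_piFinset, Finset.mem_range] at hk ⊢
    have h3 := hk.1 i
    have h4 := hk.2
    refine ⟨fun j => ?_, by simp only [Function.update_self]; omega⟩
    by_cases hj : j = i
    · subst hj
      simp only [Function.update_self]
      omega
    · simpa [hj] using hk.1 j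
  · intro k _
    simp
  · intro k hk
    have h4 := (Finset.mem_filter.mp hk).2
    simp only [Function.update_self, Function.update_idem]
    rw [Nat.sub_add_cancel (Nat.one_le_iff_ne_zero.mpr h4), Function.update_eq_self]
  · intro k _
    have h3 : pham_e D (Function.update k i (k i + 1)) = Finsupp.single i D + pham_e D k := by
      ext j
      rw [Finsupp.add_apply, pham_e_apply, pham_e_apply]
      by_cases hj : j = i
      · subst hj
        rw [Function.update_self, Finsupp.single_eq_same, add_mul (k j + 1), add_mul (k j)]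
        omega
      · rw [Function.update_of_ne hj, Finsupp.single_eq_of_ne hj, zero_add]
    have h4 : ∏ j, g j ^ Function.update k i (k i + 1) j = g i * ∏ j, g j ^ k j := by
      rw [← Finset.mul_prod_erase _ _ (Finset.mem_univ i),
        ← Finset.mul_prod_erase _ (fun j => g j ^ k j) (Finset.mem_univ i), Function.update_self,
        pow_succ', mul_assoc]
      congr 2
      exact Finset.prod_congr rfl fun j hj => by
        rw [Function.update_of_ne (Finset.ne_of_mem_erase hj)]
    rw [h3, h4, mul_assoc (X i ^ D), X_pow_eq_monomial, coeff_monomial_mul, one_mul]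
    congr 1
    ring

theorem rho_of_lt [CommRing R] {D K : ℕ} {g : σ → MvPolynomial σ R}
    (hg : ∀ j, (g j).totalDegree < D) {h : MvPolynomial σ R}
    (hh : h.totalDegree ≤ Fintype.card σ * (D - 1)) :
    rho D K g h = coeff (Finsupp.equivFunOnFinite.symm fun _ => D - 1) h := by
  rw [pham_rho_def, Finset.sum_eq_single 0]
  · simp [pham_e]
  · intro k _ hk
    refine pham_term_eq_zero hg ?_
    obtain ⟨j, hj⟩ := Function.ne_iff.mp hk
    have := Finset.single_le_sum (f := k) (fun i _ => Nat.zero_le (k i)) (Finset.mem_univ j)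
    have : k j ≠ 0 := hj
    omega
  · intro h0
    exact absurd (by simp) h0

/-- `p` has total degree `< d` (where `0` has degree `-∞`) -/
def pham_Lt [CommRing R] (d : ℕ) (p : MvPolynomial σ R) : Prop := p = 0 ∨ p.totalDegree < d

section lt

omit [Fintype σ] [DecidableEq σ]

variable [CommRing R] {d e : ℕ} {p q : MvPolynomial σ R}

lemma pham_Lt.le (h : pham_Lt d p) : p.totalDegree ≤ d := by
  rcases h with rfl | h
  · simp
  · exact h.le

lemma pham_Lt.mono (h : pham_Lt d p) (hde : d ≤ e) : pham_Lt e p := h.imp id fun h => h.trans_le hde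

lemma pham_Lt.add (hp : pham_Lt d p) (hq : pham_Lt d q) : pham_Lt d (p + q) := by
  rcases hp with rfl | hp
  · rwa [zero_add]
  rcases hq with rfl | hq
  · rw [add_zero]; exact Or.inr hp
  exact Or.inr ((totalDegree_add p q).trans_lt (max_lt hp hq))

lemma pham_Lt.neg (hp : pham_Lt d p) : pham_Lt d (-p) :=
  hp.imp (fun h => by rw [h, neg_zero]) fun h => by rwa [totalDegree_neg]

lemma pham_Lt.mul (hp : pham_Lt d p) (hq : q.totalDegree ≤ e) : pham_Lt (d + e) (p * q) :=
  hp.imp (fun h => by rw [h, zero_mul]) fun h => (totalDegree_mul p q).trans_lt (by omega)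

lemma pham_Lt_sum {ι : Type} (s : Finset ι) {f : ι → MvPolynomial σ R}
    (h : ∀ i ∈ s, pham_Lt d (f i)) : pham_Lt d (∑ i ∈ s, f i) :=
  Finset.sum_induction f _ (fun _ _ => pham_Lt.add) (Or.inl rfl) h

lemma pham_deg_X_pow (i : σ) (n : ℕ) : (X i ^ n : MvPolynomial σ R).totalDegree ≤ n := by
  rw [X_pow_eq_monomial]
  exact (totalDegree_monomial_le _ _).trans (by simp)

lemma pham_deg_prod {ι : Type} (s : Finset ι) {f : ι → MvPolynomial σ R}
    (h : ∀ i, (f i).totalDegree ≤ d) : (∏ i ∈ s, f i).totalDegree ≤ s.card * d :=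
  (totalDegree_finsetProd _ _).trans (by
    simpa using Finset.sum_le_card_nsmul s _ d fun i _ => h i)

lemma pham_Lt_prod {ι : Type} (s : Finset ι) {f f' : ι → MvPolynomial σ R}
    (h' : ∀ i, (f' i).totalDegree ≤ d) (h : ∀ i, pham_Lt d (f i - f' i)) :
    pham_Lt (s.card * d) (∏ i ∈ s, f i - ∏ i ∈ s, f' i) := by
  have hf : ∀ i, (f i).totalDegree ≤ d := fun i => by
    have := totalDegree_add (f i - f' i) (f' i)
    rw [sub_add_cancel] at this
    exact this.trans (max_le (h i).le (h' i))
  induction s using Finset.cons_induction with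
  | empty => exact Or.inl (by simp)
  | cons a s ha ih =>
    rw [Finset.prod_cons, Finset.prod_cons, Finset.card_cons]
    have h1 : f a * ∏ i ∈ s, f i - f' a * ∏ i ∈ s, f' i =
        (f a - f' a) * ∏ i ∈ s, f i + (∏ i ∈ s, f i - ∏ i ∈ s, f' i) * f' a := by ring
    rw [h1]
    exact (((h a).mul (pham_deg_prod s hf)).mono (by rw [add_mul]; omega)).add
      ((ih.mul (h' a)).mono (by rw [add_mul]; omega))

lemma pham_deg_pderiv (j : σ) (p : MvPolynomial σ R) :
    (pderiv j p).totalDegree ≤ p.totalDegree := by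
  refine Finset.sup_le fun m hm => ?_
  rw [mem_support_iff, coeff_pderiv] at hm
  have h1 := le_totalDegree (mem_support_iff.mpr (left_ne_zero_of_mul hm))
  rw [Finsupp.sum_add_index' (fun _ => rfl) (fun _ _ _ => rfl)] at h1
  omega

end lt

lemma pham_deg_det [CommRing R] {d : ℕ} {τ : Type} (A : Matrix σ σ (MvPolynomial τ R))
    (h : ∀ i j, (A i j).totalDegree ≤ d) : A.det.totalDegree ≤ Fintype.card σ * d := by
  rw [Matrix.det_apply]
  refine totalDegree_finsetSum_le fun π _ => ?_
  rw [Units.smul_def]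
  exact (totalDegree_smul_le _ _).trans (pham_deg_prod _ fun i => h _ _)

lemma pham_Lt_det [CommRing R] {d : ℕ} {τ : Type} (A B : Matrix σ σ (MvPolynomial τ R))
    (hB : ∀ i j, (B i j).totalDegree ≤ d) (h : ∀ i j, pham_Lt d (A i j - B i j)) :
    pham_Lt (Fintype.card σ * d) (A.det - B.det) := by
  rw [Matrix.det_apply', Matrix.det_apply', ← Finset.sum_sub_distrib]
  refine pham_Lt_sum _ fun π _ => ?_
  rw [← mul_sub, mul_comm _ (_ - _)]
  refine (pham_Lt_prod Finset.univ (fun i => hB (π i) i) fun i => h (π i) i).mul (e := 0) ?_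
  rw [← map_intCast (C : R →+* MvPolynomial τ R), totalDegree_C]

lemma pham_divdiff_monomial [CommRing R] (c : R) (n : ℕ) : ∀ a : σ →₀ ℕ, ∑ i, a i = n →
    ∃ θ : σ → MvPolynomial σ (MvPolynomial σ R),
      map C (monomial a c) - C (monomial a c) = ∑ j, θ j * (X j - C (X j)) ∧
      (∀ j, eval (fun i => (X i : MvPolynomial σ R)) (θ j) = pderiv j (monomial a c)) ∧
      ∀ j, pham_Lt n (θ j) := by
  induction n with
  | zero =>
    intro a ha
    have : a = 0 := Finsupp.ext fun i => Finset.sum_eq_zero_iff.mp ha i (Finset.mem_univ i)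
    subst this
    exact ⟨0, by simp, fun j => by simp, fun j => Or.inl rfl⟩
  | succ n ih =>
    intro a ha
    obtain ⟨i, -, hi⟩ := Finset.exists_ne_zero_of_sum_ne_zero (ha ▸ n.succ_ne_zero :
      ∑ i, a i ≠ 0)
    obtain ⟨b, rfl⟩ : ∃ b, a = b + Finsupp.single i 1 :=
      ⟨a - Finsupp.single i 1, (tsub_add_cancel_of_le
        (Finsupp.single_le_iff.mpr (Nat.one_le_iff_ne_zero.mpr hi))).symm⟩
    have hb : ∑ j, b j = n := by
      simp only [Finsupp.add_apply, Finset.sum_add_distrib, Finsupp.single_apply,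
        Finset.sum_ite_eq, Finset.mem_univ, if_true] at ha
      omega
    obtain ⟨θ, h1, h2, h3⟩ := ih b hb
    rw [monomial_add_single, pow_one]
    refine ⟨fun j => θ j * X i + if j = i then C (monomial b c) else 0, ?_, fun j => ?_,
      fun j => ?_⟩
    · simp only [add_mul, Finset.sum_add_distrib, ite_mul, zero_mul, Finset.sum_ite_eq',
        Finset.mem_univ, if_true, map_mul, map_X]
      simp only [mul_right_comm _ (X i), ← Finset.sum_mul, ← h1]
      ring
    · rw [map_add, map_mul, eval_X, h2, pderiv_mul]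
      by_cases hj : j = i
      · subst hj
        simp
      · simp [hj, Ne.symm hj]
    · refine ((h3 j).mul (by simpa using pham_deg_X_pow i 1)).add ?_
      split_ifs
      · exact Or.inr (by simp)
      · exact Or.inl rfl

/-- induction on monomials: `g (y) y i - g (z) z i = (g (y) - g (z)) y i + g (z) (y i - z i)` -/
theorem exists_divdiff [CommRing R] (g : MvPolynomial σ R) :
    ∃ θ : σ → MvPolynomial σ (MvPolynomial σ R),
      map C g - C g = ∑ j, θ j * (X j - C (X j)) ∧
      (∀ j, eval (fun i => (X i : MvPolynomial σ R)) (θ j) = pderiv j g) ∧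
      ∀ j, θ j = 0 ∨ (θ j).totalDegree < g.totalDegree := by
  choose θ h1 h2 h3 using fun a : σ →₀ ℕ => pham_divdiff_monomial (coeff a g) _ a rfl
  refine ⟨fun j => ∑ a ∈ g.support, θ a j, ?_, fun j => ?_, fun j => ?_⟩
  · conv_lhs => rw [g.as_sum]
    simp only [map_sum, ← Finset.sum_sub_distrib, h1, Finset.sum_mul]
    exact Finset.sum_comm
  · conv_rhs => rw [g.as_sum]
    simp only [map_sum, h2]
  · refine pham_Lt_sum _ fun a ha => (h3 a j).mono ?_
    have := le_totalDegree ha
    rwa [Finsupp.sum_fintype _ _ fun _ => rfl] at this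

/-- the residue as a linear map -/
noncomputable def pham_res [CommRing R] {D : ℕ} {g : σ → MvPolynomial σ R}
    (hg : ∀ j, (g j).totalDegree < D) : MvPolynomial σ R →ₗ[R] R where
  toFun h := rho D h.totalDegree g h
  map_add' p q := by
    rw [← pham_rho_eq hg (totalDegree_add p q), ← pham_rho_eq hg (le_max_left _ q.totalDegree),
      ← pham_rho_eq hg (le_max_right p.totalDegree _)]
    simp only [pham_rho_def, add_mul, coeff_add, Finset.sum_add_distrib]
  map_smul' c p := by
    rw [← pham_rho_eq hg (totalDegree_smul_le c p)]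
    simp only [pham_rho_def, smul_mul_assoc, coeff_smul, RingHom.id_apply, Finset.smul_sum]

lemma pham_res_eq [CommRing R] {D K : ℕ} {g : σ → MvPolynomial σ R}
    (hg : ∀ j, (g j).totalDegree < D) {h : MvPolynomial σ R} (hK : h.totalDegree ≤ K) :
    rho D K g h = pham_res hg h := pham_rho_eq hg hK

lemma pham_res_mul_f [CommRing R] {D : ℕ} {g : σ → MvPolynomial σ R}
    (hg : ∀ j, (g j).totalDegree < D) (i : σ) (h : MvPolynomial σ R) :
    pham_res hg ((X i ^ D - g i) * h) = 0 := by
  rw [← pham_res_eq hg (le_max_left _ (h.totalDegree + D)), rho_mul_f hg i (le_max_right _ _)]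

omit [Fintype σ] [DecidableEq σ] in
lemma pham_deg_map {S : Type} [CommRing R] [CommRing S] (φ : R →+* S) (p : MvPolynomial σ R) :
    (map φ p).totalDegree ≤ p.totalDegree := Finset.sup_mono (support_map_subset φ p)

lemma pham_res_map {S : Type} [CommRing R] [CommRing S] (φ : R →+* S) {D : ℕ}
    {g : σ → MvPolynomial σ R} (hg : ∀ j, (g j).totalDegree < D)
    (hg' : ∀ j, (map φ (g j)).totalDegree < D) (h : MvPolynomial σ R) :
    pham_res hg' (map φ h) = φ (pham_res hg h) := by
  rw [← pham_res_eq hg' (pham_deg_map φ h), ← pham_res_eq hg le_rfl]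
  simp only [pham_rho_def, map_sum, ← coeff_map, map_mul, map_prod, map_pow]

/-- the Bezoutian -/
lemma pham_bezout [CommRing R] {D : ℕ} (hD : 1 ≤ D) {g : σ → MvPolynomial σ R}
    (hg : ∀ j, (g j).totalDegree < D) :
    ∃ Δ : MvPolynomial σ (MvPolynomial σ R), Δ.totalDegree ≤ Fintype.card σ * (D - 1) ∧
      eval (fun i => (X i : MvPolynomial σ R)) Δ = jac D g ∧
      ∀ h : MvPolynomial σ R, ∃ c : σ → MvPolynomial σ R,
        ∑ a ∈ Δ.support, pham_res hg (h * monomial a 1) • coeff a Δ
          = h + ∑ i, (X i ^ D - g i) * c i := by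
  obtain ⟨d, rfl⟩ : ∃ d, D = d + 1 := ⟨D - 1, by omega⟩
  rw [Nat.add_sub_cancel]
  choose θ h1 h2 h3 using fun i => exists_divdiff (g i)
  let γ : σ → MvPolynomial σ (MvPolynomial σ R) := fun i =>
    ∑ l ∈ Finset.range (d + 1), X i ^ l * C (X i) ^ (d + 1 - 1 - l)
  let Θ : Matrix σ σ (MvPolynomial σ (MvPolynomial σ R)) :=
    Matrix.of fun i j => (if i = j then γ i else 0) - θ i j
  let Q : Matrix σ σ (MvPolynomial σ (MvPolynomial σ R)) := Matrix.diagonal fun i => X i ^ d
  have hQ : ∀ i j, (Q i j).totalDegree ≤ d := by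
    intro i j
    simp only [Q, Matrix.diagonal_apply]
    split_ifs
    · exact pham_deg_X_pow i d
    · simp
  have hΘQ : ∀ i j, pham_Lt d (Θ i j - Q i j) := by
    intro i j
    have h4 : pham_Lt d (θ i j) := pham_Lt.mono (h3 i j) (by have := hg i; omega)
    simp only [Θ, Q, Matrix.of_apply, Matrix.diagonal_apply]
    split_ifs
    · rw [sub_right_comm, sub_eq_add_neg]
      refine pham_Lt.add ?_ h4.neg
      simp only [γ, Finset.sum_range_succ, Nat.add_sub_cancel, Nat.sub_self, pow_zero, mul_one,
        add_sub_cancel_right]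
      refine pham_Lt_sum _ fun l hl => Or.inr ((totalDegree_mul _ _).trans_lt ?_)
      rw [← map_pow, totalDegree_C, add_zero]
      exact (pham_deg_X_pow i l).trans_lt (Finset.mem_range.mp hl)
    · simpa using h4.neg
  have hlt := pham_Lt_det Θ Q hQ hΘQ
  have hdeg : Θ.det.totalDegree ≤ Fintype.card σ * d := by
    have := totalDegree_add (Θ.det - Q.det) Q.det
    rw [sub_add_cancel] at this
    exact this.trans (max_le hlt.le (pham_deg_det Q hQ))
  have hg' : ∀ j, (map (C : R →+* MvPolynomial σ R) (g j)).totalDegree < d + 1 := fun j =>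
    (pham_deg_map _ _).trans_lt (hg j)
  have hone : pham_res hg' Θ.det = 1 := by
    rw [← pham_res_eq hg' le_rfl, rho_of_lt hg' hdeg, Nat.add_sub_cancel]
    have h4 : coeff (Finsupp.equivFunOnFinite.symm fun _ : σ => d) (Θ.det - Q.det) = 0 := by
      rcases hlt with h | h
      · rw [h, coeff_zero]
      · exact pham_coeff_eq_zero (by simpa using h)
    rw [coeff_sub, sub_eq_zero] at h4
    have h5 : Q.det = monomial (Finsupp.equivFunOnFinite.symm fun _ : σ => d) 1 := by
      rw [monomial_eq, Finsupp.prod_fintype _ _ fun _ => pow_zero _]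
      simp [Q]
    rw [h4, h5, coeff_monomial, if_pos rfl]
  have hmul : ∀ j, Θ.det * (X j - C (X j)) = ∑ i, Θ.adjugate j i *
      ((X i ^ (d + 1) - map C (g i)) - C (X i ^ (d + 1) - g i)) := by
    intro j
    have h4 : Θ.mulVec (fun j => X j - C (X j)) =
        fun i => (X i ^ (d + 1) - map C (g i)) - C (X i ^ (d + 1) - g i) := by
      funext i
      simp only [Matrix.mulVec, dotProduct, Θ, Matrix.of_apply, sub_mul (ite _ _ _), ite_mul,
        zero_mul, Finset.sum_sub_distrib, Finset.sum_ite_eq, Finset.mem_univ, if_true, ← h1, γ,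
        geom_sum₂_mul, map_sub, map_pow]
      ring
    have h5 := congrFun (congrArg Θ.adjugate.mulVec h4) j
    rw [Matrix.mulVec_mulVec, Matrix.adjugate_mul, Matrix.smul_mulVec, Matrix.one_mulVec] at h5
    exact h5
  refine ⟨Θ.det, hdeg, ?_, fun h => ?_⟩
  · rw [RingHom.map_det, jac]
    congr 1
    ext1 i j
    simp only [RingHom.mapMatrix_apply, Matrix.map_apply, Θ, Matrix.of_apply, map_sub, h2,
      pderiv_pow]
    congr 1
    split_ifs with hij
    · subst hij
      simp only [γ, map_sum, map_mul, map_pow, eval_X, eval_C, geom_sum₂_self, pderiv_X_self,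
        mul_one]
    · rw [pderiv_X_of_ne hij, mul_zero, map_zero]
  · obtain ⟨φ, hφ, -, -⟩ := exists_divdiff h
    refine ⟨fun i => -pham_res hg' (∑ j, φ j * Θ.adjugate j i), ?_⟩
    have h4 : pham_res hg' (map C h * Θ.det) =
        ∑ a ∈ Θ.det.support, pham_res hg (h * monomial a 1) • coeff a Θ.det := by
      conv_lhs => rw [Θ.det.as_sum, Finset.mul_sum, map_sum]
      refine Finset.sum_congr rfl fun a _ => ?_
      have h5 : map C h * monomial a (coeff a Θ.det) =
          coeff a Θ.det • map (C : R →+* MvPolynomial σ R) (h * monomial a 1) := by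
        rw [map_mul, map_monomial, map_one, ← mul_smul_comm, smul_monomial, smul_eq_mul, mul_one]
      rw [h5, map_smul, pham_res_map _ hg hg', smul_eq_mul, mul_comm, C_mul']
    have h5 : map C h * Θ.det = h • Θ.det + ∑ i,
        ((X i ^ (d + 1) - map C (g i)) * (∑ j, φ j * Θ.adjugate j i)
          - (X i ^ (d + 1) - g i) • ∑ j, φ j * Θ.adjugate j i) := by
      rw [eq_add_of_sub_eq' hφ, add_mul, C_mul', Finset.sum_mul]
      congr 1
      have h6 : ∀ j, φ j * (X j - C (X j)) * Θ.det = ∑ i, φ j * (Θ.adjugate j i *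
          ((X i ^ (d + 1) - map C (g i)) - C (X i ^ (d + 1) - g i))) := fun j => by
        rw [mul_assoc, mul_comm _ Θ.det, hmul, Finset.mul_sum]
      simp only [h6]
      rw [Finset.sum_comm]
      refine Finset.sum_congr rfl fun i _ => ?_
      rw [← C_mul', ← sub_mul, Finset.mul_sum]
      exact Finset.sum_congr rfl fun j _ => by ring
    rw [← h4, h5, map_add, map_smul, hone, smul_eq_mul, mul_one, map_sum]
    congr 1
    refine Finset.sum_congr rfl fun i _ => ?_
    rw [map_sub, pham_res_mul_f hg', map_smul, smul_eq_mul, zero_sub, mul_neg]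

theorem eval_elim [Field R] [Algebra ℚ R] {D M K : ℕ} (hD : 2 ≤ D) {g : σ → MvPolynomial σ R}
    (hg : ∀ j, (g j).totalDegree < D) (hM : (Fintype.card σ * D + 1) ^ Fintype.card σ ≤ M)
    (hK : M + Fintype.card σ * D ≤ K) {ξ : σ → R} (hξ : ∀ j, ξ j ^ D = eval ξ (g j)) (j₀ : σ) :
    (elim D M K g j₀).eval (ξ j₀) = 0 := by
  obtain ⟨Δ, hdeg, hjac, hΔ⟩ := pham_bezout (by omega) hg
  let N : MvPolynomial σ R → Matrix Δ.support Δ.support R := fun h =>
    Matrix.of fun a c => pham_res hg (h * coeff c.1 Δ * monomial a.1 1)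
  have hev : ∀ h : MvPolynomial σ R,
      ∑ a : Δ.support, pham_res hg (h * monomial a.1 1) * eval ξ (coeff a.1 Δ) = eval ξ h := by
    intro h
    obtain ⟨c, hc⟩ := hΔ h
    have h1 := congrArg (eval ξ) hc
    simp only [map_sum, map_add, map_mul, map_sub, map_pow, eval_X, hξ, sub_self, zero_mul,
      Finset.sum_const_zero, add_zero, smul_eval] at h1
    rw [← h1, Finset.sum_coe_sort Δ.support
      fun a => pham_res hg (h * monomial a 1) * eval ξ (coeff a Δ)]
  have hres : ∀ h u : MvPolynomial σ R,
      ∑ a : Δ.support, pham_res hg (h * monomial a.1 1) * pham_res hg (u * coeff a.1 Δ)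
        = pham_res hg (u * h) := by
    intro h u
    obtain ⟨c, hc⟩ := hΔ h
    have h1 := congrArg (fun p => pham_res hg (u * p)) hc
    simp only [Finset.mul_sum, mul_add, map_sum, map_add, mul_smul_comm, map_smul, smul_eq_mul,
      mul_left_comm u, pham_res_mul_f hg, Finset.sum_const_zero, add_zero] at h1
    rw [← h1, Finset.sum_coe_sort Δ.support
      fun a => pham_res hg (h * monomial a 1) * pham_res hg (u * coeff a Δ)]
  have hN : ∀ h h', N h * N h' = N (h * h') := by
    intro h h'
    ext a c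
    simp only [N, Matrix.mul_apply, Matrix.of_apply]
    have h1 := hres (h' * coeff c.1 Δ) (h * monomial a.1 1)
    refine Eq.trans (Finset.sum_congr rfl fun e _ => ?_) (h1.trans (congrArg _ (by ring)))
    rw [mul_comm, mul_right_comm h]
  have hpow : ∀ i, N (X j₀) ^ (i + 1) = N (X j₀ ^ (i + 1)) := by
    intro i
    induction i with
    | zero => simp
    | succ i ih => rw [pow_succ, ih, hN, ← pow_succ]
  have htr : ∀ h, (N h).trace = pham_res hg (h * jac D g) := by
    intro h
    rw [← hjac, eval_eq', Finset.mul_sum, map_sum, ← Finset.sum_coe_sort Δ.support]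
    refine Finset.sum_congr rfl fun a _ => ?_
    simp only [N, Matrix.diag_apply, Matrix.of_apply]
    rw [monomial_eq, Finsupp.prod_fintype _ _ fun _ => pow_zero _, map_one, one_mul, mul_assoc]
  have hjdeg : (jac D g).totalDegree ≤ Fintype.card σ * D :=
    pham_deg_det _ fun i j => (pham_deg_pderiv j _).trans
      ((totalDegree_sub _ _).trans (max_le (pham_deg_X_pow i D) (hg i).le))
  have hcard : Fintype.card Δ.support ≤ M := by
    refine le_trans ?_ hM
    rw [Fintype.card_coe]
    have h1 : (Fintype.piFinset fun _ : σ => Finset.range (Fintype.card σ * D + 1)).card =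
        (Fintype.card σ * D + 1) ^ Fintype.card σ := by simp
    rw [← h1]
    refine Finset.card_le_card_of_injOn (fun a => ⇑a) (fun a ha => ?_)
      fun a _ b _ hab => DFunLike.coe_injective hab
    simp only [Finset.mem_coe, Fintype.mem_piFinset, Finset.mem_range]
    intro j
    have h2 := (monomial_le_degreeOf j ha).trans ((degreeOf_le_totalDegree Δ j).trans hdeg)
    have h3 : Fintype.card σ * (D - 1) ≤ Fintype.card σ * D :=
      Nat.mul_le_mul_left _ (Nat.sub_le D 1)
    omega
  have hw : (fun a : Δ.support => eval ξ (coeff a.1 Δ)) ≠ 0 := by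
    intro h0
    have h1 := hev 1
    simp only [fun a => show eval ξ (coeff a.1 Δ) = 0 from congrFun h0 a, mul_zero,
      Finset.sum_const_zero, map_one] at h1
    exact zero_ne_one h1
  have hvec : Matrix.vecMul (fun a : Δ.support => eval ξ (coeff a.1 Δ)) (N (X j₀)) =
      ξ j₀ • fun a : Δ.support => eval ξ (coeff a.1 Δ) := by
    funext c
    have h1 := hev (X j₀ * coeff c.1 Δ)
    rw [map_mul, eval_X] at h1
    simp only [Matrix.vecMul, dotProduct, N, Matrix.of_apply, Pi.smul_apply, smul_eq_mul, ← h1]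
    exact Finset.sum_congr rfl fun a _ => mul_comm _ _
  have key := eval_reflect_ofPS_trace (N (X j₀)) hcard hw hvec
  rw [elim, ofPS_congr (π' := fun j => (-1) ^ j * (N (X j₀) ^ j).trace), key]
  intro i hi hiM
  obtain ⟨i, rfl⟩ : ∃ i', i = i' + 1 := ⟨i - 1, by omega⟩
  rw [hpow, htr, pham_res_eq hg]
  have h1 := totalDegree_mul (X j₀ ^ (i + 1)) (jac D g)
  have h2 := pham_deg_X_pow (R := R) j₀ (i + 1)
  omega

end Crest.Agent.R316
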