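import Crest.Agent.R316.OpsU
import Crest.Agent.R316.Pham
import Crest.Agent.R316.Perturb

/-!
Row 316: algebraic sample points.

Let `B ≥ natDegree Pi`, `c k = Pi.coeff k`. New variables: `0` is `w`, `1..n` are the `y`, `n + 1` is
`λ`, then the parameters: `ren i = if i < n then i + 1 else i + 2`.
`Q k = ∑_{k < k' ≤ B} (ren (c k')) ^ 2 + (X 0 * ren (c k) - 1) ^ 2`, `g k j = -X (n + 1) * pderiv j (Q k)`,
`2 E > totalDegree (Q k) + 1`, `D = 2 E - 1`, `e k j = elimP (n + 1) D M K (g k) (j + 1)`, a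
polynomial in `t` with coefficients in `(λ, x)`;
`u k j κ = (toU (rename (swap 0 1) (ofU (e k j)))).coeff κ`, a polynomial in `(t, x)`;
`V = ∏ k, ∏ j, ∏ κ, (1 + C (u k j κ) * X)`.
Given `y₀` with `T y₀`, let `k = dg Pi (app y₀ x)`; the set
`C = {(w, y) | Q k (w, y) = 0 ∧ T y}` is closed and open in the zero set of `Q k`; apply
`exists_crit_seq`, `eval_elim`, `isRoot_top_coeff`, `lead_prod`.
-/

set_option autoImplicit false

namespace Crest.Agent.R316

open Crest.Agent.Lib.PT MvPolynomial Filter Topology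

/-- make room for the variables `w` and `λ` -/
def sampler_ren (n i : ℕ) : ℕ := if i < n then i + 1 else i + 2

/-- the equations saying that the degree is exactly `k` -/
noncomputable def sampler_Q (n B : ℕ) (P : UP) (k : ℕ) : MP :=
  ∑ k' ∈ Finset.range (B + 1), (if k < k' then rename (sampler_ren n) (P.coeff k') ^ 2 else 0) +
    (X 0 * rename (sampler_ren n) (P.coeff k) - 1) ^ 2

noncomputable def sampler_g (n : ℕ) (Q : MP) (j : ℕ) : MP := -X (n + 1) * pderiv j Q

/-- the eliminant, as a polynomial in `λ` -/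
noncomputable def sampler_W (n T : ℕ) (Q : MP) (j : ℕ) : UP :=
  toU (rename (Equiv.swap 0 1) (ofU (elimP (n + 1) (2 * T + 3)
    (((n + 1) * (2 * T + 3) + 1) ^ (n + 1))
    (((n + 1) * (2 * T + 3) + 1) ^ (n + 1) + (n + 1) * (2 * T + 3)) (sampler_g n Q) (j + 1))))

theorem sampler_spec_ren (n : ℕ) (l : ℝ) (x : ℕ → ℝ) (p : MP) :
    spec (n + 1) (scons l x) (rename (sampler_ren n) p) = rename Fin.succ (spec n x p) := by
  have h : (spec (n + 1) (scons l x)).comp (rename (sampler_ren n)) =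
      ((rename (R := ℝ) (Fin.succ : Fin n → Fin (n + 1))).restrictScalars ℚ).comp (spec n x) := by
    refine MvPolynomial.algHom_ext fun i => ?_
    simp only [AlgHom.comp_apply, rename_X, AlgHom.restrictScalars_apply]
    by_cases hi : i < n
    · have h1 : sampler_ren n i = i + 1 := if_pos hi
      rw [h1, spec_X_lt _ (show i + 1 < n + 1 by omega), spec_X_lt _ hi, rename_X]
      rfl
    · obtain ⟨i, rfl⟩ : ∃ i', i = i' + n := ⟨i - n, by omega⟩
      have h1 : sampler_ren n (i + n) = (i + 1) + (n + 1) := by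
        rw [sampler_ren, if_neg hi]; omega
      rw [h1, spec_X_add, spec_X_add, scons_succ, rename_C]
  exact DFunLike.congr_fun h p

theorem sampler_spec_Q (n B : ℕ) (P : UP) (k : ℕ) (l : ℝ) (x : ℕ → ℝ) :
    spec (n + 1) (scons l x) (sampler_Q n B P k) =
      ∑ k' ∈ Finset.range (B + 1),
        (if k < k' then rename Fin.succ (spec n x (P.coeff k')) ^ 2 else 0) +
      (X 0 * rename Fin.succ (spec n x (P.coeff k)) - 1) ^ 2 := by
  simp only [sampler_Q, map_add, map_sum, map_pow, map_sub, map_mul, map_one, sampler_spec_ren]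
  rw [spec_X_lt _ (show 0 < n + 1 by omega)]
  congr 1
  refine Finset.sum_congr rfl fun k' _ => ?_
  split_ifs
  · rw [map_pow, sampler_spec_ren]
  · rw [map_zero]

theorem sampler_eval_Q (n B : ℕ) (P : UP) (k : ℕ) (l : ℝ) (x : ℕ → ℝ) (z : Fin (n + 1) → ℝ) :
    eval z (spec (n + 1) (scons l x) (sampler_Q n B P k)) =
      ∑ k' ∈ Finset.range (B + 1),
        (if k < k' then (ev (app (Fin.tail z) x) P).coeff k' ^ 2 else 0) +
      (z 0 * (ev (app (Fin.tail z) x) P).coeff k - 1) ^ 2 := by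
  have h : ∀ p : MP, eval z (rename Fin.succ (spec n x p)) = aeval (app (Fin.tail z) x) p := by
    intro p
    rw [eval_rename, ← eval_spec]
    rfl
  rw [sampler_spec_Q]
  simp only [map_add, map_sum, map_pow, map_sub, map_mul, map_one, eval_X, h, ev_coeff]
  congr 1
  refine Finset.sum_congr rfl fun k' _ => ?_
  split_ifs
  · rw [map_pow, h]
  · rw [map_zero]

theorem sampler_sum_nonneg (B k : ℕ) (F : Polynomial ℝ) :
    ∀ k' ∈ Finset.range (B + 1), 0 ≤ (if k < k' then F.coeff k' ^ 2 else 0) := by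
  intro k' _
  split_ifs
  · positivity
  · exact le_rfl

theorem sampler_dg {n B : ℕ} {P : UP} (hB : P.natDegree ≤ B) {k : ℕ} {l : ℝ} {x : ℕ → ℝ}
    {z : Fin (n + 1) → ℝ} (hz : eval z (spec (n + 1) (scons l x) (sampler_Q n B P k)) = 0) :
    dg P (app (Fin.tail z) x) = k := by
  rw [sampler_eval_Q] at hz
  set F := ev (app (Fin.tail z) x) P with hF
  have hFd : F.natDegree ≤ B := Polynomial.natDegree_map_le.trans hB
  have h0 := Finset.sum_nonneg (sampler_sum_nonneg B k F)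
  have h1 : 0 ≤ (z 0 * F.coeff k - 1) ^ 2 := sq_nonneg _
  have h2 : ∑ k' ∈ Finset.range (B + 1), (if k < k' then F.coeff k' ^ 2 else 0) = 0 := by linarith
  have h3 : (z 0 * F.coeff k - 1) ^ 2 = 0 := by linarith
  have h4 : F.coeff k ≠ 0 := by
    intro h
    rw [h] at h3
    norm_num at h3
  refine le_antisymm ?_ (Polynomial.le_natDegree_of_ne_zero h4)
  refine Polynomial.natDegree_le_iff_coeff_eq_zero.2 fun k' hk' => ?_
  by_cases hb : k' ≤ B
  · have h5 := (Finset.sum_eq_zero_iff_of_nonneg (sampler_sum_nonneg B k F)).1 h2 k'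
      (Finset.mem_range.2 (by omega))
    rw [if_pos hk'] at h5
    exact pow_eq_zero_iff (two_ne_zero) |>.1 h5
  · exact Polynomial.coeff_eq_zero_of_natDegree_lt (lt_of_le_of_lt hFd (not_le.1 hb))

theorem sampler_closed {n B : ℕ} {P : UP} (hB : P.natDegree ≤ B) (k : ℕ) (x : ℕ → ℝ)
    {T : (Fin n → ℝ) → Prop}
    (hT : ∀ y₀, ∀ᶠ y in 𝓝 y₀, dg P (app y x) = dg P (app y₀ x) → (T y ↔ T y₀)) :
    IsClosed {z : Fin (n + 1) → ℝ |
      eval z (spec (n + 1) (scons 0 x) (sampler_Q n B P k)) = 0 ∧ T (Fin.tail z)} := by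
  refine isClosed_iff_frequently.2 fun z hz => ?_
  have hZ : IsClosed {z : Fin (n + 1) → ℝ |
      eval z (spec (n + 1) (scons 0 x) (sampler_Q n B P k)) = 0} :=
    isClosed_eq (MvPolynomial.continuous_eval _) continuous_const
  have h1 : eval z (spec (n + 1) (scons 0 x) (sampler_Q n B P k)) = 0 :=
    isClosed_iff_frequently.1 hZ z (hz.mono fun z' hz' => hz'.1)
  refine ⟨h1, ?_⟩
  have hc : Continuous fun z : Fin (n + 1) → ℝ => Fin.tail z :=
    continuous_pi fun j => continuous_apply _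
  obtain ⟨z', h2, h3⟩ := (hz.and_eventually ((hc.tendsto z).eventually (hT (Fin.tail z)))).exists
  exact (h3 ((sampler_dg hB h2.1).trans (sampler_dg hB h1).symm)).1 h2.2

theorem sampler_eval_W (n T : ℕ) (Q : MP) (j : ℕ) (x : ℕ → ℝ) (t l : ℝ) {B : ℕ}
    (hB : (sampler_W n T Q j).natDegree ≤ B) :
    ∑ κ ∈ Finset.range (B + 1), l ^ κ * (tx x ((sampler_W n T Q j).coeff κ)).eval t =
      (ev (scons l x) (elimP (n + 1) (2 * T + 3)
        (((n + 1) * (2 * T + 3) + 1) ^ (n + 1))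
        (((n + 1) * (2 * T + 3) + 1) ^ (n + 1) + (n + 1) * (2 * T + 3)) (sampler_g n Q)
          (j + 1))).eval t := by
  have hd : (ev (scons t x) (sampler_W n T Q j)).natDegree < B + 1 :=
    Nat.lt_succ_of_le (Polynomial.natDegree_map_le.trans hB)
  have h1 : (ev (scons t x) (sampler_W n T Q j)).eval l =
      ∑ κ ∈ Finset.range (B + 1), l ^ κ * (tx x ((sampler_W n T Q j).coeff κ)).eval t := by
    rw [Polynomial.eval_eq_sum_range' hd]
    refine Finset.sum_congr rfl fun κ _ => ?_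
    rw [ev_coeff, eval_tx, mul_comm]
  rw [← h1, eval_ev, eval_ev, sampler_W, ofU_toU, aeval_rename]
  congr 2
  funext i
  rcases i with _ | _ | i
  · simp
  · simp
  · rw [Function.comp_apply, Equiv.swap_apply_of_ne_of_ne (by omega) (by omega)]
    rfl

theorem sampler_root {n B : ℕ} {P : UP} (hB : P.natDegree ≤ B) (h1 : P.coeff 0 = 1)
    {T : ℕ → ℕ} (hT : ∀ k, (sampler_Q n B P k).totalDegree ≤ T k) {B' : ℕ → ℕ → ℕ}
    (hB' : ∀ k j, (sampler_W n (T k) (sampler_Q n B P k) j).natDegree ≤ B' k j) (x : ℕ → ℝ)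
    {S : (Fin n → ℝ) → Prop}
    (hS : ∀ y₀, ∀ᶠ y in 𝓝 y₀, dg P (app y x) = dg P (app y₀ x) → (S y ↔ S y₀))
    {y₀ : Fin n → ℝ} (h0 : S y₀) :
    ∃ y, S y ∧ ∃ k ≤ B, ∀ j : Fin n, ∃ κ ≤ B' k j,
      tx x ((sampler_W n (T k) (sampler_Q n B P k) j).coeff κ) ≠ 0 ∧
        (tx x ((sampler_W n (T k) (sampler_Q n B P k) j).coeff κ)).IsRoot (y j) := by
  set k := dg P (app y₀ x) with hk
  set F := ev (app y₀ x) P with hF
  have hkB : k ≤ B := Polynomial.natDegree_map_le.trans hB
  have hF0 : F ≠ 0 := by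
    intro h
    have h2 : F.coeff 0 = 1 := by rw [hF, ev_coeff, h1, map_one]
    rw [h] at h2
    simp at h2
  have hFk : F.coeff k ≠ 0 := Polynomial.leadingCoeff_ne_zero.2 hF0
  set Q := spec (n + 1) (scons 0 x) (sampler_Q n B P k) with hQ
  have hQ0 : ∀ z, 0 ≤ eval z Q := fun z => by
    rw [hQ, sampler_eval_Q]
    exact add_nonneg (Finset.sum_nonneg (sampler_sum_nonneg B k _)) (sq_nonneg _)
  have hne : {z : Fin (n + 1) → ℝ | eval z Q = 0 ∧ S (Fin.tail z)}.Nonempty := by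
    refine ⟨Fin.cons (F.coeff k)⁻¹ y₀, ?_, by simpa using h0⟩
    rw [hQ, sampler_eval_Q, Fin.tail_cons, Fin.cons_zero, ← hF, inv_mul_cancel₀ hFk,
      Finset.sum_eq_zero]
    · norm_num
    · intro k' _
      split_ifs with h
      · rw [Polynomial.coeff_eq_zero_of_natDegree_lt h]
        norm_num
      · rfl
  have hcl' : IsClosed ({z : Fin (n + 1) → ℝ | eval z Q = 0} \
      {z : Fin (n + 1) → ℝ | eval z Q = 0 ∧ S (Fin.tail z)}) := by
    have h2 := sampler_closed hB k x (T := fun y => ¬ S y)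
      fun y₀ => (hS y₀).mono fun y hy h => not_congr (hy h)
    convert h2 using 1
    ext z
    simp only [Set.mem_sdiff, Set.mem_ofPred_eq, hQ]
    tauto
  obtain ⟨z, hz, u, lam, hu, hlam, hcrit⟩ := exists_crit_seq (E := T k + 2) (by omega) Q hQ0 hne
    (fun z hz => hz.1) (sampler_closed hB k x hS) hcl'
  refine ⟨Fin.tail z, hz.2, k, hkB, fun j => ?_⟩
  have hQl : ∀ l : ℝ, spec (n + 1) (scons l x) (sampler_Q n B P k) = Q := fun l => by
    rw [hQ, sampler_spec_Q, sampler_spec_Q]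
  have hg : ∀ (l : ℝ) (i : Fin (n + 1)),
      spec (n + 1) (scons l x) (sampler_g n (sampler_Q n B P k) i) = -C l * pderiv i Q := by
    intro l i
    have h2 := spec_X_add (n + 1) (scons l x) 0
    rw [Nat.zero_add] at h2
    rw [sampler_g, map_mul, map_neg, h2, spec_pderiv, hQl, scons_zero]
  refine isRoot_top_coeff (fun κ => tx x ((sampler_W n (T k) (sampler_Q n B P k) j).coeff κ))
    (B' k j) (t := fun m => u m j.succ) (tendsto_pi_nhds.1 hu j.succ) hlam (fun m => ?_) ?_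
  · rw [sampler_eval_W _ _ _ _ _ _ _ (hB' k j)]
    have h2 := ev_elimP (n + 1) (2 * T k + 3) (((n + 1) * (2 * T k + 3) + 1) ^ (n + 1))
      (((n + 1) * (2 * T k + 3) + 1) ^ (n + 1) + (n + 1) * (2 * T k + 3))
      (sampler_g n (sampler_Q n B P k)) j.succ (scons (lam m) x)
    rw [Fin.val_succ] at h2
    rw [h2]
    refine eval_elim (by omega) (fun i => ?_) (by rw [Fintype.card_fin])
      (by rw [Fintype.card_fin]) (fun i => ?_) j.succ
    · rw [hg, ← map_neg]
      have h3 := totalDegree_mul (C (-lam m) : MvPolynomial (Fin (n + 1)) ℝ) (pderiv i Q)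
      rw [totalDegree_C] at h3
      have h4 := totalDegree_pderiv_le' i Q
      have h5 : Q.totalDegree ≤ T k := (totalDegree_spec_le _ _ _).trans (hT k)
      omega
    · rw [hg, map_mul, map_neg, eval_C, ← hcrit m i]
      congr 1
  · by_contra hcon
    push Not at hcon
    have h2 : ev (scons (0 : ℝ) x) (elimP (n + 1) (2 * T k + 3)
        (((n + 1) * (2 * T k + 3) + 1) ^ (n + 1))
        (((n + 1) * (2 * T k + 3) + 1) ^ (n + 1) + (n + 1) * (2 * T k + 3))
        (sampler_g n (sampler_Q n B P k)) (j + 1)) = 0 := by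
      refine Polynomial.funext fun t => ?_
      rw [← sampler_eval_W _ _ _ _ _ _ _ (hB' k j), Polynomial.eval_zero]
      refine Finset.sum_eq_zero fun κ hκ => ?_
      rw [hcon κ (by have := Finset.mem_range.1 hκ; omega), Polynomial.eval_zero, mul_zero]
    have h3 := congrArg (fun F => Polynomial.coeff F (((n + 1) * (2 * T k + 3) + 1) ^ (n + 1))) h2
    simp only [ev_coeff, Polynomial.coeff_zero] at h3
    rw [elimP, reflect_ofPS_coeff, map_one] at h3
    exact one_ne_zero h3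

theorem sampler_lead {V : UP} {u : MP} (h : 1 + Polynomial.C u * Polynomial.X ∣ V) {x : ℕ → ℝ}
    (hu : tx x u ≠ 0) {t : ℝ} (ht : (tx x u).IsRoot t) : (lead V x).IsRoot t := by
  obtain ⟨G, rfl⟩ := h
  refine ht.dvd ?_
  rw [lead, Polynomial.map_mul, Polynomial.leadingCoeff_mul]
  refine Dvd.dvd.mul_right (dvd_of_eq ?_) _
  have h2 : (1 + Polynomial.C u * Polynomial.X : UP).map (tx x).toRingHom =
      Polynomial.C (tx x u) * Polynomial.X + Polynomial.C 1 := by
    rw [Polynomial.map_add, Polynomial.map_mul, Polynomial.map_C, Polynomial.map_X,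
      Polynomial.map_one, add_comm, Polynomial.C_1]
    rfl
  rw [h2, Polynomial.leadingCoeff_linear hu]

theorem sampler_chp_ren {α : Type} [Enc α] {n : α → ℕ} {P : α → MP} (hn : CHF n) (hP : CHP P) :
    CHP fun a => rename (sampler_ren (n a)) (P a) := by
  refine CHP.rename (f := fun a => sampler_ren (n a)) hP ?_ ?_
  · unfold sampler_ren
    fun_prop
  · refine PB.of_le (m := fun q : α × List Unit => q.2.length + 2) (by fun_prop) fun q => ?_
    unfold sampler_ren
    split_ifs <;> omega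

theorem exists_sampler {α : Type} [Enc α] {n : α → ℕ} {Pi : α → UP} (hn : CHF n) (hb : PB n)
    (hP : CHU Pi) (h1 : ∀ a, (Pi a).coeff 0 = 1) :
    ∃ V : α → UP, CHU V ∧ (∀ a, (V a).coeff 0 = 1) ∧
      ∀ a (x : ℕ → ℝ) (T : (Fin (n a) → ℝ) → Prop),
        (∀ y₀, ∀ᶠ y in 𝓝 y₀, dg (Pi a) (app y x) = dg (Pi a) (app y₀ x) → (T y ↔ T y₀)) →
        (∃ y, T y) → ∃ y, T y ∧ ∀ j, (lead (V a) x).IsRoot (y j) := by
  obtain ⟨B, hB, hBle⟩ := hP.natDegree_le
  have hc : CHP fun q : α × ℕ => rename (sampler_ren (n q.1)) ((Pi q.1).coeff q.2) :=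
    sampler_chp_ren (n := fun q : α × ℕ => n q.1) (by fun_prop) (by fun_prop)
  have hQ : CHP fun q : α × ℕ => sampler_Q (n q.1) (B q.1) (Pi q.1) q.2 := by
    have h2 : CHP fun r : (α × ℕ) × ℕ => rename (sampler_ren (n r.1.1)) ((Pi r.1.1).coeff r.2) :=
      CHP.comp (g := fun r : (α × ℕ) × ℕ => (r.1.1, r.2)) hc (by fun_prop)
    have h3 : CHP fun q : α × ℕ => ∑ k' ∈ Finset.range (B q.1 + 1),
        (if q.2 < k' then rename (sampler_ren (n q.1)) ((Pi q.1).coeff k') ^ 2 else 0) :=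
      CHP.sum (P := fun (q : α × ℕ) k' =>
        if q.2 < k' then rename (sampler_ren (n q.1)) ((Pi q.1).coeff k') ^ 2 else 0)
        (by fun_prop) (CHP.ite (by fun_prop) (h2.pow (CHF.const 2)) (CHP.const 0))
    exact h3.add ((((CHP.const (X 0)).mul hc).sub (CHP.const 1)).pow (CHF.const 2))
  obtain ⟨T, hT, hTle⟩ := hQ.totalDegree_le
  have hW : CHU fun r : (α × ℕ) × ℕ => sampler_W (n r.1.1) (T r.1)
      (sampler_Q (n r.1.1) (B r.1.1) (Pi r.1.1) r.1.2) (min r.2 (n r.1.1)) := by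
    have hn' : CHF fun r : (α × ℕ) × ℕ => n r.1.1 := by fun_prop
    have hb' : PB fun r : (α × ℕ) × ℕ => n r.1.1 := hb.comp (by fun_prop)
    have hT' : CHF fun r : (α × ℕ) × ℕ => T r.1 := by fun_prop
    have hn1 : CHF fun r : (α × ℕ) × ℕ => n r.1.1 + 1 := hn'.add (CHF.const 1)
    have hb1 : PB fun r : (α × ℕ) × ℕ => n r.1.1 + 1 := hb'.add (PB.const 1)
    have hD : CHF fun r : (α × ℕ) × ℕ => 2 * T r.1 + 3 :=
      ((CHF.const 2).mul hT').add (CHF.const 3)
    have hM : CHF fun r : (α × ℕ) × ℕ => ((n r.1.1 + 1) * (2 * T r.1 + 3) + 1) ^ (n r.1.1 + 1) :=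
      ((hn1.mul hD).add (CHF.const 1)).pow hn1 hb1
    have hg : CHP fun s : ((α × ℕ) × ℕ) × ℕ => sampler_g (n s.1.1.1)
        (sampler_Q (n s.1.1.1) (B s.1.1.1) (Pi s.1.1.1) s.1.1.2) s.2 := by
      have h2 : CHP fun s : ((α × ℕ) × ℕ) × ℕ =>
          sampler_Q (n s.1.1.1) (B s.1.1.1) (Pi s.1.1.1) s.1.1.2 :=
        CHP.comp (g := fun s : ((α × ℕ) × ℕ) × ℕ => s.1.1) hQ (by fun_prop)
      have h3 : CHP fun s : ((α × ℕ) × ℕ) × ℕ => (X (n s.1.1.1 + 1) : MP) :=
        CHP.X (CHF.comp (g := fun r : (α × ℕ) × ℕ => n r.1.1 + 1) hn1 (by fun_prop))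
          (PB.comp (g := fun r : (α × ℕ) × ℕ => n r.1.1 + 1) hb1 (by fun_prop))
      exact h3.neg.mul (CHP.pderiv (by fun_prop) h2)
    have he := CHU.elimP (j := fun r : (α × ℕ) × ℕ => min r.2 (n r.1.1) + 1)
      (g := fun r : (α × ℕ) × ℕ => sampler_g (n r.1.1)
        (sampler_Q (n r.1.1) (B r.1.1) (Pi r.1.1) r.1.2)) hn1 hb1 hD hM (hM.add (hn1.mul hD))
      (by fun_prop) (hb1.of_le fun r => by omega) hg
    refine CHU.toU (CHP.rename (f := fun _ => Equiv.swap 0 1) (CHP.ofU he) ?_ ?_)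
    · refine CHF.congr (g := fun q : ((α × ℕ) × ℕ) × List Unit =>
        if q.2.length = 0 then 1 else if q.2.length = 1 then 0 else q.2.length) (by fun_prop)
        fun q => ?_
      rw [Equiv.swap_apply_def]
    · refine PB.of_le (m := fun q : ((α × ℕ) × ℕ) × List Unit => q.2.length + 1) (by fun_prop)
        fun q => ?_
      rw [Equiv.swap_apply_def]
      split_ifs <;> omega
  obtain ⟨B', hB', hB'le⟩ := hW.natDegree_le
  refine ⟨fun a => ∏ k ∈ Finset.range (B a + 1), ∏ j ∈ Finset.range (n a),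
    ∏ κ ∈ Finset.range (B' ((a, k), j) + 1), (1 + Polynomial.C ((sampler_W (n a) (T (a, k))
      (sampler_Q (n a) (B a) (Pi a) k) (min j (n a))).coeff κ) * Polynomial.X), ?_, ?_, ?_⟩
  · have h2 : CHP fun s : ((α × ℕ) × ℕ) × ℕ => (sampler_W (n s.1.1.1) (T s.1.1)
        (sampler_Q (n s.1.1.1) (B s.1.1.1) (Pi s.1.1.1) s.1.1.2) (min s.1.2 (n s.1.1.1))).coeff
          s.2 :=
      CHP.coeffU (CHU.comp (g := fun s : ((α × ℕ) × ℕ) × ℕ => s.1) hW (by fun_prop)) (by fun_prop)
    have h3 := (CHU.const 1).add ((CHU.C h2).mul (CHU.const Polynomial.X))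
    have h4 := CHU.prod (N := fun r : (α × ℕ) × ℕ => B' r + 1)
      (F := fun (r : (α × ℕ) × ℕ) κ => 1 + Polynomial.C ((sampler_W (n r.1.1) (T r.1)
        (sampler_Q (n r.1.1) (B r.1.1) (Pi r.1.1) r.1.2) (min r.2 (n r.1.1))).coeff κ) *
          Polynomial.X) (hB'.add (CHF.const 1)) h3
    have h5 := CHU.prod (N := fun q : α × ℕ => n q.1)
      (F := fun (q : α × ℕ) j => ∏ κ ∈ Finset.range (B' (q, j) + 1),
        (1 + Polynomial.C ((sampler_W (n q.1) (T q)
          (sampler_Q (n q.1) (B q.1) (Pi q.1) q.2) (min j (n q.1))).coeff κ) * Polynomial.X))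
      (by fun_prop) h4
    exact CHU.prod (N := fun a => B a + 1)
      (F := fun a k => ∏ j ∈ Finset.range (n a), ∏ κ ∈ Finset.range (B' ((a, k), j) + 1),
        (1 + Polynomial.C ((sampler_W (n a) (T (a, k))
          (sampler_Q (n a) (B a) (Pi a) k) (min j (n a))).coeff κ) * Polynomial.X))
      (hB.add (CHF.const 1)) h5
  · intro a
    simp only [Polynomial.coeff_zero_eq_eval_zero, Polynomial.eval_prod, Polynomial.eval_add,
      Polynomial.eval_one, Polynomial.eval_mul, Polynomial.eval_X, mul_zero, add_zero,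
      Finset.prod_const_one]
  · rintro a x S hS ⟨y₀, h0⟩
    obtain ⟨y, hy, k, hk, hroot⟩ := sampler_root (n := n a) (hBle a) (h1 a)
      (T := fun k => T (a, k)) (fun k => hTle (a, k))
      (B' := fun k j => if j ≤ n a then B' ((a, k), j) else
        (sampler_W (n a) (T (a, k)) (sampler_Q (n a) (B a) (Pi a) k) j).natDegree)
      (fun k j => by
        split_ifs with h
        · have h2 := hB'le ((a, k), j)
          rwa [min_eq_left h] at h2
        · exact le_rfl) x hS h0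
    refine ⟨y, hy, fun j => ?_⟩
    obtain ⟨κ, hκ, h2, h3⟩ := hroot j
    rw [if_pos j.2.le] at hκ
    refine sampler_lead ?_ h2 h3
    refine dvd_trans ?_ (Finset.dvd_prod_of_mem _ (Finset.mem_range.2 (Nat.lt_succ_of_le hk)))
    refine dvd_trans ?_ (Finset.dvd_prod_of_mem _ (Finset.mem_range.2 j.2))
    rw [min_eq_left j.2.le]
    exact Finset.dvd_prod_of_mem (fun κ => 1 + Polynomial.C ((sampler_W (n a) (T (a, k))
      (sampler_Q (n a) (B a) (Pi a) k) j).coeff κ) * Polynomial.X)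
      (Finset.mem_range.2 (Nat.lt_succ_of_le hκ))

end Crest.Agent.R316
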