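import Crest.Agent.R316.Names
import Crest.Agent.R316.Sampler
import Crest.Agent.R316.Delin
import Crest.Agent.R316.Lift
import Crest.Agent.R316.Parse

/-! Row 316: the abstract existential-universal problem lies in the counting hierarchy. -/

set_option autoImplicit false

namespace Crest.Agent.R316

open Crest.Agent.Lib.PT MvPolynomial Filter Topology

theorem main_app_zero {n : ℕ} (x : Fin n → ℝ) (l : List ℝ) (hl : l.length = n)
    (h : ∀ i : Fin n, l.getD i 0 = x i) : (fun i => l.getD i 0) = app x 0 := by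
  funext i
  by_cases hi : i < n
  · rw [app_lt _ _ hi, ← h ⟨i, hi⟩]
  · rw [app_ge _ _ (by omega), List.getD_eq_default _ _ (by omega)]
    rfl

theorem main_app_append {n : ℕ} (y : Fin n → ℝ) (l l' : List ℝ) (hl : l.length = n)
    (h : ∀ i : Fin n, l.getD i 0 = y i) :
    (fun i => (l ++ l').getD i 0) = app y fun i => l'.getD i 0 := by
  funext i
  by_cases hi : i < n
  · rw [app_lt _ _ hi, ← h ⟨i, hi⟩, List.getD_append _ _ _ _ (by omega)]
  · rw [app_ge _ _ (by omega), List.getD_append_right _ _ _ _ (by omega), hl]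

/-- a tuple of named points is the image of a list of names -/
theorem main_exists_names {n B : ℕ} {Valid : ℕ → Prop} {pt : ℕ → ℝ} (x : Fin n → ℝ)
    (h : ∀ i, ∃ ν < B, Valid ν ∧ pt ν = x i) :
    ∃ l : List ℕ, l.length = n ∧ (∀ ν ∈ l, ν < B) ∧ (∀ ν ∈ l, Valid ν) ∧
      ∀ i : Fin n, (l.map pt).getD i 0 = x i := by
  choose f hf using h
  refine ⟨List.ofFn f, by simp, ?_, ?_, fun i => ?_⟩
  · intro ν hν
    obtain ⟨i, rfl⟩ := (List.mem_ofFn' _ _).1 hν
    exact (hf i).1
  · intro ν hν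
    obtain ⟨i, rfl⟩ := (List.mem_ofFn' _ _).1 hν
    exact (hf i).2.1
  · rw [List.getD_eq_getElem _ _ (by simp)]
    simp [(hf i).2.2]

theorem ch_exists_forall {α : Type} [Enc α] {r s T : α → ℕ} {P : α → ℕ → MP}
    {Ev : α × List Bool → Prop} (hr : CHF r) (hrb : PB r) (hs : CHF s) (hsb : PB s) (hT : CHF T)
    (hTb : PB T) (hP : CHP fun q : α × ℕ => P q.1 q.2) (hEv : CH Ev) :
    CH fun a => ∃ x : Fin (r a) → ℝ, ∀ y : Fin (s a) → ℝ,
      Ev (a, bits (T a) (P a) (app y (app x 0))) := by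
  classical
  obtain ⟨Pi₁, hPi₁, h1₁, H₁⟩ := exists_atom_strata hT hP
  obtain ⟨V₁, hV₁, hv₁, S₁⟩ := exists_sampler hs hsb hPi₁ h1₁
  obtain ⟨Pi₂, hPi₂, h1₂, H₂⟩ := exists_delin hs hsb hT hV₁ hv₁ hP
  obtain ⟨V₂, hV₂, hv₂, S₂⟩ := exists_sampler hr hrb hPi₂ h1₂
  set E : α → Polynomial ℚ := fun a => lead (V₂ a) (0 : ℕ → ℚ) with hEdef
  have hE : CHX E := CHX.lead0 hV₂
  have hE0 : ∀ a, E a ≠ 0 := fun a => lead_ne_zero (hv₂ a) _
  obtain ⟨E', hE', hE'0, L⟩ := exists_lift hr hrb hV₁ hv₁ hE hE0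
  obtain ⟨q, B, Good, Valid, pt, hq, hB, hValid, hmaj, hname, hpos⟩ :=
    exists_names (hE.mul hE') fun a => mul_ne_zero (hE0 a) (hE'0 a)
  -- the universal quantifier only needs the sample points
  have key₁ : ∀ a (x : ℕ → ℝ), (∀ y : Fin (s a) → ℝ, Ev (a, bits (T a) (P a) (app y x))) ↔
      ¬ ∃ y : Fin (s a) → ℝ, (∀ j, (lead (V₁ a) x).IsRoot (y j)) ∧
        ¬ Ev (a, bits (T a) (P a) (app y x)) := by
    intro a x
    constructor
    · rintro h ⟨y, -, hy⟩
      exact hy (h y)
    · intro h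
      by_contra hne
      obtain ⟨y, hy, hroot⟩ := S₁ a x (fun y => ¬ Ev (a, bits (T a) (P a) (app y x)))
        (fun y₀ => (H₁ a _ x y₀).mono fun y hy hd => by rw [hy hd]) (not_forall.1 hne)
      exact h ⟨y, hroot, hy⟩
  -- so does the existential one
  have key₂ : ∀ a, (∃ x : Fin (r a) → ℝ, ∀ y : Fin (s a) → ℝ,
      Ev (a, bits (T a) (P a) (app y (app x 0)))) ↔
      ∃ x : Fin (r a) → ℝ, (∀ i, Polynomial.aeval (x i) (E a) = 0) ∧ ∀ y : Fin (s a) → ℝ,
        Ev (a, bits (T a) (P a) (app y (app x 0))) := by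
    intro a
    refine ⟨fun h => ?_, fun ⟨x, _, h⟩ => ⟨x, h⟩⟩
    obtain ⟨x, hx, hroot⟩ := S₂ a 0 (fun x => ∀ y : Fin (s a) → ℝ,
      Ev (a, bits (T a) (P a) (app y (app x 0)))) (fun x₀ =>
        (H₂ a _ (fun l => ¬ Ev (a, l)) x₀).mono fun x hx hd => by
          rw [key₁, key₁, hx hd]) h
    exact ⟨x, fun i => (isRoot_lead_zero_iff _ _).1 (hroot i), hx⟩
  -- sign oracles
  obtain ⟨PosA, hPosA, HA⟩ := hpos (((α × ℕ) × List ℕ) × ℕ) (fun b => b.1.1.1) (fun b => b.1.1.2)
    (fun b => b.1.2) (fun b => P b.1.1.1 b.2) (by fun_prop) (by fun_prop) (by fun_prop)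
    (by fun_prop)
  obtain ⟨PosE, hPosE, HE⟩ := hpos ((α × ℕ) × ℕ) (fun b => b.1.1) (fun b => b.1.2)
    (fun b => [b.2]) (fun b => Polynomial.aeval (X 0 : MP) (E b.1.1) ^ 2) (by fun_prop)
    (by fun_prop) (by fun_prop) (by fun_prop)
  -- the statement for a fixed seed
  let inner : α → ℕ → Prop := fun a z =>
    ∃ lx : List ℕ, lx.length = r a ∧ (∀ ν ∈ lx, ν < B a) ∧
      ((∀ ν ∈ lx, Valid a z ν ∧ ¬ PosE ((a, z), ν)) ∧
        ∀ ly : List ℕ, ly.length = s a → (∀ ν ∈ ly, ν < B a) → ((∀ ν ∈ ly, Valid a z ν) →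
          Ev (a, (List.range (T a)).map fun τ => decide (PosA (((a, z), ly ++ lx), τ)))))
  have hinner : CH fun p : α × ℕ => inner p.1 p.2 := by
    refine CH.exists_list (by fun_prop) (by fun_prop) (by fun_prop) (CH.and ?_ ?_)
    · refine CH.forall_mem (by fun_prop) (CH.and ?_ (CH.not ?_))
      · exact hValid.comp (f := fun p : ((α × ℕ) × List ℕ) × ℕ => (p.1.1.1, p.1.1.2, p.2))
          (by fun_prop)
      · exact hPosE.comp (f := fun p : ((α × ℕ) × List ℕ) × ℕ => ((p.1.1.1, p.1.1.2), p.2))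
          (by fun_prop)
    · refine CH.forall_list (by fun_prop) (by fun_prop) (by fun_prop) (CH.imp ?_ ?_)
      · refine CH.forall_mem (by fun_prop) ?_
        exact hValid.comp
          (f := fun p : (((α × ℕ) × List ℕ) × List ℕ) × ℕ => (p.1.1.1.1, p.1.1.1.2, p.2))
          (by fun_prop)
      · refine hEv.comp (CHF.pair (by fun_prop) (CHF.map (CHF.range (by fun_prop) (by fun_prop))
          (CHF.decide ?_)))
        exact hPosA.comp (f := fun p : (((α × ℕ) × List ℕ) × List ℕ) × ℕ =>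
          (((p.1.1.1.1, p.1.1.1.2), p.1.2 ++ p.1.1.2), p.2)) (by fun_prop)
  have hE_iff : ∀ a z, Good a z → ∀ ν, Valid a z ν →
      (¬ PosE ((a, z), ν) ↔ Polynomial.aeval (pt a z ν) (E a) = 0) := by
    intro a z hz ν hν
    rw [HE ((a, z), ν) hz (by simpa using hν)]
    simp only [map_pow, List.map_cons, List.map_nil]
    rw [← Polynomial.aeval_algHom_apply]
    simp only [aeval_X, List.getD_cons_zero, not_lt]
    constructor
    · intro h
      exact pow_eq_zero_iff (two_ne_zero) |>.1 (le_antisymm h (sq_nonneg _))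
    · intro h
      rw [h]; simp
  have hbits : ∀ a z, Good a z → ∀ (lx ly : List ℕ) (x : Fin (r a) → ℝ) (y : Fin (s a) → ℝ),
      lx.length = r a → ly.length = s a → (∀ ν ∈ lx, Valid a z ν) → (∀ ν ∈ ly, Valid a z ν) →
      (∀ i : Fin (r a), (lx.map (pt a z)).getD i 0 = x i) →
      (∀ i : Fin (s a), (ly.map (pt a z)).getD i 0 = y i) →
      ((List.range (T a)).map fun τ => decide (PosA (((a, z), ly ++ lx), τ))) =
        bits (T a) (P a) (app y (app x 0)) := by
    intro a z hz lx ly x y hlx hly hvx hvy hx hy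
    refine List.map_congr_left fun τ _ => ?_
    rw [decide_eq_decide, HA (((a, z), ly ++ lx), τ) hz (by
      intro i hi
      rcases List.mem_append.1 hi with hi | hi
      · exact hvy i hi
      · exact hvx i hi)]
    simp only [List.map_append]
    rw [main_app_append y _ _ (by simpa using hly) hy, main_app_zero x _ (by simpa using hlx) hx]
  have hgood : ∀ a z, Good a z → (inner a z ↔ ∃ x : Fin (r a) → ℝ, ∀ y : Fin (s a) → ℝ,
      Ev (a, bits (T a) (P a) (app y (app x 0)))) := by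
    intro a z hz
    rw [key₂]
    constructor
    · rintro ⟨lx, hlx, -, hvx, hall⟩
      have hxE : ∀ i : Fin (r a), Polynomial.aeval ((lx.map (pt a z)).getD i 0) (E a) = 0 := by
        intro i
        have hi : (i : ℕ) < lx.length := by rw [hlx]; exact i.2
        rw [List.getD_eq_getElem _ _ (by simpa using hi), List.getElem_map]
        have := hvx _ (List.getElem_mem hi)
        exact (hE_iff a z hz _ this.1).1 this.2
      refine ⟨fun i => (lx.map (pt a z)).getD i 0, hxE, (key₁ a _).2 ?_⟩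
      rintro ⟨y, hy, hne⟩
      obtain ⟨ly, hly, hb, hv, hpt⟩ := main_exists_names (B := B a) (Valid := Valid a z)
        (pt := pt a z) y fun j => hname a z hz _ (by
          rw [map_mul, L a _ hxE _ (hy j), mul_zero])
      have := hall ly hly hb hv
      rw [hbits a z hz lx ly _ y hlx hly (fun ν hν => (hvx ν hν).1) hv (fun _ => rfl) hpt] at this
      exact hne this
    · rintro ⟨x, hxE, hx⟩
      obtain ⟨lx, hlx, hb, hv, hpt⟩ := main_exists_names (B := B a) (Valid := Valid a z)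
        (pt := pt a z) x fun j => hname a z hz _ (by rw [map_mul, hxE j, zero_mul])
      refine ⟨lx, hlx, hb, fun ν hν => ⟨hv ν hν, (hE_iff a z hz ν (hv ν hν)).2 ?_⟩,
        fun ly hly _ hvy => ?_⟩
      · obtain ⟨i, hi, rfl⟩ := List.getElem_of_mem hν
        have := hpt ⟨i, hlx ▸ hi⟩
        rw [List.getD_eq_getElem _ _ (by simpa using hi), List.getElem_map] at this
        rw [this]
        exact hxE _
      · rw [hbits a z hz lx ly x (fun i => (ly.map (pt a z)).getD i 0) hlx hly hv hvy hpt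
          fun _ => rfl]
        exact hx _
  refine (CH.thr (N := q) (t := fun a => q a / 2 + 1) (B := inner) hq (by fun_prop) hinner).congr
    fun a => ?_
  have h1 := hmaj a
  constructor
  · intro h
    have : cnt (q a) (Good a) ≤ cnt (q a) (inner a) := by
      rw [cnt_eq_card, cnt_eq_card]
      exact Finset.card_le_card fun z hz => by
        rw [Finset.mem_filter] at hz ⊢
        exact ⟨hz.1, (hgood a z hz.2).2 h⟩
    omega
  · intro h
    by_contra hne
    have : cnt (q a) (inner a) ≤ cnt (q a) fun z => ¬ Good a z := by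
      rw [cnt_eq_card, cnt_eq_card]
      exact Finset.card_le_card fun z hz => by
        rw [Finset.mem_filter] at hz ⊢
        exact ⟨hz.1, fun hg => hne ((hgood a z hg).1 hz.2)⟩
    rw [cnt_not] at this
    omega

theorem eatr_mem : ∃ j : ℕ, Crest.RealEA.EATR ∈ Crest.CountHier.level j := by
  obtain ⟨r, s, T, P, V, Ev, hr, hrb, hs, hsb, hT, hTb, hP, hV, hEv, h⟩ := exists_parse
  have := (CH.of_pt hV).and (ch_exists_forall (CHF.of_pt hr) hrb (CHF.of_pt hs) hsb
    (CHF.of_pt hT) hTb hP (CH.of_pt hEv))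
  exact (this.congr h).exists_level

end Crest.Agent.R316
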