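import Crest.Agent.R316.Oracle

/-!
Row 316: short names for the real roots of a `CHX` polynomial, and a sign oracle at named points.

Let `d = deg G`, `J = 2 (d + 1)`, `w j = (-1) ^ j • G^{(j / 2)}`, `A` the finite set (at most `d ^ 2`
elements) of real roots of the derivatives `G^{(μ)}`, `μ < d`, `b t j := 0 < w j (t)`, `q` a prime
above `2 d ^ 4 J` (`exists_chf_prime`). The seed `z < q` is good if `t ↦ hsh J q z (b t)` is injective
on `A` (`thom`, `hash_good`). A name is `ν = μ * B₀ + v`, `B₀ = J q + 1`; it denotes the real root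
`t` of `G^{(μ)}` with hash value `v`. With `F μ` the monic multiple of `G^{(μ)}` (degree `d - μ`),
`H μ M i (y) = ∑_{j < J} (z ^ j % q) * posInd (L μ j) M (w j (y i))` (`L` from `exists_gap` with
`n = 1`) is within `J q 9 ^ -M` of the hash value at real roots of `F μ`.
`Valid` is `μ < d` and the parity oracle for `(H - v) ^ 2 - 1 / 4`; `Pos` is the parity oracle for
`∑ i, (H i - v i) ^ 2 + (1 - posInd (W)) ^ 2 - 1 / 4` (with `M = 8 J q (n + 1)`, say); the number of
real tuples where this is negative is the product of the (odd) multiplicities if `0 < W`, else `0`.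
-/

set_option autoImplicit false

namespace Crest.Agent.R316

open Crest.Agent.Lib.PT MvPolynomial

theorem names_ineq {n : ℕ} {η : ℝ} (hη : η = (8 * ((n : ℝ) + 1))⁻¹) (h : ℕ → ℝ) (k v : ℕ → ℕ)
    (hk : ∀ i < n, |h i - k i| ≤ η) {p : ℝ} {c : Prop} [Decidable c]
    (hp : |p - if c then 1 else 0| ≤ η) :
    ∑ i ∈ Finset.range n, (h i - v i) ^ 2 + (1 - p) ^ 2 - 1 / 4 < 0 ↔
      (∀ i < n, k i = v i) ∧ c := by
  have hn : (0 : ℝ) ≤ n := Nat.cast_nonneg n
  have hη0 : 0 < η := by rw [hη]; positivity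
  have hη1 : η * (8 * ((n : ℝ) + 1)) = 1 := by rw [hη]; field_simp
  have hη8 : η ≤ 1 / 8 := by nlinarith
  have hsum : 0 ≤ ∑ i ∈ Finset.range n, (h i - v i) ^ 2 :=
    Finset.sum_nonneg fun i _ => sq_nonneg _
  constructor
  · intro hlt
    refine ⟨fun i hi => ?_, ?_⟩
    · by_contra hne
      have h1 : (h i - v i) ^ 2 ≤ ∑ i ∈ Finset.range n, (h i - v i) ^ 2 :=
        Finset.single_le_sum (f := fun i => (h i - v i) ^ 2) (fun i _ => sq_nonneg _)
          (Finset.mem_range.2 hi)
      have h2 := abs_le.1 (hk i hi)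
      rcases lt_or_gt_of_ne hne with hl | hl
      · have : (k i : ℝ) + 1 ≤ v i := by exact_mod_cast hl
        nlinarith [sq_nonneg (1 - p)]
      · have : (v i : ℝ) + 1 ≤ k i := by exact_mod_cast hl
        nlinarith [sq_nonneg (1 - p)]
    · by_contra hc
      rw [if_neg hc] at hp
      have h2 := abs_le.1 hp
      nlinarith
  · rintro ⟨hkv, hc⟩
    rw [if_pos hc] at hp
    have h2 := abs_le.1 hp
    have h3 : ∑ i ∈ Finset.range n, (h i - v i) ^ 2 ≤ n * η ^ 2 := by
      calc ∑ i ∈ Finset.range n, (h i - v i) ^ 2 ≤ ∑ _i ∈ Finset.range n, η ^ 2 := by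
            refine Finset.sum_le_sum fun i hi => ?_
            have := hk i (Finset.mem_range.1 hi)
            rw [hkv i (Finset.mem_range.1 hi)] at this
            exact sq_le_sq' (abs_le.1 this).1 (abs_le.1 this).2
        _ = n * η ^ 2 := by simp
    have h4 : (1 - p) ^ 2 ≤ η ^ 2 := sq_le_sq' (by linarith) (by linarith)
    nlinarith

/-- the monic multiple of the `μ`-th derivative -/
noncomputable def namesF (G : Polynomial ℚ) (μ : ℕ) : Polynomial ℚ :=
  (Polynomial.derivative^[μ] G).leadingCoeff⁻¹ • Polynomial.derivative^[μ] G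

/-- the signed derivatives -/
noncomputable def namesW (G : Polynomial ℚ) (j : ℕ) : Polynomial ℚ :=
  ((-1 : ℚ) ^ j) • Polynomial.derivative^[j / 2] G

/-- the real roots of the derivatives -/
noncomputable def namesA (G : Polynomial ℚ) : Finset ℝ :=
  (Finset.range G.natDegree).biUnion fun μ =>
    ((Polynomial.derivative^[μ] G).map (algebraMap ℚ ℝ)).roots.toFinset

theorem namesF_enum {G : Polynomial ℚ} {μ : ℕ} (h : Polynomial.derivative^[μ] G ≠ 0) :
    ∃ r : Fin (Polynomial.derivative^[μ] G).natDegree → ℂ,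
      (namesF G μ).map (algebraMap ℚ ℂ) = ∏ j, (Polynomial.X - Polynomial.C (r j)) := by
  have hl : (Polynomial.derivative^[μ] G).leadingCoeff⁻¹ ≠ 0 :=
    inv_ne_zero (Polynomial.leadingCoeff_ne_zero.2 h)
  have hm : (namesF G μ).Monic := by
    rw [namesF, Polynomial.smul_eq_C_mul, mul_comm]
    exact Polynomial.monic_mul_leadingCoeff_inv h
  refine exists_enum_roots (hm.map _) ?_
  rw [hm.natDegree_map, namesF, Polynomial.smul_eq_C_mul, Polynomial.natDegree_C_mul hl]

theorem namesF_mult {G : Polynomial ℚ} {μ : ℕ} (h : Polynomial.derivative^[μ] G ≠ 0) (t : ℂ) :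
    ((namesF G μ).map (algebraMap ℚ ℂ)).rootMultiplicity t =
      ((Polynomial.derivative^[μ] G).map (algebraMap ℚ ℂ)).rootMultiplicity t := by
  have hl : (Polynomial.derivative^[μ] G).leadingCoeff⁻¹ ≠ 0 :=
    inv_ne_zero (Polynomial.leadingCoeff_ne_zero.2 h)
  have hl' : algebraMap ℚ ℂ (Polynomial.derivative^[μ] G).leadingCoeff⁻¹ ≠ 0 := by
    simpa using h
  rw [namesF, Polynomial.smul_eq_C_mul, Polynomial.map_mul, Polynomial.map_C,
    Polynomial.rootMultiplicity_mul, Polynomial.rootMultiplicity_C, zero_add]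
  exact mul_ne_zero (Polynomial.C_ne_zero.2 hl') (Polynomial.map_ne_zero h)

theorem names_ofReal_aeval (p : Polynomial ℚ) (t : ℝ) :
    ((Polynomial.aeval t p : ℝ) : ℂ) = Polynomial.aeval (t : ℂ) p := by
  have := Polynomial.aeval_algHom_apply (Complex.ofRealAm.restrictScalars ℚ) t p
  exact this.symm

theorem mem_namesA {G : Polynomial ℚ} {μ : ℕ} (hμ : μ < G.natDegree)
    (h : Polynomial.derivative^[μ] G ≠ 0) {d : ℕ} {r : Fin d → ℂ}
    (hr : (namesF G μ).map (algebraMap ℚ ℂ) = ∏ j, (Polynomial.X - Polynomial.C (r j)))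
    {j : Fin d} (hj : (r j).im = 0) : (r j).re ∈ namesA G := by
  have hl : (Polynomial.derivative^[μ] G).leadingCoeff⁻¹ ≠ 0 :=
    inv_ne_zero (Polynomial.leadingCoeff_ne_zero.2 h)
  have h1 : Polynomial.aeval (r j) (namesF G μ) = 0 := by
    rw [← Polynomial.eval_map_algebraMap, hr, Polynomial.eval_prod]
    exact Finset.prod_eq_zero (Finset.mem_univ j) (by simp)
  have h2 : ((r j).re : ℂ) = r j := Complex.ext (by simp) (by simp [hj])
  rw [← h2, ← names_ofReal_aeval, Complex.ofReal_eq_zero, namesF, map_smul, smul_eq_zero] at h1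
  refine Finset.mem_biUnion.2 ⟨μ, Finset.mem_range.2 hμ, ?_⟩
  rw [Multiset.mem_toFinset, Polynomial.mem_roots (Polynomial.map_ne_zero h), Polynomial.IsRoot,
    Polynomial.eval_map_algebraMap]
  exact h1.resolve_left hl

theorem card_namesA (G : Polynomial ℚ) : (namesA G).card ≤ G.natDegree ^ 2 := by
  refine (Finset.card_biUnion_le_card_mul _ _ G.natDegree fun μ _ => ?_).trans
    (by rw [Finset.card_range, sq])
  refine (Multiset.toFinset_card_le _).trans ((Polynomial.card_roots' _).trans ?_)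
  exact Polynomial.natDegree_map_le.trans
    ((Polynomial.natDegree_iterate_derivative _ _).trans (Nat.sub_le _ _))

theorem namesA_inj (G : Polynomial ℚ) : ∀ s ∈ namesA G, ∀ t ∈ namesA G,
    (∀ j < 2 * (G.natDegree + 1),
      0 < Polynomial.aeval s (namesW G j) ↔ 0 < Polynomial.aeval t (namesW G j)) → s = t := by
  intro s hs t _ h
  obtain ⟨μ, -, hμ⟩ := Finset.mem_biUnion.1 hs
  rw [Multiset.mem_toFinset, Polynomial.mem_roots', ← Polynomial.iterate_derivative_map] at hμ
  refine thom (G.map (algebraMap ℚ ℝ)) hμ.1 hμ.2 fun k hk => ?_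
  have hk' : k ≤ G.natDegree := hk.trans Polynomial.natDegree_map_le
  have h1 := h (2 * k) (by omega)
  have h2 := h (2 * k + 1) (by omega)
  have e1 : 2 * k / 2 = k := by omega
  have e2 : (2 * k + 1) / 2 = k := by omega
  simp only [namesW, e1, e2, pow_succ, pow_mul, neg_mul, one_mul, neg_neg, one_pow, mul_neg,
    mul_one, one_smul, neg_smul, map_neg, Left.neg_pos_iff, pow_zero] at h1 h2
  simp only [Polynomial.iterate_derivative_map, Polynomial.eval_map_algebraMap]
  exact ⟨h1, h2⟩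

theorem names_aeval_X (y : ℕ → ℝ) (i : ℕ) (p : Polynomial ℚ) :
    aeval y (Polynomial.aeval (X i : MP) p) = Polynomial.aeval (y i) p := by
  rw [← Polynomial.aeval_algHom_apply, aeval_X]

theorem names_gap {L : ℕ} {u : ℝ}
    (h : (u : ℂ) = 0 ∨ (((2 : ℝ) ^ L)⁻¹ ≤ ‖(u : ℂ)‖ ∧ ‖(u : ℂ)‖ ≤ 2 ^ L)) :
    u = 0 ∨ (((2 : ℝ) ^ L)⁻¹ ≤ |u| ∧ |u| ≤ 2 ^ L) := by
  simpa using h

theorem names_app_re {n : ℕ} {r : Fin n → ℂ} (h : ∀ i, (r i).im = 0) :
    (fun i => ((app (fun i => (r i).re) (0 : ℕ → ℝ) i : ℝ) : ℂ)) = app r 0 := by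
  rw [map_app]
  congr 1
  funext j
  exact Complex.ext (by simp) (by simp [h j])

theorem names_inv_nine (M : ℕ) (hM : 0 < M) : ((9 : ℝ) ^ M)⁻¹ ≤ (M : ℝ)⁻¹ := by
  refine inv_anti₀ (by exact_mod_cast hM) ?_
  have : M < 9 ^ M := Nat.lt_pow_self (by norm_num)
  exact_mod_cast this.le

open Classical in
/-- the parity oracle for tuples of real roots with prescribed hash values and `0 < W` -/
theorem names_count {α : Type} [Enc α] {G : α → Polynomial ℚ} (hG : CHX G) {q : α → ℕ}
    (hq : CHF q) (hq0 : ∀ a, 0 < q a) {β : Type} [Enc β] {g : β → α} {z : β → ℕ}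
    {n : β → ℕ} {μ v : β → ℕ → ℕ} {W : β → MP} (hg : CHF g) (hz : CHF z) (hn : CHF n) (hb : PB n)
    (hμ : CHF fun p : β × ℕ => μ p.1 p.2) (hv : CHF fun p : β × ℕ => v p.1 p.2) (hW : CHP W) :
    ∃ Q : β → Prop, CH Q ∧ ∀ b (r : (i : Fin (n b)) →
        Fin (Polynomial.derivative^[μ b i] (G (g b))).natDegree → ℂ),
      (∀ i : Fin (n b), (namesF (G (g b)) (μ b i)).map (algebraMap ℚ ℂ) =
        ∏ j, (Polynomial.X - Polynomial.C (r i j))) →
      (Q b ↔ Odd (Finset.univ.filter fun ι : (i : Fin (n b)) →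
          Fin (Polynomial.derivative^[μ b i] (G (g b))).natDegree =>
        (∀ i, (r i (ι i)).im = 0) ∧
          (∀ i : Fin (n b), hsh (2 * ((G (g b)).natDegree + 1)) (q (g b)) (z b)
            (fun j => 0 < Polynomial.aeval (r i (ι i)).re (namesW (G (g b)) j)) = v b i) ∧
          0 < aeval (app (fun i => (r i (ι i)).re) (0 : ℕ → ℝ)) (W b)).card) := by
  have hD : CHX fun p : α × ℕ => Polynomial.derivative^[p.2] (G p.1) :=
    CHX.iterate_derivative (by fun_prop) (by fun_prop)
  have hF : CHX fun p : α × ℕ => namesF (G p.1) p.2 := by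
    unfold namesF
    exact CHX.smul (CHQ.inv (CHQ.leadingCoeff hD)) hD
  have hWj : CHX fun p : α × ℕ => namesW (G p.1) p.2 := by
    unfold namesW
    exact CHX.smul (by fun_prop) (CHX.iterate_derivative (by fun_prop) (by fun_prop))
  have hdm : CHF fun p : α × ℕ => (Polynomial.derivative^[p.2] (G p.1)).natDegree :=
    CHF.natDegree hD
  obtain ⟨L₁, hL₁, H₁⟩ := exists_gap (α := α × ℕ × ℕ) (n := fun _ => 1)
    (F := fun p _ => namesF (G p.1) p.2.1)
    (d := fun p _ => (Polynomial.derivative^[p.2.1] (G p.1)).natDegree)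
    (W := fun p => Polynomial.aeval (X 0 : MP) (namesW (G p.1) p.2.2)) (by fun_prop) (by fun_prop)
    (CHX.comp hF (g := fun p : (α × ℕ × ℕ) × ℕ => (p.1.1, p.1.2.1)) (by fun_prop))
    (CHF.comp hdm (f := fun p : (α × ℕ × ℕ) × ℕ => (p.1.1, p.1.2.1)) (by fun_prop))
    (CHP.aevalX (CHX.comp hWj (g := fun p : α × ℕ × ℕ => (p.1, p.2.2)) (by fun_prop))
      (by fun_prop))
  have hF' : CHX fun p : β × ℕ => namesF (G (g p.1)) (μ p.1 p.2) :=
    CHX.comp hF (g := fun p : β × ℕ => (g p.1, μ p.1 p.2)) (by fun_prop)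
  have hdm' : CHF fun p : β × ℕ => (Polynomial.derivative^[μ p.1 p.2] (G (g p.1))).natDegree :=
    CHF.comp hdm (f := fun p : β × ℕ => (g p.1, μ p.1 p.2)) (by fun_prop)
  obtain ⟨L₂, hL₂, H₂⟩ := exists_gap (n := n) (F := fun b i => namesF (G (g b)) (μ b i))
    (d := fun b i => (Polynomial.derivative^[μ b i] (G (g b))).natDegree) hn hb hF' hdm' hW
  set J : β → ℕ := fun b => 2 * ((G (g b)).natDegree + 1) with hJdef
  have hJ : CHF J := by
    have : CHF fun b => (G (g b)).natDegree := CHF.natDegree (CHX.comp hG hg)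
    rw [hJdef]
    fun_prop
  set M : β → ℕ := fun b => 8 * (n b + 1) * (J b * q (g b)) with hMdef
  have hM : CHF M := by
    rw [hMdef]
    fun_prop
  let H : β → ℕ → (ℕ → ℝ) → ℝ := fun b i y => ∑ j ∈ Finset.range (J b),
    ((((z b ^ j % q (g b) : ℕ) : ℚ)) : ℝ) * posInd (L₁ (g b, μ b i, j)) (M b)
      (aeval y (Polynomial.aeval (X (min i (n b)) : MP) (namesW (G (g b)) j)))
  have hH : CHR fun p : β × ℕ => H p.1 p.2 := by
    refine CHR.sum (N := fun p : β × ℕ => J p.1) (by fun_prop) (CHR.mul (CHR.rat ?_) ?_)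
    · exact CHQ.natCast (CHF.powMod (by fun_prop) (by fun_prop) (by fun_prop) fun _ => hq0 _)
    · refine CHR.posInd (L := fun p : (β × ℕ) × ℕ => L₁ (g p.1.1, μ p.1.1 p.1.2, p.2))
        (M := fun p : (β × ℕ) × ℕ => M p.1.1) (by fun_prop) (by fun_prop) ?_
      exact CHP.aevalX (CHX.comp hWj (g := fun p : (β × ℕ) × ℕ => (g p.1.1, p.2)) (by fun_prop))
        (CHP.X (by fun_prop) (by fun_prop))
  have hf : CHR fun b y => ∑ i ∈ Finset.range (n b), (H b i y - (((v b i : ℕ) : ℚ) : ℝ)) ^ 2 +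
      (((1 : ℚ) : ℝ) - posInd (L₂ b) (M b) (aeval y (W b))) ^ 2 - ((1 / 4 : ℚ) : ℝ) := by
    refine CHR.sub (CHR.add (CHR.sum hn (CHR.sq (CHR.sub hH (CHR.rat ?_))))
      (CHR.sq (CHR.sub (CHR.rat (c := fun _ => 1) (by fun_prop)) (CHR.posInd hL₂ hM hW))))
      (CHR.rat (c := fun _ => 1 / 4) (by fun_prop))
    exact CHQ.natCast hv
  obtain ⟨Q, hQ, HQ⟩ := exists_parity (n := n) (F := fun b i => namesF (G (g b)) (μ b i))
    (d := fun b i => (Polynomial.derivative^[μ b i] (G (g b))).natDegree) hn hb hF' hdm' hf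
  refine ⟨Q, hQ, fun b r hr => ?_⟩
  rw [HQ b r hr]
  refine iff_of_eq (congrArg Odd (congrArg Finset.card (Finset.filter_congr fun ι _ => ?_)))
  refine and_congr_right fun him => ?_
  have hJq : 0 < J b * q (g b) := Nat.mul_pos (by simp [hJdef]) (hq0 _)
  have hM0 : 0 < M b := Nat.mul_pos (by omega) hJq
  have hJq' : (1 : ℝ) ≤ ((J b * q (g b) : ℕ) : ℝ) := by exact_mod_cast hJq
  have hη : ((J b * q (g b) : ℕ) : ℝ) * ((9 : ℝ) ^ M b)⁻¹ ≤ (8 * ((n b : ℝ) + 1))⁻¹ := by
    calc ((J b * q (g b) : ℕ) : ℝ) * ((9 : ℝ) ^ M b)⁻¹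
        ≤ ((J b * q (g b) : ℕ) : ℝ) * (M b : ℝ)⁻¹ :=
          mul_le_mul_of_nonneg_left (names_inv_nine _ hM0) (by positivity)
      _ = (8 * ((n b : ℝ) + 1))⁻¹ := by
          have : (M b : ℝ) = 8 * ((n b : ℝ) + 1) * ((J b * q (g b) : ℕ) : ℝ) := by
            simp only [hMdef]; push_cast; ring
          rw [this]
          field_simp
  have hη' : ((9 : ℝ) ^ M b)⁻¹ ≤ (8 * ((n b : ℝ) + 1))⁻¹ :=
    le_trans (le_mul_of_one_le_left (by positivity) hJq') hη
  set y : ℕ → ℝ := app (fun i => (r i (ι i)).re) 0 with hy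
  have key := names_ineq (n := n b) rfl (fun i => H b i y)
    (fun i => hsh (J b) (q (g b)) (z b) fun j => 0 < Polynomial.aeval (y i) (namesW (G (g b)) j))
    (v b) (p := posInd (L₂ b) (M b) (aeval y (W b))) (c := 0 < aeval y (W b)) ?_ ?_
  · simp only [Rat.cast_natCast, Rat.cast_one, Rat.cast_div, Rat.cast_ofNat]
    rw [key]
    refine and_congr_left fun _ => ⟨fun h i => ?_, fun h i hi => ?_⟩
    · have := h i i.2
      rwa [hy, app_fin] at this
    · have := h ⟨i, hi⟩
      rwa [hy, app_lt _ _ hi]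
  · intro i hi
    refine le_trans ?_ hη
    simp only [H, hsh, Nat.cast_sum, Rat.cast_natCast, min_eq_left hi.le, names_aeval_X]
    rw [← Finset.sum_sub_distrib]
    refine (Finset.abs_sum_le_sum_abs _ _).trans ?_
    calc _ ≤ ∑ _j ∈ Finset.range (J b), (q (g b) : ℝ) * ((9 : ℝ) ^ M b)⁻¹ := by
          refine Finset.sum_le_sum fun j _ => ?_
          have h1 := H₁ (g b, μ b i, j) (fun _ => r ⟨i, hi⟩) (fun _ => hr ⟨i, hi⟩)
            fun _ => ι ⟨i, hi⟩
          have h2 : aeval (app (fun _ : Fin 1 => r ⟨i, hi⟩ (ι ⟨i, hi⟩)) 0)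
              (Polynomial.aeval (X 0 : MP) (namesW (G (g b)) j)) =
              ((Polynomial.aeval (y i) (namesW (G (g b)) j) : ℝ) : ℂ) := by
            rw [← Polynomial.aeval_algHom_apply, aeval_X, names_ofReal_aeval, hy, app_lt _ _ hi,
              app_lt _ _ Nat.one_pos]
            have h6 : (((r ⟨i, hi⟩ (ι ⟨i, hi⟩)).re : ℝ) : ℂ) = r ⟨i, hi⟩ (ι ⟨i, hi⟩) :=
              Complex.ext (Complex.ofReal_re _) (by rw [Complex.ofReal_im, him ⟨i, hi⟩])
            simp only [h6]
          simp only at h1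
          rw [h2] at h1
          have h3 := posInd_approx (M := M b) (names_gap h1)
          have h4 : ((z b ^ j % q (g b) : ℕ) : ℝ) ≤ q (g b) := by
            exact_mod_cast (Nat.mod_lt _ (hq0 _)).le
          have h5 : ((z b ^ j % q (g b) : ℕ) : ℝ) * posInd (L₁ (g b, μ b i, j)) (M b)
                (Polynomial.aeval (y i) (namesW (G (g b)) j)) -
              ((if 0 < Polynomial.aeval (y i) (namesW (G (g b)) j) then z b ^ j % q (g b) else 0 :
                ℕ) : ℝ) = ((z b ^ j % q (g b) : ℕ) : ℝ) * (posInd (L₁ (g b, μ b i, j)) (M b)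
                (Polynomial.aeval (y i) (namesW (G (g b)) j)) -
                if 0 < Polynomial.aeval (y i) (namesW (G (g b)) j) then 1 else 0) := by
            split_ifs <;> simp [mul_sub]
          rw [h5, abs_mul, Nat.abs_cast]
          exact mul_le_mul h4 h3 (abs_nonneg _) (by positivity)
      _ = _ := by
          rw [Finset.sum_const, Finset.card_range, nsmul_eq_mul]
          push_cast
          ring
  · refine le_trans (posInd_approx (names_gap ?_)) hη'
    have := H₂ b r hr ι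
    rwa [← names_app_re him, ← ofReal_aeval] at this

theorem exists_names {α : Type} [Enc α] {G : α → Polynomial ℚ} (hG : CHX G) (h0 : ∀ a, G a ≠ 0) :
    ∃ (q B : α → ℕ) (Good : α → ℕ → Prop) (Valid : α → ℕ → ℕ → Prop) (pt : α → ℕ → ℕ → ℝ),
      CHF q ∧ CHF B ∧ (CH fun p : α × ℕ × ℕ => Valid p.1 p.2.1 p.2.2) ∧
      (∀ a, q a < 2 * cnt (q a) (Good a)) ∧
      (∀ a z, Good a z → ∀ t : ℝ, Polynomial.aeval t (G a) = 0 →
        ∃ ν < B a, Valid a z ν ∧ pt a z ν = t) ∧
      ∀ (β : Type) [Enc β] (g : β → α) (z : β → ℕ) (ν : β → List ℕ) (W : β → MP),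
        CHF g → CHF z → CHF ν → CHP W →
        ∃ Pos : β → Prop, CH Pos ∧ ∀ b, Good (g b) (z b) → (∀ i ∈ ν b, Valid (g b) (z b) i) →
          (Pos b ↔ 0 < aeval (fun i => ((ν b).map (pt (g b) (z b))).getD i 0) (W b)) := by
  classical
  have hd : CHF fun a => (G a).natDegree := CHF.natDegree hG
  set J : α → ℕ := fun a => 2 * ((G a).natDegree + 1) with hJdef
  have hJ : CHF J := by rw [hJdef]; fun_prop
  obtain ⟨q, hq, hq'⟩ := exists_chf_prime
    (N := fun a => 2 * ((G a).natDegree * (G a).natDegree * ((G a).natDegree * (G a).natDegree)) *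
      J a) (by fun_prop)
  have hq0 : ∀ a, 0 < q a := fun a => (hq' a).1.pos
  set B₀ : α → ℕ := fun a => J a * q a + 1 with hB₀def
  have hB₀ : CHF B₀ := by rw [hB₀def]; fun_prop
  let hv : α → ℕ → ℝ → ℕ := fun a z t =>
    hsh (J a) (q a) z fun j => 0 < Polynomial.aeval t (namesW (G a) j)
  let Good : α → ℕ → Prop := fun a z =>
    ∀ s ∈ namesA (G a), ∀ t ∈ namesA (G a), hv a z s = hv a z t → s = t
  let pt : α → ℕ → ℕ → ℝ := fun a z ν =>
    Classical.epsilon fun t => t ∈ namesA (G a) ∧ hv a z t = ν % B₀ a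
  obtain ⟨Q₁, hQ₁, H₁⟩ := names_count hG hq hq0 (β := α × ℕ × ℕ) (g := fun p => p.1)
    (z := fun p => p.2.1) (n := fun _ => 1) (μ := fun p _ => p.2.2 / B₀ p.1)
    (v := fun p _ => p.2.2 % B₀ p.1) (W := fun _ => 1) (by fun_prop) (by fun_prop) (by fun_prop)
    (by fun_prop) (by fun_prop) (by fun_prop) (by fun_prop)
  let Valid : α → ℕ → ℕ → Prop := fun a z ν =>
    ν / B₀ a < (G a).natDegree ∧ ¬ Polynomial.derivative^[ν / B₀ a] (G a) = 0 ∧ Q₁ (a, z, ν)
  -- the single-coordinate count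
  have hone : ∀ a z ν (r : Fin (Polynomial.derivative^[ν / B₀ a] (G a)).natDegree → ℂ),
      (namesF (G a) (ν / B₀ a)).map (algebraMap ℚ ℂ) =
        ∏ j, (Polynomial.X - Polynomial.C (r j)) →
      (Q₁ (a, z, ν) ↔ Odd (Finset.univ.filter fun j =>
        (r j).im = 0 ∧ hv a z (r j).re = ν % B₀ a).card) := by
    intro a z ν r hr
    rw [H₁ (a, z, ν) (fun _ => r) fun _ => hr]
    refine iff_of_eq (congrArg Odd ?_)
    refine Finset.card_bij (fun ι _ => ι 0) ?_ ?_ ?_
    · intro ι hι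
      simp only [Finset.mem_filter, Finset.mem_univ, true_and] at hι ⊢
      exact ⟨hι.1 0, hι.2.1 0⟩
    · intro ι _ ι' _ h
      funext i
      rw [Subsingleton.elim i 0]
      exact h
    · intro j hj
      refine ⟨fun _ => j, ?_, rfl⟩
      simp only [Finset.mem_filter, Finset.mem_univ, true_and] at hj ⊢
      exact ⟨fun _ => hj.1, fun _ => hj.2, by simp⟩
  -- under a good seed the hash value determines the point
  have hchar : ∀ a z ν, Good a z → ν / B₀ a < (G a).natDegree →
      Polynomial.derivative^[ν / B₀ a] (G a) ≠ 0 →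
      (pt a z ν ∈ namesA (G a) ∧ hv a z (pt a z ν) = ν % B₀ a) →
      ∀ (r : Fin (Polynomial.derivative^[ν / B₀ a] (G a)).natDegree → ℂ),
      (namesF (G a) (ν / B₀ a)).map (algebraMap ℚ ℂ) =
        ∏ j, (Polynomial.X - Polynomial.C (r j)) →
      ∀ j, ((r j).im = 0 ∧ hv a z (r j).re = ν % B₀ a) ↔ r j = pt a z ν := by
    intro a z ν hz h1 h2 h3 r hr j
    constructor
    · rintro ⟨him, hh⟩
      have := hz _ (mem_namesA h1 h2 hr him) _ h3.1 (hh.trans h3.2.symm)
      exact Complex.ext (by simpa using this) (by simpa using him)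
    · intro h
      rw [h]
      simpa using h3.2
  have hvalid : ∀ a z ν, Good a z → Valid a z ν →
      ∀ (r : Fin (Polynomial.derivative^[ν / B₀ a] (G a)).natDegree → ℂ),
      (namesF (G a) (ν / B₀ a)).map (algebraMap ℚ ℂ) =
        ∏ j, (Polynomial.X - Polynomial.C (r j)) →
      (∀ j, ((r j).im = 0 ∧ hv a z (r j).re = ν % B₀ a) ↔ r j = pt a z ν) ∧
        Odd (Finset.univ.filter fun j => r j = pt a z ν).card := by
    intro a z ν hz hν r hr
    have h1 := (hone a z ν r hr).1 hν.2.2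
    obtain ⟨j, hj⟩ := Finset.card_pos.1 h1.pos
    rw [Finset.mem_filter] at hj
    have h3 : pt a z ν ∈ namesA (G a) ∧ hv a z (pt a z ν) = ν % B₀ a :=
      Classical.epsilon_spec (p := fun t => t ∈ namesA (G a) ∧ hv a z t = ν % B₀ a)
        ⟨_, mem_namesA hν.1 hν.2.1 hr hj.2.1, hj.2.2⟩
    have h4 := hchar a z ν hz hν.1 hν.2.1 h3 r hr
    exact ⟨h4, by rwa [Finset.filter_congr fun j _ => h4 j] at h1⟩
  refine ⟨q, fun a => (G a).natDegree * B₀ a, Good, Valid, pt, hq, by fun_prop, ?_, fun a => ?_,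
    fun a z hz t ht => ?_, fun β _ g z ν W hg hz hν hW => ?_⟩
  · refine CH.and (by fun_prop) (CH.and (CH.not (CH.xeq_zero ?_)) hQ₁)
    exact CHX.iterate_derivative (by fun_prop) (by fun_prop)
  · refine hash_good (namesA (G a)) (hq' a).1 _ (namesA_inj (G a)) (lt_of_le_of_lt ?_ (hq' a).2)
    have := card_namesA (G a)
    refine Nat.mul_le_mul_right _ (Nat.mul_le_mul_left _ ?_)
    calc _ ≤ ((G a).natDegree ^ 2) ^ 2 := Nat.pow_le_pow_left this 2
      _ = _ := by ring
  · obtain ⟨μ, hμ, hm⟩ := exists_simple_root (h0 a) ht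
    have hne : Polynomial.derivative^[μ] (G a) ≠ 0 := by
      intro h
      rw [h] at hm
      simp at hm
    have hlt : hv a z t < B₀ a := Nat.lt_succ_of_le (hsh_le _ _ _ (hq0 a) _)
    have e1 : (μ * B₀ a + hv a z t) / B₀ a = μ := by
      rw [Nat.add_comm, Nat.add_mul_div_right _ _ (by omega), Nat.div_eq_of_lt hlt, zero_add]
    have e2 : (μ * B₀ a + hv a z t) % B₀ a = hv a z t := by
      rw [Nat.add_comm, Nat.add_mul_mod_self_right, Nat.mod_eq_of_lt hlt]
    generalize μ * B₀ a + hv a z t = ν at e1 e2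
    subst e1
    have htA : t ∈ namesA (G a) := by
      refine Finset.mem_biUnion.2 ⟨0, Finset.mem_range.2 (Nat.zero_lt_of_lt hμ), ?_⟩
      rw [Multiset.mem_toFinset, Function.iterate_zero, id,
        Polynomial.mem_roots (Polynomial.map_ne_zero (h0 a)), Polynomial.IsRoot,
        Polynomial.eval_map_algebraMap]
      exact ht
    have h3 : pt a z ν ∈ namesA (G a) ∧ hv a z (pt a z ν) = ν % B₀ a :=
      Classical.epsilon_spec (p := fun t => t ∈ namesA (G a) ∧ hv a z t = ν % B₀ a)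
        ⟨t, htA, e2.symm⟩
    have h4 : pt a z ν = t := hz _ h3.1 _ htA (h3.2.trans e2)
    obtain ⟨r, hr⟩ := namesF_enum hne
    refine ⟨ν, ?_, ⟨hμ, hne, (hone a z ν r hr).2 ?_⟩, h4⟩
    · exact (Nat.div_lt_iff_lt_mul (by omega)).1 hμ
    · rw [Finset.filter_congr fun j _ => hchar a z ν hz hμ hne h3 r hr j, h4]
      have := card_eq_rootMultiplicity r t
      rw [← hr, namesF_mult hne, hm] at this
      convert odd_one
  · have hlen : PB fun b => (ν b).length := hν.pb_sz.of_le fun b => length_le_sz _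
    obtain ⟨Q, hQ, H⟩ := names_count hG hq hq0 (g := g) (z := z) (n := fun b => (ν b).length)
      (μ := fun b i => (ν b).getD i 0 / B₀ (g b)) (v := fun b i => (ν b).getD i 0 % B₀ (g b))
      hg hz (by fun_prop) hlen (by fun_prop) (by fun_prop) hW
    refine ⟨Q, hQ, fun b hgood hval => ?_⟩
    have hval' : ∀ i : Fin (ν b).length, Valid (g b) (z b) ((ν b).getD i 0) := by
      intro i
      rw [List.getD_eq_getElem _ _ i.2]
      exact hval _ (List.getElem_mem _)
    choose r hr using fun i : Fin (ν b).length => namesF_enum (hval' i).2.1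
    have h5 := fun i => hvalid (g b) (z b) _ hgood (hval' i) (r i) (hr i)
    rw [H b r hr]
    have hpt : (fun i => ((ν b).map (pt (g b) (z b))).getD i 0) =
        app (fun i : Fin (ν b).length => pt (g b) (z b) ((ν b).getD i 0)) 0 := by
      funext i
      by_cases hi : i < (ν b).length
      · rw [app_lt _ _ hi, List.getD_eq_getElem _ _ (by simpa using hi), List.getElem_map,
          List.getD_eq_getElem _ _ hi]
      · rw [app_ge _ _ (by omega), List.getD_eq_default _ _ (by simpa using hi)]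
        rfl
    rw [hpt]
    have hiff : ∀ ι : (i : Fin (ν b).length) → Fin (Polynomial.derivative^[(ν b).getD i 0 /
        B₀ (g b)] (G (g b))).natDegree,
        ((∀ i, (r i (ι i)).im = 0) ∧
          (∀ i : Fin (ν b).length, hv (g b) (z b) (r i (ι i)).re = (ν b).getD i 0 % B₀ (g b)) ∧
          0 < aeval (app (fun i => (r i (ι i)).re) (0 : ℕ → ℝ)) (W b)) ↔
        ((∀ i, r i (ι i) = pt (g b) (z b) ((ν b).getD i 0)) ∧ 0 < aeval
          (app (fun i : Fin (ν b).length => pt (g b) (z b) ((ν b).getD i 0)) (0 : ℕ → ℝ))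
          (W b)) := by
      intro ι
      rw [← and_assoc, ← forall_and, forall_congr' fun i => (h5 i).1 (ι i)]
      refine and_congr_right fun h => ?_
      simp only [h, Complex.ofReal_re]
    rw [Finset.filter_congr fun ι _ => hiff ι]
    by_cases hpos : 0 < aeval
        (app (fun i : Fin (ν b).length => pt (g b) (z b) ((ν b).getD i 0)) (0 : ℕ → ℝ)) (W b)
    · simp only [hpos, and_true, iff_true]
      have : (Finset.univ.filter fun ι : (i : Fin (ν b).length) →
          Fin (Polynomial.derivative^[(ν b).getD i 0 / B₀ (g b)] (G (g b))).natDegree =>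
          ∀ i, r i (ι i) = pt (g b) (z b) ((ν b).getD i 0)) =
          Fintype.piFinset fun i => Finset.univ.filter fun j =>
            r i j = pt (g b) (z b) ((ν b).getD i 0) := by
        ext ι
        simp
      rw [this, Fintype.card_piFinset]
      exact Finset.prod_induction _ Odd (fun _ _ => Odd.mul) odd_one fun i _ => (h5 i).2
    · simp only [hpos, and_false, iff_false, Finset.filter_false, Finset.card_empty]
      exact Nat.not_odd_zero

end Crest.Agent.R316
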