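import Crest.Agent.R316.Defs

/-! Row 316: Newton's identities through truncated exponentials (pure algebra). -/

set_option autoImplicit false

namespace Crest.Agent.R316

open Polynomial

variable {R S : Type} [CommRing R] [Algebra ℚ R] [CommRing S] [Algebra ℚ S]

theorem newton_coeff_eq_zero {K : ℕ} {E H : R[X]} (h0 : E.coeff 0 = 0)
    (h : X ^ K ∣ derivative E - H * E) : ∀ k ≤ K, E.coeff k = 0 := by
  intro k
  induction k using Nat.strong_induction_on with
  | _ k ih =>
    intro hk
    rcases k with _ | k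
    · exact h0
    · have h1 := X_pow_dvd_iff.mp h k (by omega)
      rw [coeff_sub, coeff_derivative, coeff_mul, Finset.sum_eq_zero, sub_zero] at h1
      · have h2 : ((k : ℚ) + 1) • E.coeff (k + 1) = 0 := by
          rw [Algebra.smul_def, map_add, map_natCast, map_one, mul_comm, h1]
        have h3 : ((k : ℚ) + 1) ≠ 0 := by positivity
        rw [← one_smul ℚ (E.coeff (k + 1)), ← inv_mul_cancel₀ h3, mul_smul, h2, smul_zero]
      · intro q hq
        have := Finset.HasAntidiagonal.mem_antidiagonal.mp hq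
        rw [ih q.2 (by omega) (by omega), mul_zero]

theorem newton_texp_succ (K : ℕ) (G : R[X]) :
    texp (K + 1) G = texp K G + (((K + 1).factorial : ℚ)⁻¹) • G ^ (K + 1) := by
  unfold texp
  rw [Finset.sum_range_succ]

theorem newton_texp_zero (G : R[X]) : texp 0 G = 1 := by simp [texp]

theorem newton_derivative_texp (K : ℕ) (G : R[X]) :
    derivative (texp K G) - derivative G * texp K G
      = -(((K.factorial : ℚ)⁻¹) • (derivative G * G ^ K)) := by
  induction K with
  | zero => simp [newton_texp_zero]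
  | succ K ih =>
    have h1 : derivative ((((K + 1).factorial : ℚ)⁻¹) • G ^ (K + 1))
        = ((K.factorial : ℚ)⁻¹) • (derivative G * G ^ K) := by
      have h2 : (C ((K : R) + 1) : R[X]) * G ^ K * derivative G
          = ((K : ℚ) + 1) • (derivative G * G ^ K) := by
        rw [Algebra.smul_def, Polynomial.algebraMap_apply, map_add (algebraMap ℚ R), map_natCast, map_one]
        ring
      rw [derivative_smul, derivative_pow_succ, h2, smul_smul]
      congr 1
      rw [Nat.factorial_succ]
      push_cast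
      field_simp
    rw [newton_texp_succ, derivative_add, h1, mul_add, mul_smul_comm]
    linear_combination ih

theorem newton_texp_coeff_zero {K : ℕ} {G : R[X]} (hG : G.coeff 0 = 0) :
    (texp K G).coeff 0 = 1 := by
  induction K with
  | zero => simp [newton_texp_zero]
  | succ K ih => rw [newton_texp_succ, coeff_add, ih, coeff_smul, pow_succ, mul_coeff_zero, hG]; simp

theorem newton_ofPS_coeff (M : ℕ) (π : ℕ → R) {k : ℕ} (hk : k ≤ M) :
    (ofPS M π).coeff k = (texp M (∑ j ∈ Finset.range M,
      monomial (j + 1) ((((-1) ^ j / ((j : ℚ) + 1)) : ℚ) • π (j + 1)))).coeff k := by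
  unfold ofPS
  rw [finsetSum_coeff]
  simp only [coeff_monomial]
  rw [Finset.sum_ite_eq', if_pos (Finset.mem_range.mpr (by omega))]

omit [Algebra ℚ R] in
theorem newton_G_coeff_zero (M : ℕ) (c : ℕ → R) :
    (∑ j ∈ Finset.range M, monomial (j + 1) (c j)).coeff 0 = 0 := by
  rw [finsetSum_coeff]
  exact Finset.sum_eq_zero fun j _ => by simp [coeff_monomial]

omit [Algebra ℚ R] in
theorem newton_prod_dvd {ι : Type} (s : Finset ι) (f h : ι → R[X]) (Y : R[X])
    (hf : ∀ i ∈ s, Y ∣ derivative (f i) - h i * f i) :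
    Y ∣ derivative (∏ i ∈ s, f i) - (∑ i ∈ s, h i) * ∏ i ∈ s, f i := by
  classical
  induction s using Finset.induction_on with
  | empty => simp
  | insert a s ha ih =>
    rw [Finset.prod_insert ha, Finset.sum_insert ha, derivative_mul]
    have h1 := (hf a (Finset.mem_insert_self a s)).mul_right (∏ i ∈ s, f i)
    have h2 := (ih fun i hi => hf i (Finset.mem_insert_of_mem hi)).mul_left (f a)
    convert dvd_add h1 h2 using 1
    ring

omit [Algebra ℚ R] in
theorem newton_lin_dvd (γ : R) (M : ℕ) :
    X ^ M ∣ derivative (1 + C γ * X) -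
      (C γ * ∑ j ∈ Finset.range M, (-(C γ * X)) ^ j) * (1 + C γ * X) := by
  have h := geom_sum_mul_neg (-(C γ * X) : R[X]) M
  rw [sub_neg_eq_add] at h
  rw [mul_assoc, h]
  refine ⟨C γ * (-C γ) ^ M, ?_⟩
  rw [← neg_mul, mul_pow]
  simp only [derivative_add, derivative_one, derivative_mul, derivative_C, derivative_X]
  ring

/-- `B = texp K G` satisfies `B' = G' (B - G ^ K / K!)`, so `X ^ K ∣ B' - G' B` as well; compare
coefficients by strong induction (`(k + 1 : R)` is a unit in a `ℚ`-algebra). -/
theorem coeff_eq_texp {K : ℕ} {A G : R[X]} (hA : A.coeff 0 = 1) (hG : G.coeff 0 = 0)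
    (h : X ^ K ∣ derivative A - derivative G * A) : ∀ k ≤ K, A.coeff k = (texp K G).coeff k := by
  have hB : X ^ K ∣ derivative (texp K G) - derivative G * texp K G := by
    rw [newton_derivative_texp, dvd_neg, Algebra.smul_def]
    exact ((pow_dvd_pow_of_dvd (X_dvd_iff.mpr hG) K).mul_left _).mul_left _
  have h0 : (A - texp K G).coeff 0 = 0 := by rw [coeff_sub, hA, newton_texp_coeff_zero hG, sub_self]
  have h1 : X ^ K ∣ derivative (A - texp K G) - derivative G * (A - texp K G) := by
    have := dvd_sub h hB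
    rw [derivative_sub]
    convert this using 1
    ring
  intro k hk
  have := newton_coeff_eq_zero h0 h1 k hk
  rwa [coeff_sub, sub_eq_zero] at this

theorem ofPS_congr {M : ℕ} {π π' : ℕ → R} (h : ∀ j, 1 ≤ j → j ≤ M → π j = π' j) :
    ofPS M π = ofPS M π' := by
  have h1 : (∑ j ∈ Finset.range M,
      monomial (j + 1) ((((-1) ^ j / ((j : ℚ) + 1)) : ℚ) • π (j + 1)) : R[X])
      = ∑ j ∈ Finset.range M,
        monomial (j + 1) ((((-1) ^ j / ((j : ℚ) + 1)) : ℚ) • π' (j + 1)) :=
    Finset.sum_congr rfl fun j hj => by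
      rw [h (j + 1) (by omega) (by have := Finset.mem_range.mp hj; omega)]
  unfold ofPS
  rw [h1]

theorem ofPS_coeff_zero (M : ℕ) (π : ℕ → R) : (ofPS M π).coeff 0 = 1 := by
  rw [newton_ofPS_coeff M π (Nat.zero_le M), newton_texp_coeff_zero (newton_G_coeff_zero M _)]

theorem ofPS_natDegree_le (M : ℕ) (π : ℕ → R) : (ofPS M π).natDegree ≤ M := by
  unfold ofPS
  exact natDegree_sum_le_of_forall_le _ _ fun i hi =>
    (natDegree_monomial_le _).trans (by have := Finset.mem_range.mp hi; omega)

theorem newton_map_texp (φ : R →ₐ[ℚ] S) (K : ℕ) (G : R[X]) :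
    (texp K G).map φ.toRingHom = texp K (G.map φ.toRingHom) := by
  change mapAlgHom φ (texp K G) = texp K (mapAlgHom φ G)
  unfold texp
  simp only [map_sum, map_smul, map_pow]

theorem map_ofPS (φ : R →ₐ[ℚ] S) (M : ℕ) (π : ℕ → R) :
    (ofPS M π).map φ.toRingHom = ofPS M fun j => φ (π j) := by
  unfold ofPS
  rw [Polynomial.map_sum]
  refine Finset.sum_congr rfl fun k _ => ?_
  rw [Polynomial.map_monomial, ← coeff_map, newton_map_texp, Polynomial.map_sum]
  congr 3
  refine Finset.sum_congr rfl fun j _ => ?_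
  rw [Polynomial.map_monomial]
  congr 1
  exact map_smul φ _ _

/-- a polynomial of degree at most `M`, with constant coefficient one, whose logarithmic
derivative is `∑ (-1) ^ j π (j + 1) X ^ j` modulo `X ^ M` -/
theorem eq_ofPS {M : ℕ} {A : R[X]} {π : ℕ → R} (hA : A.coeff 0 = 1) (hd : A.natDegree ≤ M)
    (h : X ^ M ∣ derivative A -
      (∑ j ∈ Finset.range M, monomial j ((-1) ^ j * π (j + 1))) * A) : A = ofPS M π := by
  have hG : derivative (∑ j ∈ Finset.range M,
      monomial (j + 1) ((((-1) ^ j / ((j : ℚ) + 1)) : ℚ) • π (j + 1)))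
      = ∑ j ∈ Finset.range M, monomial j ((-1) ^ j * π (j + 1)) := by
    rw [derivative_sum]
    refine Finset.sum_congr rfl fun j _ => ?_
    rw [derivative_monomial_succ]
    congr 1
    have h3 : ((j : ℚ) + 1) ≠ 0 := by positivity
    have h4 : ((j : R) + 1) = algebraMap ℚ R ((j : ℚ) + 1) := by simp
    rw [h4, mul_comm, ← Algebra.smul_def, smul_smul, mul_div_cancel₀ _ h3, Algebra.smul_def]
    simp
  rw [← hG] at h
  have h1 := coeff_eq_texp hA (newton_G_coeff_zero M _) h
  ext k
  rcases le_or_gt k M with hk | hk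
  · rw [h1 k hk, newton_ofPS_coeff M π hk]
  · rw [coeff_eq_zero_of_natDegree_lt (hd.trans_lt hk),
      coeff_eq_zero_of_natDegree_lt ((ofPS_natDegree_le M π).trans_lt hk)]

theorem ofPS_powerSum {ι : Type} [Fintype ι] (γ : ι → R) {M : ℕ} (hM : Fintype.card ι ≤ M) :
    ofPS M (fun j => ∑ i, γ i ^ j) = ∏ i, (1 + C (γ i) * X) := by
  symm
  refine eq_ofPS ?_ ?_ ?_
  · rw [coeff_zero_prod]; simp
  · refine (natDegree_prod_le _ _).trans (le_trans ?_ hM)
    rw [← Finset.card_univ, Finset.card_eq_sum_ones]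
    exact Finset.sum_le_sum fun i _ => by compute_degree
  · convert newton_prod_dvd Finset.univ _ _ _ fun i _ => newton_lin_dvd (γ i) M using 3
    simp only [Finset.mul_sum, map_sum]
    rw [Finset.sum_comm]
    refine Finset.sum_congr rfl fun i _ => Finset.sum_congr rfl fun j _ => ?_
    rw [← C_mul_X_pow_eq_monomial, neg_pow (C (γ i) * X)]
    simp only [map_mul, map_pow, map_neg, map_one]
    ring

omit [Algebra ℚ R] in
theorem newton_jacobi {ι : Type} [Fintype ι] [DecidableEq ι] (A : Matrix ι ι R[X]) :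
    derivative A.det = (A.adjugate * A.map derivative).trace := by
  have h1 : ∀ i, (A.adjugate * A.map derivative) i i
      = (A.updateCol i fun k => derivative (A k i)).det := by
    intro i
    rw [← Matrix.cramer_apply, Matrix.cramer_eq_adjugate_mulVec]
    rfl
  simp only [Matrix.trace, Matrix.diag, h1, Matrix.det_apply, derivative_sum]
  rw [Finset.sum_comm]
  refine Finset.sum_congr rfl fun σ _ => ?_
  rw [← Finset.smul_sum, Units.smul_def, Units.smul_def, map_zsmul, derivative_prod_finset]
  congr 1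
  refine Finset.sum_congr rfl fun i _ => ?_
  rw [← Finset.prod_erase_mul _ _ (Finset.mem_univ i), Matrix.updateCol_self]
  congr 1
  refine Finset.prod_congr rfl fun j hj => ?_
  rw [Matrix.updateCol_ne (Finset.ne_of_mem_erase hj)]

omit [Algebra ℚ R] in
theorem newton_charpolyRev_natDegree_le {ι : Type} [Fintype ι] [DecidableEq ι] (N : Matrix ι ι R)
    {M : ℕ} (hM : Fintype.card ι ≤ M) : N.charpolyRev.natDegree ≤ M := by
  nontriviality R
  rw [← Matrix.reverse_charpoly]
  exact (reverse_natDegree_le _).trans (by rw [Matrix.charpoly_natDegree_eq_dim]; exact hM)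

/-- Jacobi's formula `(det A)' = tr (adj A * A')` for `A = 1 - X N`, and
`(1 - X N) * ∑_{j < M} X ^ j N ^ j = 1 - X ^ M N ^ M`, so that
`adj A ≡ det A • ∑_{j < M} X ^ j N ^ j` modulo `X ^ M`. -/
theorem ofPS_trace {ι : Type} [Fintype ι] [DecidableEq ι] (N : Matrix ι ι R) {M : ℕ}
    (hM : Fintype.card ι ≤ M) : ofPS M (fun j => (-1) ^ j * (N ^ j).trace) = N.charpolyRev := by
  symm
  refine eq_ofPS ?_ (newton_charpolyRev_natDegree_le N hM) ?_
  · rw [coeff_zero_eq_eval_zero, Matrix.eval_charpolyRev]
  · set N' : Matrix ι ι R[X] := N.map C with hN'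
    set A : Matrix ι ι R[X] := 1 - (X : R[X]) • N' with hA
    set T : Matrix ι ι R[X] := ∑ j ∈ Finset.range M, ((X : R[X]) • N') ^ j with hT
    have h1 : A * T = 1 - ((X : R[X]) • N') ^ M := mul_neg_geom_sum _ _
    have h2 : A.adjugate = A.det • T + (X : R[X]) ^ M • (A.adjugate * N' ^ M) := by
      calc A.adjugate = A.adjugate * (A * T + ((X : R[X]) • N') ^ M) := by
            rw [h1, sub_add_cancel, mul_one]
        _ = _ := by
            rw [mul_add, ← mul_assoc, Matrix.adjugate_mul, smul_mul_assoc, one_mul,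
              _root_.smul_pow, mul_smul_comm]
    have h3 : A.map derivative = -N' := by
      ext1 i j
      rcases eq_or_ne i j with hij | hij <;> simp [hA, hN', hij]
    have h4 : (T * N').trace = -∑ j ∈ Finset.range M,
        monomial j ((-1) ^ j * ((-1) ^ (j + 1) * (N ^ (j + 1)).trace)) := by
      rw [hT, Finset.sum_mul, Matrix.trace_sum, ← Finset.sum_neg_distrib]
      refine Finset.sum_congr rfl fun j _ => ?_
      have h5 : N' ^ (j + 1) = (N ^ (j + 1)).map C := by
        rw [hN']; exact (map_pow (C : R →+* R[X]).mapMatrix N (j + 1)).symm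
      have h6 : (-1 : R) ^ j * (-1) ^ (j + 1) = -1 := by
        rw [← pow_add, show j + (j + 1) = 2 * j + 1 by ring, pow_succ, pow_mul]; simp
      rw [_root_.smul_pow, smul_mul_assoc, ← pow_succ, h5, Matrix.trace_smul, ← mul_assoc, h6,
        ← C_mul_X_pow_eq_monomial, ← AddMonoidHom.map_trace, smul_eq_mul, neg_one_mul, map_neg,
        neg_mul, neg_neg, mul_comm]
    change X ^ M ∣ derivative A.det - _ * A.det
    rw [newton_jacobi, h3, h2, ← neg_neg (∑ j ∈ Finset.range M, _), ← h4]
    refine ⟨-(A.adjugate * N' ^ M * N').trace, ?_⟩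
    simp only [mul_neg, add_mul, smul_mul_assoc, Matrix.trace_neg, Matrix.trace_add,
      Matrix.trace_smul, smul_eq_mul]
    ring

theorem reflect_ofPS_coeff (M : ℕ) (π : ℕ → R) : (reflect M (ofPS M π)).coeff M = 1 := by
  rw [coeff_reflect, revAt_le le_rfl, Nat.sub_self, ofPS_coeff_zero]

theorem reflect_ofPS_natDegree_le (M : ℕ) (π : ℕ → R) : (reflect M (ofPS M π)).natDegree ≤ M := by
  exact natDegree_reflect_le.trans (max_le le_rfl (ofPS_natDegree_le M π))

/-- `reflect M N.charpolyRev = X ^ (M - card ι) * N.charpoly` (`Matrix.reverse_charpoly`) -/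
theorem eval_reflect_ofPS_trace {F : Type} [Field F] [Algebra ℚ F] {ι : Type} [Fintype ι]
    [DecidableEq ι] (N : Matrix ι ι F) {M : ℕ} (hM : Fintype.card ι ≤ M) {w : ι → F} (hw : w ≠ 0)
    {c : F} (h : Matrix.vecMul w N = c • w) :
    (reflect M (ofPS M fun j => (-1) ^ j * (N ^ j).trace)).eval c = 0 := by
  obtain ⟨e, rfl⟩ := Nat.exists_eq_add_of_le hM
  have h1 : N.charpolyRev = reflect (Fintype.card ι) N.charpoly := by
    rw [← Matrix.reverse_charpoly, reverse, Matrix.charpoly_natDegree_eq_dim]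
  have h2 : N.charpoly.eval c = 0 := by
    rw [Matrix.eval_charpoly, ← Matrix.exists_vecMul_eq_zero_iff]
    refine ⟨w, hw, ?_⟩
    rw [Matrix.vecMul_sub, h, Matrix.scalar_apply]
    ext i
    simp
  rw [ofPS_trace N hM, ← mul_one N.charpolyRev,
    reflect_mul _ _ (newton_charpolyRev_natDegree_le N le_rfl) (by simp), h1, reflect_reflect,
    eval_mul, h2, zero_mul]

theorem map_psum (φ : R →ₐ[ℚ] S) (F : R[X]) (d e : ℕ) :
    φ (psum F d e) = psum (F.map φ.toRingHom) d e := by
  unfold psum
  change φ.toRingHom _ = _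
  rw [← coeff_map]
  simp only [Polynomial.map_sub, Polynomial.map_mul, Polynomial.map_sum, Polynomial.map_pow,
    Polynomial.map_one, map_X, map_natCast, Polynomial.map_natCast, reflect_map,
    derivative_map]

omit [Algebra ℚ R] in
theorem newton_reflect_prod {ι : Type} (s : Finset ι) (β : ι → R) :
    reflect s.card (∏ j ∈ s, (X - C (β j))) = ∏ j ∈ s, (1 + C (-β j) * X) := by
  classical
  induction s using Finset.induction_on with
  | empty => simp
  | insert a s ha ih =>
    have h1 : (∏ j ∈ s, (X - C (β j))).natDegree ≤ s.card := by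
      refine (natDegree_prod_le _ _).trans ?_
      rw [Finset.card_eq_sum_ones]
      exact Finset.sum_le_sum fun i _ => natDegree_X_sub_C_le _
    rw [Finset.prod_insert ha, Finset.prod_insert ha, Finset.card_insert_of_notMem ha, add_comm,
      reflect_mul _ _ (natDegree_X_sub_C_le _) h1, ih, reflect_sub, reflect_one_X, reflect_C]
    simp only [map_neg, pow_one, neg_mul, sub_eq_add_neg]

/-- with `f = reflect d (∏ (X - β j)) = ∏ (1 - β j X)` one has
`(∑_{e' ≤ e} p e' X ^ e') * f ≡ d f - X f'` and `f * ∑_{k ≤ e} (1 - f) ^ k ≡ 1` modulo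
`X ^ (e + 1)` -/
theorem psum_prod {d : ℕ} (β : Fin d → R) (e : ℕ) :
    psum (∏ j, (X - C (β j))) d e = ∑ j, β j ^ e := by
  have h0 : reflect d (∏ j, (X - C (β j))) = ∏ j, (1 + C (-β j) * X) := by
    have := newton_reflect_prod Finset.univ β
    rwa [Finset.card_univ, Fintype.card_fin] at this
  unfold psum
  rw [h0]
  set f : R[X] := ∏ j, (1 + C (-β j) * X) with hf
  set H : R[X] := ∑ j, C (-β j) * ∑ k ∈ Finset.range e, (-(C (-β j) * X)) ^ k with hH
  set T : R[X] := ∑ k ∈ Finset.range (e + 1), (1 - f) ^ k with hT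
  have h1 : X ^ e ∣ derivative f - H * f :=
    newton_prod_dvd Finset.univ _ _ _ fun i _ => newton_lin_dvd (-β i) e
  have h2 : f * T = 1 - (1 - f) ^ (e + 1) := by
    have := mul_neg_geom_sum (1 - f) (e + 1)
    rwa [sub_sub_cancel] at this
  have h3 : X ^ (e + 1) ∣ (1 - f) ^ (e + 1) := by
    refine pow_dvd_pow_of_dvd (X_dvd_iff.mpr ?_) _
    rw [coeff_sub, hf, coeff_zero_prod]; simp
  have h4 : X ^ (e + 1) ∣ (C (d : R) - X * derivative f * T) - (C (d : R) - X * H) := by
    have h5 : X ^ (e + 1) ∣ X * (derivative f - H * f) * T := by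
      rw [pow_succ']
      exact (mul_dvd_mul_left X h1).mul_right _
    have h6 := h3.mul_left (X * H)
    convert dvd_sub h6 h5 using 1
    linear_combination (-(X * H)) * h2
  have h7 := X_pow_dvd_iff.mp h4 e (Nat.lt_succ_self e)
  rw [coeff_sub, sub_eq_zero] at h7
  have h8 : C (d : R) - X * H = ∑ j, ∑ k ∈ Finset.range (e + 1), monomial k (β j ^ k) := by
    have h9 : (C (d : R) : R[X]) = ∑ _j : Fin d, 1 := by simp
    rw [h9, hH, Finset.mul_sum, ← Finset.sum_sub_distrib]
    refine Finset.sum_congr rfl fun j _ => ?_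
    rw [Finset.sum_range_succ', Finset.mul_sum, Finset.mul_sum, sub_eq_add_neg, add_comm,
      ← Finset.sum_neg_distrib]
    congr 1
    · refine Finset.sum_congr rfl fun k _ => ?_
      rw [← C_mul_X_pow_eq_monomial]
      simp only [map_neg, map_pow, neg_mul, neg_neg]
      ring
    · simp
  rw [h7, h8, finsetSum_coeff]
  refine Finset.sum_congr rfl fun j _ => ?_
  rw [finsetSum_coeff]
  simp only [coeff_monomial]
  rw [Finset.sum_ite_eq', if_pos (Finset.mem_range.mpr (Nat.lt_succ_self e))]

theorem newton_one_add_ne_zero {A : Type} [CommRing A] [IsDomain A] (γ : A) :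
    (1 + C γ * X : A[X]) ≠ 0 := by
  intro h
  have := congrArg (fun q : A[X] => q.coeff 0) h
  simp at this

open Classical in
theorem natDegree_prod_one_add {A : Type} [CommRing A] [IsDomain A] {ι : Type} (s : Finset ι)
    (γ : ι → A) : (∏ i ∈ s, (1 + C (γ i) * X)).natDegree = (s.filter fun i => γ i ≠ 0).card := by
  rw [natDegree_prod _ _ fun i _ => newton_one_add_ne_zero (γ i), Finset.card_filter]
  refine Finset.sum_congr rfl fun i _ => ?_
  split_ifs with h
  · rw [add_comm, ← C_1, natDegree_linear h]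
  · simp [not_not.mp h]

open Classical in
theorem leadingCoeff_prod_one_add {A : Type} [CommRing A] [IsDomain A] {ι : Type} (s : Finset ι)
    (γ : ι → A) :
    (∏ i ∈ s, (1 + C (γ i) * X)).leadingCoeff = ∏ i ∈ s.filter fun i => γ i ≠ 0, γ i := by
  rw [leadingCoeff_prod, Finset.prod_filter]
  refine Finset.prod_congr rfl fun i _ => ?_
  split_ifs with h
  · rw [add_comm, ← C_1, leadingCoeff_linear h]
  · simp [not_not.mp h]

theorem exists_enum_roots {F : ℂ[X]} (hF : F.Monic) {d : ℕ} (hd : F.natDegree = d) :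
    ∃ β : Fin d → ℂ, F = ∏ j, (X - C (β j)) := by
  have h1 : F.roots.card = F.natDegree := IsAlgClosed.card_roots_eq_natDegree
  have h2 := prod_multiset_X_sub_C_of_monic_of_roots_card_eq hF h1
  have h3 : F.roots.toList.length = d := by rw [Multiset.length_toList, h1, hd]
  subst h3
  refine ⟨F.roots.toList.get, ?_⟩
  conv_lhs => rw [← h2, ← Multiset.coe_toList F.roots, Multiset.map_coe, Multiset.prod_coe,
    ← List.ofFn_get F.roots.toList, List.map_ofFn, List.prod_ofFn]
  rfl

end Crest.Agent.R316
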