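import Crest.Agent.R316.Newton

/-! Row 316: the meaning of the operations on `MP` and `UP` (pure algebra). -/

set_option autoImplicit false

namespace Crest.Agent.R316

open MvPolynomial

variable {R : Type} [CommRing R] [Algebra ℚ R]

/-- the point with first coordinate `t`, followed by `x` -/
def scons {A : Type} (t : A) (x : ℕ → A) : ℕ → A := fun i => Nat.casesOn i t x

@[simp] theorem scons_zero {A : Type} (t : A) (x : ℕ → A) : scons t x 0 = t := rfl
@[simp] theorem scons_succ {A : Type} (t : A) (x : ℕ → A) (i : ℕ) : scons t x (i + 1) = x i := rfl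

@[simp] theorem toU_X_zero : toU (X 0) = Polynomial.X := by simp [toU]
@[simp] theorem toU_X_succ (i : ℕ) : toU (X (i + 1)) = Polynomial.C (X i) := by simp [toU]
@[simp] theorem ofU_X : ofU Polynomial.X = X 0 := by simp [ofU]
@[simp] theorem ofU_C (p : MP) : ofU (Polynomial.C p) = rename Nat.succ p := by simp [ofU]
@[simp] theorem tx_X_zero (x : ℕ → R) : tx x (X 0) = Polynomial.X := by simp [tx]
@[simp] theorem tx_X_succ (x : ℕ → R) (i : ℕ) : tx x (X (i + 1)) = Polynomial.C (x i) := by
  simp [tx]

theorem sem_hom_aeval {A B σ : Type} [CommRing A] [Algebra ℚ A] [CommRing B] [Algebra ℚ B]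
    (φ : A →+* B) (x : σ → A) (P : MvPolynomial σ ℚ) :
    φ (aeval x P) = aeval (fun i => φ (x i)) P :=
  comp_aeval_apply x φ.toRatAlgHom P

omit [Algebra ℚ R] in
theorem sem_prod_split {n : ℕ} (y : Fin n → R) (x : ℕ → R) (d : ℕ →₀ ℕ) :
    (d.prod fun i k => app y x i ^ k) =
      (∏ i : Fin n, y i ^ d i) * (shiftF n d).prod fun i k => x i ^ k := by
  classical
  induction d using Finsupp.induction_linear with
  | zero =>
    have : shiftF n 0 = 0 := by ext i; simp
    simp [this]
  | add d e hd he =>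
    have : shiftF n (d + e) = shiftF n d + shiftF n e := by ext i; simp
    rw [this, Finsupp.prod_add_index' (by simp) (fun _ _ _ => pow_add _ _ _),
      Finsupp.prod_add_index' (by simp) (fun _ _ _ => pow_add _ _ _), hd, he]
    simp only [Finsupp.add_apply, pow_add, Finset.prod_mul_distrib]
    ring
  | single i k =>
    rw [Finsupp.prod_single_index (h := fun i k => app y x i ^ k) (pow_zero _)]
    rcases lt_or_ge i n with hi | hi
    · have : shiftF n (Finsupp.single i k) = 0 := by
        ext j; simp [Finsupp.single_apply]; omega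
      rw [this, Finsupp.prod_zero_index, mul_one, app_lt _ _ hi,
        Finset.prod_eq_single (⟨i, hi⟩ : Fin n)]
      · simp
      · intro j _ hj
        rw [Finsupp.single_eq_of_ne fun h => hj (Fin.ext h), pow_zero]
      · simp
    · obtain ⟨j, rfl⟩ : ∃ j, i = j + n := ⟨i - n, by omega⟩
      have : shiftF n (Finsupp.single (j + n) k) = Finsupp.single j k := by
        ext l; simp [Finsupp.single_apply]
      rw [this, Finsupp.prod_single_index (h := fun i k => x i ^ k) (pow_zero _), app_add, Finset.prod_eq_one, one_mul]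
      intro l _
      rw [Finsupp.single_eq_of_ne (by have := l.2; omega), pow_zero]

theorem sem_split {n : ℕ} (y : Fin n → R) (x : ℕ → R) (d : ℕ →₀ ℕ) (c : ℚ) :
    aeval (app y x) (monomial d c) =
      c • ((∏ i : Fin n, y i ^ d i) * aeval x (monomial (shiftF n d) (1 : ℚ))) := by
  rw [aeval_monomial, aeval_monomial, sem_prod_split, map_one, one_mul, Algebra.smul_def]

theorem sem_spec_monomial (n : ℕ) (x : ℕ → R) (d : ℕ →₀ ℕ) (c : ℚ) :
    spec n x (monomial d c) = monomial (Finsupp.equivFunOnFinite.symm fun j : Fin n => d j)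
      (c • aeval x (monomial (shiftF n d) (1 : ℚ))) := by
  rw [spec, sem_split, ← sem_hom_aeval C x, ← smul_monomial, monomial_eq (a := aeval x _),
    Finsupp.prod_fintype _ _ (fun _ => pow_zero _), mul_comm]
  rfl

@[simp] theorem ofU_toU (P : MP) : ofU (toU P) = P := by
  have : ofU.comp toU = AlgHom.id ℚ MP := by
    refine MvPolynomial.algHom_ext fun i => ?_
    cases i <;> simp
  exact AlgHom.congr_fun this P

@[simp] theorem toU_ofU (F : UP) : toU (ofU F) = F := by
  induction F using Polynomial.induction_on with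
  | C p =>
    rw [ofU_C, toU, aeval_rename]
    exact (sem_hom_aeval Polynomial.C X p).symm.trans (by rw [aeval_X_left_apply])
  | add p q hp hq => rw [map_add, map_add, hp, hq]
  | monomial n p h => rw [pow_succ, ← mul_assoc, map_mul, map_mul, h, ofU_X, toU_X_zero]

theorem coeff_toU (P : MP) (k : ℕ) : (toU P).coeff k = pc 1 (fun _ => k) P := by
  classical
  have e : toU = aeval (app (fun _ : Fin 1 => (Polynomial.X : UP)) fun i => Polynomial.C (X i)) := by
    unfold toU
    congr 1
    funext i
    cases i <;> rfl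
  conv_lhs => rw [P.as_sum, map_sum, Polynomial.finsetSum_coeff]
  unfold pc
  refine Finset.sum_congr rfl fun d _ => ?_
  rw [e, sem_split, ← sem_hom_aeval Polynomial.C X, aeval_X_left_apply, Fin.prod_univ_one,
    Polynomial.coeff_smul, mul_comm, Polynomial.coeff_C_mul_X_pow]
  congr 1
  simp [eq_comm]

@[simp] theorem ev_coeff (x : ℕ → R) (F : UP) (k : ℕ) : (ev x F).coeff k = aeval x (F.coeff k) := by
  simp [ev]

@[simp] theorem ev_C (x : ℕ → R) (p : MP) : ev x (Polynomial.C p) = Polynomial.C (aeval x p) := by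
  simp [ev]

@[simp] theorem ev_X (x : ℕ → R) : ev x Polynomial.X = Polynomial.X := by
  simp [ev]

@[simp] theorem ev_one (x : ℕ → R) : ev x 1 = 1 := by
  simp [ev]

@[simp] theorem ev_add (x : ℕ → R) (F G : UP) : ev x (F + G) = ev x F + ev x G := by
  simp [ev]

@[simp] theorem ev_mul (x : ℕ → R) (F G : UP) : ev x (F * G) = ev x F * ev x G := by
  simp [ev]

theorem ev_prod {ι : Type} (x : ℕ → R) (s : Finset ι) (F : ι → UP) :
    ev x (∏ i ∈ s, F i) = ∏ i ∈ s, ev x (F i) := by
  simp [ev, Polynomial.map_prod]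

theorem ev_sum {ι : Type} (x : ℕ → R) (s : Finset ι) (F : ι → UP) :
    ev x (∑ i ∈ s, F i) = ∑ i ∈ s, ev x (F i) := by
  simp [ev, Polynomial.map_sum]

@[simp] theorem ev_map_C (x : ℕ → R) (G : Polynomial ℚ) :
    ev x (G.map (C : ℚ →+* MP)) = G.map (algebraMap ℚ R) := by
  ext k
  simp

theorem ev_toU (x : ℕ → R) (P : MP) : ev x (toU P) = tx x P := by
  rw [toU, tx]
  refine (sem_hom_aeval (Polynomial.mapRingHom (aeval x : MP →ₐ[ℚ] R).toRingHom) _ P).trans ?_
  congr 2
  funext i
  cases i <;> simp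

theorem eval_tx (x : ℕ → R) (P : MP) (t : R) : (tx x P).eval t = aeval (scons t x) P := by
  rw [tx]
  refine (sem_hom_aeval (Polynomial.evalRingHom t) _ P).trans ?_
  congr 2
  funext i
  cases i <;> simp

theorem eval_ev (x : ℕ → R) (F : UP) (t : R) : (ev x F).eval t = aeval (scons t x) (ofU F) := by
  rw [← eval_tx, ← ev_toU, toU_ofU]

theorem map_ev {S : Type} [CommRing S] [Algebra ℚ S] (φ : R →ₐ[ℚ] S) (x : ℕ → R) (F : UP) :
    (ev x F).map φ.toRingHom = ev (fun i => φ (x i)) F := by
  ext k
  rw [Polynomial.coeff_map, ev_coeff, ev_coeff]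
  exact comp_aeval_apply _ φ _

theorem map_tx {S : Type} [CommRing S] [Algebra ℚ S] (φ : R →ₐ[ℚ] S) (x : ℕ → R) (P : MP) :
    (tx x P).map φ.toRingHom = tx (fun i => φ (x i)) P := by
  rw [← ev_toU, ← ev_toU, map_ev]

theorem map_app {A B : Type} (φ : A → B) {n : ℕ} (y : Fin n → A) (x : ℕ → A) :
    (fun i => φ (app y x i)) = app (fun j => φ (y j)) fun i => φ (x i) := by
  funext i
  unfold app
  split_ifs <;> rfl

theorem ofReal_aeval (x : ℕ → ℝ) (P : MP) :
    ((aeval x P : ℝ) : ℂ) = aeval (fun i => (x i : ℂ)) P := by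
  exact sem_hom_aeval Complex.ofRealHom x P

theorem conj_aeval (x : ℕ → ℂ) (P : MP) :
    (starRingEnd ℂ) (aeval x P) = aeval (fun i => (starRingEnd ℂ) (x i)) P := by
  exact sem_hom_aeval (starRingEnd ℂ) x P

theorem eval_spec {n : ℕ} (x : ℕ → R) (y : Fin n → R) (P : MP) :
    eval y (spec n x P) = aeval (app y x) P := by
  rw [spec, sem_hom_aeval (eval y), map_app]
  simp

theorem spec_X_lt {n : ℕ} (x : ℕ → R) {i : ℕ} (h : i < n) : spec n x (X i) = X ⟨i, h⟩ := by
  rw [spec, aeval_X, app_lt _ _ h]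

theorem spec_X_add (n : ℕ) (x : ℕ → R) (i : ℕ) : spec n x (X (i + n)) = C (x i) := by
  rw [spec, aeval_X, app_add]

theorem coeff_spec (n : ℕ) (x : ℕ → R) (e : ℕ → ℕ) (P : MP) :
    coeff (Finsupp.equivFunOnFinite.symm fun j : Fin n => e j) (spec n x P) =
      aeval x (pc n e P) := by
  classical
  conv_lhs => rw [P.as_sum, map_sum, coeff_sum]
  unfold pc
  rw [map_sum]
  refine Finset.sum_congr rfl fun d _ => ?_
  rw [sem_spec_monomial, coeff_monomial, map_smul]
  by_cases h : ∀ i < n, d i = e i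
  · rw [if_pos h, if_pos]
    congr 1
    funext j
    exact h j j.2
  · rw [if_neg h, if_neg, map_zero, smul_zero]
    intro h'
    exact h fun i hi => congrFun (Finsupp.equivFunOnFinite.symm.injective h') ⟨i, hi⟩

theorem spec_pderiv {n : ℕ} (x : ℕ → R) (j : Fin n) (P : MP) :
    spec n x (pderiv (j : ℕ) P) = pderiv j (spec n x P) := by
  classical
  induction P using MvPolynomial.induction_on with
  | C a => rw [pderiv_C, map_zero, spec, aeval_C, MvPolynomial.algebraMap_apply, pderiv_C]
  | add p q hp hq => simp only [map_add, hp, hq]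
  | mul_X p i h =>
    have : spec n x (pderiv (j : ℕ) (X i)) = pderiv j (spec n x (X i)) := by
      rcases lt_or_ge i n with hi | hi
      · rw [spec_X_lt x hi]
        by_cases e : i = j
        · subst e; simp
        · rw [pderiv_X_of_ne e, map_zero, pderiv_X_of_ne fun h => e (congrArg Fin.val h)]
      · obtain ⟨k, rfl⟩ : ∃ k, i = k + n := ⟨i - n, by omega⟩
        rw [spec_X_add, pderiv_C, pderiv_X_of_ne (by have := j.2; omega), map_zero]
    rw [pderiv_mul, map_add, map_mul, map_mul, map_mul, pderiv_mul, h, this]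

theorem totalDegree_spec_le (n : ℕ) (x : ℕ → R) (P : MP) :
    (spec n x P).totalDegree ≤ P.totalDegree := by
  classical
  conv_lhs => rw [P.as_sum, map_sum]
  refine totalDegree_finsetSum_le fun d hd => ?_
  rw [sem_spec_monomial]
  refine (totalDegree_monomial_le _ _).trans (le_trans ?_ (le_totalDegree hd))
  rw [Finsupp.sum_fintype _ _ (fun _ => rfl),
    Finsupp.sum_of_support_subset d (Finset.subset_union_left (s₂ := Finset.range n)) _
      (fun _ _ => rfl)]
  simp only [Finsupp.equivFunOnFinite_symm_apply_apply, id]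
  rw [Fin.sum_univ_eq_sum_range (fun i => d i) n]
  exact Finset.sum_le_sum_of_subset Finset.subset_union_right

theorem totalDegree_pderiv_le' {σ : Type} (j : σ) (P : MvPolynomial σ R) :
    (pderiv j P).totalDegree ≤ P.totalDegree := by
  classical
  conv_lhs => rw [P.as_sum, map_sum]
  refine totalDegree_finsetSum_le fun d hd => ?_
  rw [pderiv_monomial]
  refine (totalDegree_monomial_le _ _).trans (le_trans ?_ (le_totalDegree hd))
  rw [Finsupp.sum_of_support_subset _ (Finsupp.support_tsub (f2 := Finsupp.single j 1)) _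
    (fun _ _ => rfl)]
  exact Finset.sum_le_sum fun i _ => by simp

/-- `psum_prod`, `map_psum`, `Finset.prod_univ_sum` -/
theorem aeval_tupSum {n : ℕ} {F : ℕ → UP} {d : ℕ → ℕ} {x : ℕ → R}
    {β : (i : Fin n) → Fin (d i) → R}
    (h : ∀ i : Fin n, ev x (F i) = ∏ j, (Polynomial.X - Polynomial.C (β i j))) (W : MP) :
    aeval x (tupSum n F d W) =
      ∑ ι : (i : Fin n) → Fin (d i), aeval (app (fun i => β i (ι i)) x) W := by
  classical
  have e : ∀ ι : (i : Fin n) → Fin (d i), aeval (app (fun i => β i (ι i)) x) W =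
      ∑ e ∈ W.support, coeff e W •
        ((∏ i : Fin n, β i (ι i) ^ e i) * aeval x (monomial (shiftF n e) (1 : ℚ))) := by
    intro ι
    conv_lhs => rw [W.as_sum, map_sum]
    exact Finset.sum_congr rfl fun e _ => sem_split _ _ _ _
  simp only [e]
  rw [Finset.sum_comm, tupSum, map_sum]
  refine Finset.sum_congr rfl fun e _ => ?_
  rw [← Finset.smul_sum, ← Finset.sum_mul, map_smul, map_mul, map_prod,
    ← Fin.prod_univ_eq_prod_range (fun i => aeval x (psum (F i) (d i) (e i))) n]
  congr 2
  have : ∀ i : Fin n, aeval x (psum (F i) (d i) (e i)) = ∑ j, β i j ^ e i := fun i => by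
    rw [map_psum, ← psum_prod, ← h i]; rfl
  simp only [this]
  rw [Finset.prod_univ_sum, Fintype.piFinset_univ]

theorem ev_tupProd {n : ℕ} {F : ℕ → UP} {d : ℕ → ℕ} {x : ℕ → R}
    {β : (i : Fin n) → Fin (d i) → R}
    (h : ∀ i : Fin n, ev x (F i) = ∏ j, (Polynomial.X - Polynomial.C (β i j))) (W : MP) :
    ev x (tupProd n F d W) = ∏ ι : (i : Fin n) → Fin (d i),
      (1 + Polynomial.C (aeval (app (fun i => β i (ι i)) x) W) * Polynomial.X) := by
  rw [tupProd, ev, map_ofPS, ← ofPS_powerSum (M := ∏ i ∈ Finset.range n, d i)]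
  · congr 1
    funext j
    rw [aeval_tupSum h]
    simp only [map_pow]
  · rw [Fintype.card_pi, ← Fin.prod_univ_eq_prod_range d n]
    simp

theorem tupProd_coeff_zero (n : ℕ) (F : ℕ → UP) (d : ℕ → ℕ) (W : MP) :
    (tupProd n F d W).coeff 0 = 1 := ofPS_coeff_zero _ _

theorem aeval_rhoP (n D K : ℕ) (g : ℕ → MP) (h : MP) (x : ℕ → R) :
    aeval x (rhoP n D K g h) = rho D K (fun j : Fin n => spec n x (g j)) (spec n x h) := by
  classical
  rw [rhoP, rho, map_sum]
  refine Finset.sum_bij (fun k _ => fun j : Fin n => k j) ?_ ?_ ?_ ?_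
  · intro k hk
    rw [Fintype.mem_piFinset]
    exact fun j => Finset.mem_range.2 ((mem_box.1 hk).2 j j.2)
  · intro k hk k' hk' e
    ext i
    rcases lt_or_ge i n with hi | hi
    · exact congrFun e ⟨i, hi⟩
    · rw [(mem_box.1 hk).1 i hi, (mem_box.1 hk').1 i hi]
  · intro κ hκ
    rw [Fintype.mem_piFinset] at hκ
    refine ⟨Finsupp.onFinset (Finset.range n) (app κ fun _ => 0) fun i hi => ?_, ?_, ?_⟩
    · rw [Finset.mem_range]
      by_contra h0
      exact hi (app_ge _ _ (by omega))
    · refine mem_box.2 ⟨fun i hi => app_ge κ (fun _ => 0) hi, fun i hi => ?_⟩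
      rw [Finsupp.onFinset_apply, app_lt _ _ hi]
      exact Finset.mem_range.1 (hκ _)
    · funext j
      simp
  · intro k _
    rw [← coeff_spec, map_mul, map_prod,
      ← Fin.prod_univ_eq_prod_range (fun j => spec n x (g j ^ k j)) n]
    simp only [map_pow]

theorem spec_jacP (n D : ℕ) (g : ℕ → MP) (x : ℕ → R) :
    spec n x (jacP n D g) = jac D fun j : Fin n => spec n x (g j) := by
  rw [jacP, jac, AlgHom.map_det]
  congr 1
  ext i j : 2
  simp only [AlgHom.mapMatrix_apply, Matrix.map_apply, Matrix.of_apply]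
  rw [spec_pderiv, map_sub, map_pow, spec_X_lt x i.2]

theorem ev_elimP (n D M K : ℕ) (g : ℕ → MP) (j₀ : Fin n) (x : ℕ → R) :
    ev x (elimP n D M K g j₀) = elim D M K (fun j : Fin n => spec n x (g j)) j₀ := by
  rw [elimP, elim, ev, ← Polynomial.reflect_map, map_ofPS]
  congr 2
  funext i
  rw [map_mul, map_pow, map_neg, map_one, aeval_rhoP, map_mul, map_pow, spec_X_lt x j₀.2, spec_jacP]

theorem lead_ne_zero [Nontrivial R] {V : UP} (h : V.coeff 0 = 1) (x : ℕ → R) : lead V x ≠ 0 := by
  rw [lead, Ne, Polynomial.leadingCoeff_eq_zero]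
  intro h0
  have := congrArg (fun p => Polynomial.coeff p 0) h0
  simp [h] at this

open Classical in
/-- the top coefficient of `∏ (1 + u i η)` is the product of the nonzero `u i` -/
theorem lead_prod [IsDomain R] {ι : Type} (s : Finset ι) (u : ι → MP) (x : ℕ → R) :
    lead (∏ i ∈ s, (1 + Polynomial.C (u i) * Polynomial.X)) x =
      ∏ i ∈ s.filter fun i => tx x (u i) ≠ 0, tx x (u i) := by
  have := leadingCoeff_prod_one_add s fun i => tx x (u i)
  refine Eq.trans ?_ (this.trans (by congr))
  simp [lead, Polynomial.map_prod]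

theorem map_lead {S : Type} [CommRing S] [Algebra ℚ S] (φ : R →ₐ[ℚ] S)
    (hφ : Function.Injective φ) (V : UP) (x : ℕ → R) :
    (lead V x).map φ.toRingHom = lead V fun i => φ (x i) := by
  have e : (tx fun i => φ (x i)).toRingHom =
      (Polynomial.mapRingHom φ.toRingHom).comp (tx x).toRingHom :=
    RingHom.ext fun P => (map_tx φ x P).symm
  rw [lead, lead, e, ← Polynomial.map_map]
  exact (Polynomial.leadingCoeff_map_of_injective (f := Polynomial.mapRingHom φ.toRingHom)
    (Polynomial.map_injective _ hφ) _).symm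

end Crest.Agent.R316
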