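import Crest.Agent.R316.Interp
import Crest.Agent.R316.Sem

/-!
Row 316: derived operations on `CHP`, `CHU`, `CHX`.

Families indexed by a variable number are given with the index in unary (`List Unit`), because
`CHP.X` needs a polynomially bounded index.
-/

set_option autoImplicit false

namespace Crest.Agent.R316

open Crest.Agent.Lib.PT MvPolynomial

variable {α β : Type} [Enc α] [Enc β]

protected theorem CHP.clamp {n : α → ℕ} {P : α → ℕ → MP} (hn : CHF n) (hb : PB n)
    (hP : CHP fun q : α × List Unit => P q.1 q.2.length) :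
    CHP fun q : α × ℕ => P q.1 (min q.2 (n q.1)) := by
  have h1 : CHF fun q : α × ℕ => List.replicate (min q.2 (n q.1)) () :=
    CHF.unary (by fun_prop) (by fun_prop)
  have h2 := hP.comp (g := fun q : α × ℕ => (q.1, List.replicate (min q.2 (n q.1)) ()))
    (CHF.pair (by fun_prop) h1)
  exact h2.congr fun q => by simp only [List.length_replicate]

protected theorem CHP.sum_pb {n : α → ℕ} {P : α → ℕ → MP} (hn : CHF n) (hb : PB n)
    (hP : CHP fun q : α × List Unit => P q.1 q.2.length) :
    CHP fun a => ∑ i ∈ Finset.range (n a), P a i := by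
  refine (CHP.sum (P := fun a i => P a (min i (n a))) hn (CHP.clamp hn hb hP)).congr fun a => ?_
  exact Finset.sum_congr rfl fun i hi => by rw [min_eq_left (Finset.mem_range.1 hi).le]

protected theorem CHP.prod_pb {n : α → ℕ} {P : α → ℕ → MP} (hn : CHF n) (hb : PB n)
    (hP : CHP fun q : α × List Unit => P q.1 q.2.length) :
    CHP fun a => ∏ i ∈ Finset.range (n a), P a i := by
  refine (CHP.prod (P := fun a i => P a (min i (n a))) hn (CHP.clamp hn hb hP)).congr fun a => ?_
  exact Finset.prod_congr rfl fun i hi => by rw [min_eq_left (Finset.mem_range.1 hi).le]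

/-- `CHP.linear` with `T d = ∏ Q i ^ d i` -/
protected theorem CHP.aeval {P : α → MP} {Q : α → ℕ → MP} (hP : CHP P)
    (hQ : CHP fun q : α × List Unit => Q q.1 q.2.length) :
    CHP fun a => (aeval (Q a) (P a) : MP) := by
  obtain ⟨m, hm, hmb, hs⟩ := hP.bound
  have h1 : CHP fun r : (α × List ℕ) × List Unit => Q r.1.1 r.2.length :=
    hQ.comp (g := fun r : (α × List ℕ) × List Unit => (r.1.1, r.2)) (by fun_prop)
  have h2 : CHP fun q : α × List ℕ =>
      ∏ i ∈ Finset.range (m q.1), Q q.1 i ^ q.2.getD i 0 :=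
    CHP.prod_pb (P := fun (q : α × List ℕ) i => Q q.1 i ^ q.2.getD i 0)
      (CHF.of_pt (by fun_prop)) (by fun_prop) (h1.pow (by fun_prop))
  refine (CHP.linear (T := fun a d => ∏ i ∈ Finset.range (m a), Q a i ^ d i) hP h2).congr
    fun a => ?_
  rw [aeval_def, eval₂_eq]
  refine Finset.sum_congr rfl fun d hd => ?_
  rw [Algebra.smul_def]
  congr 1
  refine Finset.prod_subset (fun i hi => ?_) fun i _ hi => ?_
  · rw [Finset.mem_range]
    by_contra h
    exact Finsupp.mem_support_iff.1 hi ((mem_box.1 (hs a hd)).1 i (not_lt.1 h))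
  · rw [Finsupp.notMem_support_iff.1 hi, pow_zero]

protected theorem CHP.rename {P : α → MP} {f : α → ℕ → ℕ} (hP : CHP P)
    (hf : CHF fun q : α × List Unit => f q.1 q.2.length)
    (hb : PB fun q : α × List Unit => f q.1 q.2.length) :
    CHP fun a => rename (f a) (P a) := by
  refine (CHP.aeval (Q := fun a i => X (f a i)) hP (CHP.X hf hb)).congr fun a => ?_
  rw [rename_eq_aeval]
  rfl
theorem Ops_toF_sub (l : List ℕ) (i : ℕ) :
    toF ((List.range l.length).map fun j => l.getD j 0 - if j = i then 1 else 0) =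
      toF l - Finsupp.single i 1 := by
  ext j
  rw [Finsupp.tsub_apply, toF_apply, toF_apply, Finsupp.single_apply]
  rcases lt_or_ge j l.length with h | h
  · rw [List.getD_eq_getElem _ _ (by simpa using h)]
    simp [eq_comm]
  · rw [List.getD_eq_default _ _ (by simpa using h), List.getD_eq_default _ _ h, Nat.zero_sub]


@[fun_prop] protected theorem CHP.pderiv {P : α → MP} {i : α → ℕ} (hi : CHF i) (hP : CHP P) :
    CHP fun a => pderiv (i a) (P a) := by
  have h1 : CHF fun q : α × List ℕ => (List.range q.2.length).map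
      fun j => q.2.getD j 0 - if j = i q.1 then 1 else 0 :=
    CHF.map (g := fun (q : α × List ℕ) j => q.2.getD j 0 - if j = i q.1 then 1 else 0)
      (CHF.range (by fun_prop) (by fun_prop)) (by fun_prop)
  have h2 : CHQ fun q : α × List ℕ => ((q.2.getD (i q.1) 0 : ℕ) : ℚ) :=
    CHQ.natCast (by fun_prop)
  have h3 : CHP fun q : α × List ℕ =>
      (monomial (toF q.2 - Finsupp.single (i q.1) 1) ((toF q.2 (i q.1) : ℕ) : ℚ) : MP) := by
    refine (CHP.monomial h1 h2).congr fun q => ?_
    rw [← Ops_toF_sub]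
    rfl
  refine (CHP.linear
    (T := fun a d => monomial (d - Finsupp.single (i a) 1) ((d (i a) : ℕ) : ℚ)) hP h3).congr
    fun a => ?_
  conv_lhs => rw [(P a).as_sum, map_sum]
  refine Finset.sum_congr rfl fun d _ => ?_
  rw [pderiv_monomial, smul_monomial, smul_eq_mul]

@[fun_prop] protected theorem CHP.monomial_shiftF {n : α → ℕ} {l : α → List ℕ} (hn : CHF n)
    (hl : CHF l) : CHP fun a => monomial (shiftF (n a) (toF (l a))) (1 : ℚ) := by
  refine (CHP.monomial (CHF.drop hn hl) (CHQ.const 1)).congr fun a => ?_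
  congr 2
  ext i
  simp [List.getD_eq_getElem?_getD, Nat.add_comm]

protected theorem CHP.pc {n : α → ℕ} {e : α → ℕ → ℕ} {P : α → MP} (hn : CHF n)
    (he : CHF fun q : α × ℕ => e q.1 q.2) (hP : CHP P) : CHP fun a => pc (n a) (e a) (P a) := by
  classical
  have h1 : CH fun q : α × List ℕ => ∀ i < n q.1, toF q.2 i = e q.1 i := by
    refine CH.ball (by fun_prop) (CH.eq ?_ ?_)
    · simp only [toF_apply]
      fun_prop
    · exact he.comp (f := fun r : (α × List ℕ) × ℕ => (r.1.1, r.2)) (by fun_prop)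
  have h2 : CHP fun q : α × List ℕ => monomial (shiftF (n q.1) (toF q.2)) (1 : ℚ) :=
    CHP.monomial_shiftF (by fun_prop) (by fun_prop)
  refine (CHP.linear (T := fun a d => if ∀ i < n a, d i = e a i then
    monomial (shiftF (n a) d) (1 : ℚ) else 0) hP (CHP.ite h1 h2 (CHP.const 0))).congr fun a => ?_
  unfold pc
  congr!

/-- the Vandermonde product of `w 0, ..., w (n - 1)` -/
noncomputable def Ops_vd (n : ℕ) (w : ℕ → ℕ) : ℚ :=
  ∏ i ∈ Finset.range n, ∏ j ∈ Finset.range n, if i < j then (w j : ℚ) - (w i : ℚ) else 1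

theorem Ops_vd_eq (n : ℕ) (w : ℕ → ℕ) :
    (Matrix.vandermonde fun i : Fin n => (C (w i : ℚ) : MP)).det = C (Ops_vd n w) := by
  rw [Matrix.det_vandermonde, Ops_vd, Finset.prod_range, map_prod]
  refine Finset.prod_congr rfl fun i _ => ?_
  rw [Finset.prod_range (fun j => if (i : ℕ) < j then (w j : ℚ) - (w i : ℚ) else 1),
    ← Finset.prod_filter, map_prod]
  refine Finset.prod_congr ?_ fun j _ => by rw [map_sub]
  ext j
  simp

theorem Ops_vd_ne_zero (n : ℕ) : Ops_vd n (fun i => i) ≠ 0 := by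
  refine Finset.prod_ne_zero_iff.2 fun i _ => Finset.prod_ne_zero_iff.2 fun j _ => ?_
  split_ifs with h
  · exact sub_ne_zero.2 (by exact_mod_cast h.ne')
  · exact one_ne_zero

theorem Ops_det_mul {R : Type} [CommRing R] {n : ℕ} (M V : Matrix (Fin n) (Fin n) R) :
    (M * V).det = ∑ φ : Fin n → Fin n, (∏ i, M i (φ i)) * (V.submatrix φ id).det := by
  rw [← Matrix.det_transpose]
  simp only [← Matrix.det_transpose (V.submatrix _ id)]
  simp only [Matrix.det_apply', Matrix.transpose_apply, Matrix.mul_apply, Finset.prod_univ_sum,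
    Finset.mul_sum, Fintype.piFinset_univ, Matrix.submatrix_apply, id]
  rw [Finset.sum_comm]
  refine Finset.sum_congr rfl fun φ _ => Finset.sum_congr rfl fun σ _ => ?_
  rw [Finset.prod_mul_distrib]
  ring

theorem Ops_sum_box {A : Type} [AddCommMonoid A] (n : ℕ) (F : (ℕ →₀ ℕ) → A)
    (G : (Fin n → Fin n) → A)
    (h : ∀ (d : ℕ →₀ ℕ) (φ : Fin n → Fin n), (∀ i : Fin n, d i = φ i) → F d = G φ) :
    ∑ d ∈ box n n, F d = ∑ φ, G φ := by
  refine Finset.sum_bij (fun d hd i => ⟨d i, (mem_box.1 hd).2 i i.2⟩) (fun _ _ => Finset.mem_univ _)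
    (fun d hd d' hd' e => ?_) (fun φ _ => ?_) (fun d hd => h _ _ fun i => rfl)
  · ext i
    rcases lt_or_ge i n with hi | hi
    · exact congrArg Fin.val (congrFun e ⟨i, hi⟩)
    · rw [(mem_box.1 hd).1 i hi, (mem_box.1 hd').1 i hi]
  · have e : ∀ i : Fin n, toF (List.ofFn fun i => (φ i : ℕ)) i = φ i := fun i => by
      rw [toF_apply, List.getD_eq_getElem _ _ (by simp)]
      simp
    refine ⟨toF (List.ofFn fun i => (φ i : ℕ)), mem_box.2 ⟨fun i hi => ?_, fun i hi => ?_⟩, ?_⟩
    · rw [toF_apply, List.getD_eq_default _ _ (by simpa using hi)]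
    · exact (e ⟨i, hi⟩).trans_lt (φ _).2
    · funext i
      exact Fin.ext (e i)

theorem Ops_det_eq (n : ℕ) (M : ℕ → ℕ → MP) :
    (Matrix.of fun i j : Fin n => M i j).det = (Ops_vd n fun i => i)⁻¹ •
      ∑ d ∈ box n n, Ops_vd n d • ∏ i ∈ Finset.range n, M i (min (d i) n) := by
  have h := Ops_det_mul (Matrix.of fun i j : Fin n => M i j)
    (Matrix.vandermonde fun i : Fin n => (C ((i : ℕ) : ℚ) : MP))
  rw [Matrix.det_mul, Ops_vd_eq n (fun i => i), ← Ops_sum_box n
    (fun d => Ops_vd n d • ∏ i ∈ Finset.range n, M i (min (d i) n))] at h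
  · rw [← h, mul_comm, C_mul', inv_smul_smul₀ (Ops_vd_ne_zero n)]
  · intro d φ hd
    have e : (Matrix.vandermonde fun i : Fin n => (C ((i : ℕ) : ℚ) : MP)).submatrix φ id =
        Matrix.vandermonde fun i : Fin n => (C ((d i : ℕ) : ℚ) : MP) := by
      ext i j : 2
      simp only [Matrix.submatrix_apply, Matrix.vandermonde_apply, hd, id]
    rw [e, Ops_vd_eq n d, mul_comm, C_mul', Finset.prod_range]
    congr 1
    refine Finset.prod_congr rfl fun i _ => ?_
    rw [hd, min_eq_left (φ i).2.le, Matrix.of_apply]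

/-- `det M = ∑_{φ : Fin n → Fin n} det (1 (φ i) j) * ∏ M i (φ i)` (multilinearity, or
`M = M * 1` in `Matrix.det_mul`'s proof); the integer determinant is `PT.int_det`; alternatively
sum over the box the sign of the digit list, defined as `0` or `(-1) ^ inversions`. -/
protected theorem CHP.det {n : α → ℕ} {M : α → ℕ → ℕ → MP} (hn : CHF n) (hb : PB n)
    (hM : CHP fun q : α × List Unit × List Unit => M q.1 q.2.1.length q.2.2.length) :
    CHP fun a => (Matrix.of fun i j : Fin (n a) => M a i j).det := by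
  have hv : ∀ {γ : Type} [Enc γ] {k : γ → ℕ} {w : γ → ℕ → ℕ}, CHF k →
      (CHF fun q : γ × ℕ => w q.1 q.2) → CHQ fun c => Ops_vd (k c) (w c) := by
    intro γ _ k w hk hw
    unfold Ops_vd
    refine CHQ.prod hk (CHQ.prod (by fun_prop) (CHQ.ite (by fun_prop) (CHQ.sub ?_ ?_)
      (CHQ.const 1)))
    · exact CHQ.natCast (hw.comp (f := fun r : (γ × ℕ) × ℕ => (r.1.1, r.2)) (by fun_prop))
    · exact CHQ.natCast (hw.comp (f := fun r : (γ × ℕ) × ℕ => r.1) (by fun_prop))
  have h1 : CHF fun r : (α × List ℕ) × List Unit =>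
      List.replicate (min (r.1.2.getD r.2.length 0) (n r.1.1)) () :=
    CHF.unary (by fun_prop) (by fun_prop)
  have h2 : CHP fun r : (α × List ℕ) × List Unit =>
      M r.1.1 r.2.length (min (r.1.2.getD r.2.length 0) (n r.1.1)) := by
    refine (hM.comp (g := fun r : (α × List ℕ) × List Unit => (r.1.1, r.2,
      List.replicate (min (r.1.2.getD r.2.length 0) (n r.1.1)) ()))
      (CHF.pair (by fun_prop) (CHF.pair (by fun_prop) h1))).congr fun r => ?_
    simp only [List.length_replicate]
  have h3 : CHP fun q : α × List ℕ =>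
      ∏ i ∈ Finset.range (n q.1), M q.1 i (min (q.2.getD i 0) (n q.1)) :=
    CHP.prod_pb (P := fun (q : α × List ℕ) i => M q.1 i (min (q.2.getD i 0) (n q.1)))
      (by fun_prop) (by fun_prop) h2
  have h4 : CHQ fun q : α × List ℕ => Ops_vd (n q.1) (toF q.2) :=
    hv (k := fun q : α × List ℕ => n q.1) (w := fun q i => q.2.getD i 0) (by fun_prop)
      (by fun_prop)
  have h5 := CHP.sum_box (K := n) (T := fun a d =>
    Ops_vd (n a) d • ∏ i ∈ Finset.range (n a), M a i (min (d i) (n a))) hn hb hn (CHP.smul h4 h3)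
  have h6 : CHQ fun a => (Ops_vd (n a) fun i => i)⁻¹ :=
    (hv (w := fun _ i => i) hn (by fun_prop)).inv
  exact (CHP.smul h6 h5).congr fun a => Ops_det_eq (n a) (M a)

end Crest.Agent.R316
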