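import Crest.Agent.R316.Ops

/-! Row 316: operations on `CHU`, `CHX`; Newton sums, tuples, residues. -/

set_option autoImplicit false

namespace Crest.Agent.R316

open Crest.Agent.Lib.PT MvPolynomial

variable {α β : Type} [Enc α] [Enc β]

theorem opsu_natDegree_toU (P : MP) : (toU P).natDegree ≤ P.totalDegree := by
  refine Polynomial.natDegree_le_iff_coeff_eq_zero.mpr fun N hN => ?_
  rw [coeff_toU, pc]
  refine Finset.sum_eq_zero fun d hd => ?_
  rw [if_neg, smul_zero]
  intro h
  have h1 := h 0 one_pos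
  have h2 := (monomial_le_degreeOf 0 hd).trans (degreeOf_le_totalDegree P 0)
  omega

theorem opsu_natDegree_eq {R : Type} [Semiring R] {p : Polynomial R} {B : ℕ} (h : p.natDegree ≤ B)
    {P : ℕ → Prop} [DecidablePred P] (hP : ∀ k, P k ↔ p.coeff k ≠ 0) :
    p.natDegree = Nat.findGreatest P B := by
  refine (Nat.findGreatest_eq_iff.mpr ⟨h, fun h0 => (hP _).mpr ?_, fun n hn _ hn' => ?_⟩).symm
  · exact Polynomial.leadingCoeff_ne_zero.mpr fun h1 => h0 (by simp [h1])
  · exact (hP n).mp hn' (Polynomial.coeff_eq_zero_of_natDegree_lt hn)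

theorem opsu_natCast {n : α → ℕ} (hn : CHF n) : CHP fun a => (n a : MP) :=
  (CHP.C (CHQ.natCast hn)).congr fun _ => (map_natCast (C : ℚ →+* MP) _).symm

/-! ### one distinguished variable -/

protected theorem CHU.congr {F G : α → UP} (h : CHU G) (e : ∀ a, F a = G a) : CHU F := by
  rwa [show F = G from funext e]

@[fun_prop] protected theorem CHP.ofU {F : α → UP} (h : CHU F) : CHP fun a => ofU (F a) := h

@[fun_prop] protected theorem CHU.toU {P : α → MP} (h : CHP P) : CHU fun a => toU (P a) := by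
  exact CHP.congr h fun a => ofU_toU _

@[fun_prop] protected theorem CHU.comp {F : β → UP} {g : α → β} (h : CHU F) (hg : CHF g) :
    CHU fun a => F (g a) := by
  exact CHP.comp (P := fun b => ofU (F b)) h hg

@[fun_prop] protected theorem CHU.const (F : UP) : CHU fun _ : α => F := by
  exact CHP.const _

@[fun_prop] protected theorem CHU.C {P : α → MP} (h : CHP P) :
    CHU fun a => Polynomial.C (P a) := by
  exact (CHP.rename (f := fun _ => Nat.succ) h (by fun_prop) (by fun_prop)).congr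
    fun a => ofU_C _

@[fun_prop] protected theorem CHU.add {F G : α → UP} (hF : CHU F) (hG : CHU G) :
    CHU fun a => F a + G a := by
  exact (CHP.add hF hG).congr fun a => map_add ofU _ _

@[fun_prop] protected theorem CHU.neg {F : α → UP} (hF : CHU F) : CHU fun a => -F a := by
  exact (CHP.neg hF).congr fun a => map_neg ofU _

@[fun_prop] protected theorem CHU.sub {F G : α → UP} (hF : CHU F) (hG : CHU G) :
    CHU fun a => F a - G a := by
  exact (CHP.sub hF hG).congr fun a => map_sub ofU _ _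

@[fun_prop] protected theorem CHU.mul {F G : α → UP} (hF : CHU F) (hG : CHU G) :
    CHU fun a => F a * G a := by
  exact (CHP.mul hF hG).congr fun a => map_mul ofU _ _

@[fun_prop] protected theorem CHU.smul {c : α → ℚ} {F : α → UP} (hc : CHQ c) (hF : CHU F) :
    CHU fun a => c a • F a := by
  exact (CHP.smul hc hF).congr fun a => map_smul ofU _ _

@[fun_prop] protected theorem CHU.pow {F : α → UP} {e : α → ℕ} (hF : CHU F) (he : CHF e) :
    CHU fun a => F a ^ e a := by
  exact (CHP.pow hF he).congr fun a => map_pow ofU _ _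

@[fun_prop] protected theorem CHU.ite {c : α → Prop} [∀ a, Decidable (c a)] {F G : α → UP}
    (hc : CH c) (hF : CHU F) (hG : CHU G) : CHU fun a => if c a then F a else G a := by
  exact (CHP.ite hc hF hG).congr fun a => apply_ite ofU _ _ _

@[fun_prop] protected theorem CHU.sum {N : α → ℕ} {F : α → ℕ → UP} (hN : CHF N)
    (hF : CHU fun q : α × ℕ => F q.1 q.2) : CHU fun a => ∑ y ∈ Finset.range (N a), F a y := by
  exact (CHP.sum (P := fun a y => ofU (F a y)) hN hF).congr fun a => map_sum ofU _ _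

@[fun_prop] protected theorem CHU.prod {N : α → ℕ} {F : α → ℕ → UP} (hN : CHF N)
    (hF : CHU fun q : α × ℕ => F q.1 q.2) : CHU fun a => ∏ y ∈ Finset.range (N a), F a y := by
  exact (CHP.prod (P := fun a y => ofU (F a y)) hN hF).congr fun a => map_prod ofU _ _

@[fun_prop] protected theorem CHU.monomial {k : α → ℕ} {P : α → MP} (hk : CHF k) (hP : CHP P) :
    CHU fun a => Polynomial.monomial (k a) (P a) := by
  exact ((CHU.C hP).mul ((CHU.const Polynomial.X).pow hk)).congr
    fun a => Polynomial.C_mul_X_pow_eq_monomial.symm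

/-- `coeff_toU` -/
@[fun_prop] protected theorem CHP.coeffU {F : α → UP} {k : α → ℕ} (hF : CHU F) (hk : CHF k) :
    CHP fun a => (F a).coeff (k a) := by
  refine (CHP.pc (n := fun _ => 1) (e := fun a _ => k a) (CHF.const 1) (by fun_prop) hF).congr
    fun a => ?_
  rw [← coeff_toU, toU_ofU]

protected theorem CHU.natDegree_le {F : α → UP} (hF : CHU F) :
    ∃ B : α → ℕ, CHF B ∧ ∀ a, (F a).natDegree ≤ B a := by
  obtain ⟨B, hB, h⟩ := CHP.totalDegree_le hF
  refine ⟨B, hB, fun a => le_trans ?_ (h a)⟩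
  have := opsu_natDegree_toU (ofU (F a))
  rwa [toU_ofU] at this

protected theorem CHU.of_coeff {F : α → UP} {B : α → ℕ} (hB : CHF B)
    (hd : ∀ a, (F a).natDegree ≤ B a) (h : CHP fun q : α × ℕ => (F q.1).coeff q.2) : CHU F := by
  refine (CHU.sum (N := fun a => B a + 1)
    (F := fun a y => Polynomial.monomial y ((F a).coeff y)) (by fun_prop)
    (CHU.monomial (by fun_prop) h)).congr fun a => ?_
  exact Polynomial.as_sum_range' _ _ (Nat.lt_succ_of_le (hd a))

@[fun_prop] protected theorem CHU.derivative {F : α → UP} (hF : CHU F) :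
    CHU fun a => Polynomial.derivative (F a) := by
  obtain ⟨B, hB, h⟩ := hF.natDegree_le
  refine CHU.of_coeff hB (fun a => ((Polynomial.natDegree_derivative_le _).trans
    (Nat.sub_le _ _)).trans (h a)) ?_
  have h1 : CHP fun q : α × ℕ => (F q.1).coeff (q.2 + 1) * ((q.2 + 1 : ℕ) : MP) :=
    CHP.mul (by fun_prop) (opsu_natCast (by fun_prop))
  exact h1.congr fun q => by rw [Polynomial.coeff_derivative, Nat.cast_succ]

@[fun_prop] protected theorem CHU.reflect {F : α → UP} {d : α → ℕ} (hd : CHF d) (hF : CHU F) :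
    CHU fun a => Polynomial.reflect (d a) (F a) := by
  obtain ⟨B, hB, h⟩ := hF.natDegree_le
  refine CHU.of_coeff (hd.max hB) (fun a => Polynomial.natDegree_reflect_le.trans
    (max_le_max le_rfl (h a))) ?_
  have h1 : CHP fun q : α × ℕ => (F q.1).coeff (if q.2 ≤ d q.1 then d q.1 - q.2 else q.2) := by
    fun_prop
  exact h1.congr fun q => by rw [Polynomial.coeff_reflect]; rfl

/-! ### rational coefficients -/

protected theorem CHX.congr {F G : α → Polynomial ℚ} (h : CHX G) (e : ∀ a, F a = G a) :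
    CHX F := by
  rwa [show F = G from funext e]

@[fun_prop] protected theorem CHU.mapC {G : α → Polynomial ℚ} (h : CHX G) :
    CHU fun a => (G a).map (C : ℚ →+* MP) := h

@[fun_prop] protected theorem CHX.comp {F : β → Polynomial ℚ} {g : α → β} (h : CHX F)
    (hg : CHF g) : CHX fun a => F (g a) := by
  exact CHU.comp (F := fun b => (F b).map (C : ℚ →+* MP)) h hg

@[fun_prop] protected theorem CHX.const (F : Polynomial ℚ) : CHX fun _ : α => F := by
  exact CHU.const _

@[fun_prop] protected theorem CHQ.coeffX {G : α → Polynomial ℚ} {k : α → ℕ} (hG : CHX G)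
    (hk : CHF k) : CHQ fun a => (G a).coeff (k a) := by
  refine (CHQ.constantCoeff (CHP.coeffU hG hk)).congr fun a => ?_
  rw [Polynomial.coeff_map, constantCoeff_C]

protected theorem CHX.natDegree_le {G : α → Polynomial ℚ} (hG : CHX G) :
    ∃ B : α → ℕ, CHF B ∧ ∀ a, (G a).natDegree ≤ B a := by
  obtain ⟨B, hB, h⟩ := CHU.natDegree_le hG
  refine ⟨B, hB, fun a => le_of_eq_of_le ?_ (h a)⟩
  exact (Polynomial.natDegree_map_eq_of_injective (C_injective ℕ ℚ) _).symm

protected theorem CHX.of_coeff {G : α → Polynomial ℚ} {B : α → ℕ} (hB : CHF B)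
    (hd : ∀ a, (G a).natDegree ≤ B a) (h : CHQ fun q : α × ℕ => (G q.1).coeff q.2) : CHX G := by
  refine CHU.of_coeff hB (fun a => Polynomial.natDegree_map_le.trans (hd a)) ?_
  exact (CHP.C h).congr fun q => Polynomial.coeff_map _ _

@[fun_prop] protected theorem CHF.natDegree {G : α → Polynomial ℚ} (hG : CHX G) :
    CHF fun a => (G a).natDegree := by
  classical
  obtain ⟨B, hB, h⟩ := hG.natDegree_le
  refine (CHF.findGreatest (B := fun a k => ¬ (G a).coeff k = 0) hB
    (CH.qeq (by fun_prop) (CHQ.const 0)).not).congr fun a => ?_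
  exact opsu_natDegree_eq (h a) fun k => Iff.rfl

@[fun_prop] protected theorem CHQ.leadingCoeff {G : α → Polynomial ℚ} (hG : CHX G) :
    CHQ fun a => (G a).leadingCoeff := by
  exact CHQ.coeffX hG (CHF.natDegree hG)

protected theorem CH.xeq_zero {G : α → Polynomial ℚ} (hG : CHX G) : CH fun a => G a = 0 := by
  exact (CH.qeq (CHQ.leadingCoeff hG) (CHQ.const 0)).congr
    fun a => Polynomial.leadingCoeff_eq_zero.symm

@[fun_prop] protected theorem CHX.mul {F G : α → Polynomial ℚ} (hF : CHX F) (hG : CHX G) :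
    CHX fun a => F a * G a := by
  exact (CHU.mul hF hG).congr fun a => Polynomial.map_mul _

@[fun_prop] protected theorem CHX.smul {c : α → ℚ} {G : α → Polynomial ℚ} (hc : CHQ c)
    (hG : CHX G) : CHX fun a => c a • G a := by
  obtain ⟨B, hB, h⟩ := hG.natDegree_le
  refine CHX.of_coeff hB (fun a => (Polynomial.natDegree_smul_le _ _).trans (h a)) ?_
  have h1 : CHQ fun q : α × ℕ => c q.1 * (G q.1).coeff q.2 := by fun_prop
  exact h1.congr fun q => by rw [Polynomial.coeff_smul, smul_eq_mul]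

/-- `Polynomial.coeff_iterate_derivative` -/
protected theorem CHX.iterate_derivative {G : α → Polynomial ℚ} {k : α → ℕ} (hG : CHX G)
    (hk : CHF k) : CHX fun a => Polynomial.derivative^[k a] (G a) := by
  obtain ⟨B, hB, h⟩ := hG.natDegree_le
  refine CHX.of_coeff hB (fun a => ((Polynomial.natDegree_iterate_derivative _ _).trans
    (Nat.sub_le _ _)).trans (h a)) ?_
  have h1 : CHQ fun q : α × ℕ => (∏ i ∈ Finset.range (k q.1), ((q.2 + k q.1 - i : ℕ) : ℚ)) *
      (G q.1).coeff (q.2 + k q.1) :=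
    CHQ.mul (CHQ.prod (by fun_prop) (CHQ.natCast (by fun_prop))) (by fun_prop)
  refine h1.congr fun q => ?_
  rw [Polynomial.coeff_iterate_derivative, Nat.descFactorial_eq_prod_range, nsmul_eq_mul,
    Nat.cast_prod]

@[fun_prop] protected theorem CHX.ev0 {F : α → UP} (hF : CHU F) :
    CHX fun a => ev (0 : ℕ → ℚ) (F a) := by
  obtain ⟨B, hB, h⟩ := hF.natDegree_le
  refine CHX.of_coeff hB (fun a => Polynomial.natDegree_map_le.trans (h a)) ?_
  have h1 : CHQ fun q : α × ℕ => constantCoeff ((F q.1).coeff q.2) := by fun_prop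
  exact h1.congr fun q => by rw [ev_coeff, aeval_zero]; rfl

@[fun_prop] protected theorem CHX.tx0 {P : α → MP} (hP : CHP P) :
    CHX fun a => tx (0 : ℕ → ℚ) (P a) := by
  exact (CHX.ev0 (CHU.toU hP)).congr fun a => (ev_toU _ _).symm

@[fun_prop] protected theorem CHP.aevalX {G : α → Polynomial ℚ} {P : α → MP} (hG : CHX G)
    (hP : CHP P) : CHP fun a => Polynomial.aeval (P a) (G a) := by
  obtain ⟨B, hB, h⟩ := hG.natDegree_le
  have h1 : CHP fun a => ∑ i ∈ Finset.range (B a + 1), (G a).coeff i • P a ^ i := by fun_prop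
  exact h1.congr fun a => Polynomial.aeval_eq_sum_range' (Nat.lt_succ_of_le (h a)) _

/-- the degree in the distinguished variable is the greatest `l` with `tx 0 (coeff l) ≠ 0` -/
@[fun_prop] protected theorem CHX.lead0 {V : α → UP} (hV : CHU V) :
    CHX fun a => lead (V a) (0 : ℕ → ℚ) := by
  classical
  obtain ⟨B, hB, h⟩ := hV.natDegree_le
  have h1 : CHF fun a => Nat.findGreatest (fun l => ¬ tx (0 : ℕ → ℚ) ((V a).coeff l) = 0) (B a) :=
    CHF.findGreatest (B := fun a l => ¬ tx (0 : ℕ → ℚ) ((V a).coeff l) = 0) hB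
      (CH.xeq_zero (by fun_prop)).not
  refine (CHX.tx0 (CHP.coeffU hV h1)).congr fun a => ?_
  rw [lead, Polynomial.leadingCoeff, Polynomial.coeff_map,
    opsu_natDegree_eq (Polynomial.natDegree_map_le.trans (h a))
      (P := fun l => ¬ tx (0 : ℕ → ℚ) ((V a).coeff l) = 0) fun k => by
        rw [Polynomial.coeff_map]; rfl]
  rfl

/-! ### Newton, tuples, residues -/

@[fun_prop] protected theorem CHU.texp {K : α → ℕ} {G : α → UP} (hK : CHF K) (hG : CHU G) :
    CHU fun a => texp (K a) (G a) := by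
  unfold texp
  exact CHU.sum (by fun_prop) (CHU.smul (CHQ.inv (CHQ.factorial (by fun_prop))) (by fun_prop))

protected theorem CHU.ofPS {M : α → ℕ} {π : α → ℕ → MP} (hM : CHF M)
    (hπ : CHP fun q : α × ℕ => π q.1 q.2) : CHU fun a => ofPS (M a) (π a) := by
  unfold ofPS
  have h1 : CHQ fun q : α × ℕ => ((-1) ^ q.2 / ((q.2 : ℚ) + 1) : ℚ) :=
    CHQ.div (CHQ.pow (CHQ.const _) (by fun_prop))
      (CHQ.add (CHQ.natCast (by fun_prop)) (CHQ.const _))
  have h2 : CHP fun q : α × ℕ => π q.1 (q.2 + 1) :=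
    hπ.comp (g := fun q : α × ℕ => (q.1, q.2 + 1)) (by fun_prop)
  have h3 := CHU.texp hM (CHU.sum
    (F := fun a j => Polynomial.monomial (j + 1) ((((-1) ^ j / ((j : ℚ) + 1)) : ℚ) • π a (j + 1)))
    hM (CHU.monomial (by fun_prop) (CHP.smul h1 h2)))
  exact CHU.sum (by fun_prop) (CHU.monomial (by fun_prop)
    (CHP.coeffU (h3.comp (g := fun q : α × ℕ => q.1) (by fun_prop)) (by fun_prop)))

@[fun_prop] protected theorem CHP.psum {F : α → UP} {d e : α → ℕ} (hF : CHU F) (hd : CHF d)
    (he : CHF e) : CHP fun a => psum (F a) (d a) (e a) := by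
  unfold psum
  have h1 := CHU.reflect hd hF
  have h2 : CHU fun q : α × ℕ => (1 - Polynomial.reflect (d q.1) (F q.1)) ^ q.2 :=
    CHU.pow (((CHU.const 1).sub h1).comp (g := fun q : α × ℕ => q.1) (by fun_prop)) (by fun_prop)
  exact CHP.coeffU ((CHU.C (opsu_natCast hd)).sub (((CHU.const _).mul h1.derivative).mul
    (CHU.sum (by fun_prop) h2))) he

protected theorem CHP.tupSum {n : α → ℕ} {F : α → ℕ → UP} {d : α → ℕ → ℕ} {W : α → MP}
    (hn : CHF n) (hF : CHU fun q : α × ℕ => F q.1 q.2) (hd : CHF fun q : α × ℕ => d q.1 q.2)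
    (hW : CHP W) : CHP fun a => tupSum (n a) (F a) (d a) (W a) := by
  unfold tupSum
  refine CHP.linear (T := fun a e => (∏ i ∈ Finset.range (n a), psum (F a i) (d a i) (e i)) *
    monomial (shiftF (n a) e) (1 : ℚ)) hW ?_
  refine CHP.mul (CHP.prod (by fun_prop) (CHP.psum ?_ ?_ ?_)) (by fun_prop)
  · exact hF.comp (g := fun q : (α × List ℕ) × ℕ => (q.1.1, q.2)) (by fun_prop)
  · exact hd.comp (f := fun q : (α × List ℕ) × ℕ => (q.1.1, q.2)) (by fun_prop)
  · simp only [toF_apply]
    fun_prop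

protected theorem CHU.tupProd {n : α → ℕ} {F : α → ℕ → UP} {d : α → ℕ → ℕ} {W : α → MP}
    (hn : CHF n) (hb : PB n) (hF : CHU fun q : α × ℕ => F q.1 q.2)
    (hd : CHF fun q : α × ℕ => d q.1 q.2) (hW : CHP W) :
    CHU fun a => tupProd (n a) (F a) (d a) (W a) := by
  unfold tupProd
  refine CHU.ofPS (CHF.prod_range hn hb hd) (CHP.tupSum (by fun_prop) ?_ ?_ (by fun_prop))
  · exact hF.comp (g := fun q : (α × ℕ) × ℕ => (q.1.1, q.2)) (by fun_prop)
  · exact hd.comp (f := fun q : (α × ℕ) × ℕ => (q.1.1, q.2)) (by fun_prop)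

protected theorem CHP.rhoP {n D K : α → ℕ} {g : α → ℕ → MP} {h : α → MP} (hn : CHF n) (hb : PB n)
    (hD : CHF D) (hK : CHF K) (hg : CHP fun q : α × ℕ => g q.1 q.2) (hh : CHP h) :
    CHP fun a => rhoP (n a) (D a) (K a) (g a) (h a) := by
  unfold rhoP
  refine CHP.sum_box (T := fun a k => pc (n a) (fun j => (k j + 1) * D a - 1)
    (h a * ∏ j ∈ Finset.range (n a), g a j ^ k j)) hn hb (by fun_prop) ?_
  simp only [toF_apply]
  refine CHP.pc (by fun_prop) (by fun_prop) (CHP.mul (by fun_prop)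
    (CHP.prod (by fun_prop) (CHP.pow ?_ (by fun_prop))))
  exact hg.comp (g := fun q : (α × List ℕ) × ℕ => (q.1.1, q.2)) (by fun_prop)

protected theorem CHP.jacP {n D : α → ℕ} {g : α → ℕ → MP} (hn : CHF n) (hb : PB n) (hD : CHF D)
    (hg : CHP fun q : α × ℕ => g q.1 q.2) : CHP fun a => jacP (n a) (D a) (g a) := by
  unfold jacP
  refine CHP.det (M := fun a i j => pderiv j (X i ^ D a - g a i)) hn hb ?_
  refine CHP.pderiv (by fun_prop) (CHP.sub (CHP.pow (CHP.X (by fun_prop) (by fun_prop))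
    (by fun_prop)) ?_)
  exact hg.comp (g := fun q : α × List Unit × List Unit => (q.1, q.2.1.length)) (by fun_prop)

protected theorem CHU.elimP {n D M K j : α → ℕ} {g : α → ℕ → MP} (hn : CHF n) (hb : PB n)
    (hD : CHF D) (hM : CHF M) (hK : CHF K) (hj : CHF j) (hjb : PB j)
    (hg : CHP fun q : α × ℕ => g q.1 q.2) :
    CHU fun a => elimP (n a) (D a) (M a) (K a) (g a) (j a) := by
  unfold elimP
  refine CHU.reflect hM (CHU.ofPS hM (CHP.mul (by fun_prop) ?_))
  have hg' : CHP fun q : (α × ℕ) × ℕ => g q.1.1 q.2 :=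
    hg.comp (g := fun q : (α × ℕ) × ℕ => (q.1.1, q.2)) (by fun_prop)
  have hJ := CHP.jacP hn hb hD hg
  exact CHP.rhoP (g := fun q : α × ℕ => g q.1) (by fun_prop) (by fun_prop) (by fun_prop)
    (by fun_prop) hg' (CHP.mul (CHP.pow (CHP.X (by fun_prop) (by fun_prop)) (by fun_prop))
      (hJ.comp (g := fun q : α × ℕ => q.1) (by fun_prop)))

example {F : α → UP} {P : α × ℕ → MP} {n : α → ℕ} (hF : CHU F) (hP : CHP P) (hn : CHF n)
    (hb : PB n) : CHU fun a => ∏ j ∈ Finset.range (n a + 1),
      (1 + Polynomial.C ((F a).coeff j ^ 2 * X (n a + 1) - P (a, j)) * Polynomial.X) := by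
  fun_prop

end Crest.Agent.R316
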