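import Crest.Agent.R316.OpsU
import Crest.Agent.R316.Real

/-! Row 316: rational functions with positive denominators, the gap lemma and the parity oracle. -/

set_option autoImplicit false

namespace Crest.Agent.R316

open Crest.Agent.Lib.PT MvPolynomial

variable {α β : Type} [Enc α] [Enc β]

protected theorem CHR.congr {f g : α → (ℕ → ℝ) → ℝ} (h : CHR g) (e : ∀ a y, f a y = g a y) :
    CHR f := by
  rwa [show f = g from funext fun a => funext (e a)]

protected theorem CHR.comp {f : β → (ℕ → ℝ) → ℝ} {g : α → β} (h : CHR f) (hg : CHF g) :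
    CHR fun a => f (g a) := by
  obtain ⟨N, D, hN, hD, h⟩ := h
  exact ⟨_, _, hN.comp hg, hD.comp hg, fun a => h (g a)⟩

protected theorem CHR.poly {P : α → MP} (h : CHP P) : CHR fun a y => aeval y (P a) := by
  exact ⟨P, fun _ => 1, h, CHP.const 1, fun a y => by simp⟩

protected theorem CHR.rat {c : α → ℚ} (h : CHQ c) : CHR fun a _ => (c a : ℝ) := by
  refine (CHR.poly (CHP.C h)).congr fun a y => ?_
  simp

protected theorem CHR.add {f g : α → (ℕ → ℝ) → ℝ} (hf : CHR f) (hg : CHR g) :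
    CHR fun a y => f a y + g a y := by
  obtain ⟨N, D, hN, hD, h⟩ := hf
  obtain ⟨N', D', hN', hD', h'⟩ := hg
  refine ⟨_, _, (hN.mul hD').add (hN'.mul hD), hD.mul hD', fun a y => ?_⟩
  have h1 := (h a y).1
  have h2 := (h' a y).1
  simp only [map_mul, map_add]
  refine ⟨mul_pos h1 h2, ?_⟩
  rw [(h a y).2, (h' a y).2]
  field_simp

protected theorem CHR.sub {f g : α → (ℕ → ℝ) → ℝ} (hf : CHR f) (hg : CHR g) :
    CHR fun a y => f a y - g a y := by
  obtain ⟨N, D, hN, hD, h⟩ := hf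
  obtain ⟨N', D', hN', hD', h'⟩ := hg
  refine ⟨_, _, (hN.mul hD').sub (hN'.mul hD), hD.mul hD', fun a y => ?_⟩
  have h1 := (h a y).1
  have h2 := (h' a y).1
  simp only [map_mul, map_sub]
  refine ⟨mul_pos h1 h2, ?_⟩
  rw [(h a y).2, (h' a y).2]
  field_simp

protected theorem CHR.mul {f g : α → (ℕ → ℝ) → ℝ} (hf : CHR f) (hg : CHR g) :
    CHR fun a y => f a y * g a y := by
  obtain ⟨N, D, hN, hD, h⟩ := hf
  obtain ⟨N', D', hN', hD', h'⟩ := hg
  refine ⟨_, _, hN.mul hN', hD.mul hD', fun a y => ?_⟩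
  have h1 := (h a y).1
  have h2 := (h' a y).1
  simp only [map_mul]
  refine ⟨mul_pos h1 h2, ?_⟩
  rw [(h a y).2, (h' a y).2]
  field_simp

protected theorem CHR.sq {f : α → (ℕ → ℝ) → ℝ} (hf : CHR f) : CHR fun a y => f a y ^ 2 := by
  exact (hf.mul hf).congr fun a y => sq _

/-- common denominator `∏ Dn`, numerator `∑ i, N i * ∏ j, if j = i then 1 else Dn j` -/
protected theorem CHR.sum {N : α → ℕ} {f : α → ℕ → (ℕ → ℝ) → ℝ} (hN : CHF N)
    (hf : CHR fun q : α × ℕ => f q.1 q.2) :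
    CHR fun a y => ∑ i ∈ Finset.range (N a), f a i y := by
  obtain ⟨A, D, hA, hD, h⟩ := hf
  have h1 : CHP fun a => ∏ j ∈ Finset.range (N a), D (a, j) :=
    CHP.prod (P := fun a j => D (a, j)) hN hD
  have h2 : CHP fun q : α × ℕ =>
      ∏ j ∈ Finset.range (N q.1), if j = q.2 then (1 : MP) else D (q.1, j) := by
    refine CHP.prod (P := fun (q : α × ℕ) j => if j = q.2 then (1 : MP) else D (q.1, j))
      (by fun_prop) ?_
    exact CHP.ite (by fun_prop) (CHP.const 1) (hD.comp (by fun_prop))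
  have h3 : CHP fun a => ∑ i ∈ Finset.range (N a),
      A (a, i) * ∏ j ∈ Finset.range (N a), if j = i then (1 : MP) else D (a, j) :=
    CHP.sum (P := fun a i => A (a, i) * ∏ j ∈ Finset.range (N a),
      if j = i then (1 : MP) else D (a, j)) hN (hA.mul h2)
  refine ⟨_, _, h3, h1, fun a y => ?_⟩
  have h4 : 0 < aeval y (∏ j ∈ Finset.range (N a), D (a, j)) := by
    rw [map_prod]
    exact Finset.prod_pos fun j _ => (h (a, j) y).1
  refine ⟨h4, ?_⟩
  beta_reduce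
  rw [eq_div_iff h4.ne', Finset.sum_mul, map_sum]
  refine Finset.sum_congr rfl fun i hi => ?_
  have h5 : ∏ j ∈ (Finset.range (N a)).erase i, (if j = i then (1 : MP) else D (a, j))
      = ∏ j ∈ (Finset.range (N a)).erase i, D (a, j) :=
    Finset.prod_congr rfl fun z hz => if_neg (Finset.ne_of_mem_erase hz)
  have h6 : f a i y = aeval y (A (a, i)) / aeval y (D (a, i)) := (h (a, i) y).2
  have h7 := (h (a, i) y).1.ne'
  rw [← Finset.mul_prod_erase _ _ hi, ← Finset.mul_prod_erase _ _ hi, if_pos rfl, h5, h6]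
  simp only [map_mul, map_one]
  field_simp

protected theorem CHP.nwP {L M : α → ℕ} {u : α → MP} (hL : CHF L) (hM : CHF M) (hu : CHP u) :
    CHP fun a => nwP (L a) (M a) (u a) := by
  have h2 : CHP fun q : α × ℕ => (2 : MP) ^ L q.1 * u q.1 + 2 ^ q.2 :=
    (((CHP.const 2).pow (hL.comp (by fun_prop))).mul (hu.comp (by fun_prop))).add
      ((CHP.const 2).pow (by fun_prop))
  exact (CHP.prod (N := fun a => 2 * L a + 1) (P := fun a k => (2 : MP) ^ L a * u a + 2 ^ k)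
    (by fun_prop) h2).pow (e := fun a => 2 * M a) (by fun_prop)

theorem Oracle_map_nwP (y : ℕ → ℝ) (L M : ℕ) (u : MP) :
    aeval y (nwP L M u) = nwP L M (aeval y u) := by
  simp only [nwP, map_pow, map_prod, map_add, map_mul, map_ofNat]

protected theorem CHR.posInd {L M : α → ℕ} {u : α → MP} (hL : CHF L) (hM : CHF M) (hu : CHP u) :
    CHR fun a y => posInd (L a) (M a) (aeval y (u a)) := by
  have hv : CHP fun a => u a - C (((2 : ℚ) ^ (L a + 1))⁻¹) :=
    hu.sub (CHP.C (((CHQ.const 2).pow (e := fun a => L a + 1) (by fun_prop)).inv))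
  have hL' : CHF fun a => L a + 1 := by fun_prop
  have h1 := CHP.nwP hL' hM hv
  have h2 := CHP.nwP hL' hM hv.neg
  refine ⟨_, _, h1, h1.add h2, fun a y => ?_⟩
  have h3 : aeval y (u a - C (((2 : ℚ) ^ (L a + 1))⁻¹)) = aeval y (u a) - (2 ^ (L a + 1))⁻¹ := by
    simp
  simp only [map_add, Oracle_map_nwP, map_neg, h3]
  exact ⟨nw_den_pos _ _ _, rfl⟩

theorem Oracle_map_ev0 {n : ℕ} {F : ℕ → Polynomial ℚ} {d : ℕ → ℕ} (W : MP)
    {r : (i : Fin n) → Fin (d i) → ℂ}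
    (h : ∀ i : Fin n, (F i).map (algebraMap ℚ ℂ) = ∏ j, (Polynomial.X - Polynomial.C (r i j))) :
    (ev (0 : ℕ → ℚ) (tupProd n (fun i => (F i).map (C : ℚ →+* MP)) d W)).map (algebraMap ℚ ℂ) =
      ∏ ι : (i : Fin n) → Fin (d i),
        (1 + Polynomial.C (aeval (app (fun i => r i (ι i)) 0) W) * Polynomial.X) := by
  have h1 := map_ev (Algebra.ofId ℚ ℂ) (0 : ℕ → ℚ)
    (tupProd n (fun i => (F i).map (C : ℚ →+* MP)) d W)
  have h2 : (fun i => Algebra.ofId ℚ ℂ ((0 : ℕ → ℚ) i)) = (0 : ℕ → ℂ) := by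
    funext i
    simp
  rw [h2] at h1
  refine h1.trans (ev_tupProd (fun i => ?_) W)
  rw [ev_map_C, h i]

theorem Oracle_chx {n : α → ℕ} {F : α → ℕ → Polynomial ℚ} {d : α → ℕ → ℕ} {W : α → MP}
    (hn : CHF n) (hb : PB n) (hF : CHX fun q : α × ℕ => F q.1 q.2)
    (hd : CHF fun q : α × ℕ => d q.1 q.2) (hW : CHP W) :
    CHX fun a => ev (0 : ℕ → ℚ)
      (tupProd (n a) (fun i => (F a i).map (C : ℚ →+* MP)) (d a) (W a)) :=
  CHX.ev0 (CHU.tupProd (F := fun a i => (F a i).map (C : ℚ →+* MP)) hn hb hF hd hW)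

/-- `T = ev 0 (tupProd ..) ∈ ℚ[X]` is `CHX`; bound its coefficients by `CHQ.bound` (uniformly up to
the degree bound, `pb_uniform_range`), use `ev_tupProd`, `map_ev`, `gap_of_coeff`. -/
theorem exists_gap {n : α → ℕ} {F : α → ℕ → Polynomial ℚ} {d : α → ℕ → ℕ} {W : α → MP}
    (hn : CHF n) (hb : PB n) (hF : CHX fun q : α × ℕ => F q.1 q.2)
    (hd : CHF fun q : α × ℕ => d q.1 q.2) (hW : CHP W) :
    ∃ L : α → ℕ, CHF L ∧ ∀ a (r : (i : Fin (n a)) → Fin (d a i) → ℂ),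
      (∀ i : Fin (n a), (F a i).map (algebraMap ℚ ℂ) =
        ∏ j, (Polynomial.X - Polynomial.C (r i j))) →
      ∀ ι : (i : Fin (n a)) → Fin (d a i),
        aeval (app (fun i => r i (ι i)) 0) (W a) = 0 ∨
          (((2 : ℝ) ^ L a)⁻¹ ≤ ‖aeval (app (fun i => r i (ι i)) 0) (W a)‖ ∧
            ‖aeval (app (fun i => r i (ι i)) 0) (W a)‖ ≤ 2 ^ L a) := by
  have hT := Oracle_chx hn hb hF hd hW
  obtain ⟨B, hB, hdeg⟩ := hT.natDegree_le
  obtain ⟨m, -, hm, hbd⟩ := (CHQ.coeffX (hT.comp (CHF.fst (CHF.id (α := α × ℕ))))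
    (CHF.snd CHF.id)).bound
  obtain ⟨m', hm1, hm2, hm'⟩ := pb_uniform_range hm hB
  refine ⟨fun a => 2 ^ m' a * 2 + 1,
    ((CHF.pow (CHF.const 2) (CHF.of_pt hm1) hm2).mul (CHF.const 2)).add (CHF.const 1),
    fun a r hr ι => ?_⟩
  have h1 := Oracle_map_ev0 (W a) hr
  have h2 : (1 : ℝ) ≤ 2 ^ 2 ^ m' a := one_le_pow₀ one_le_two
  have h3 := gap_of_coeff (fun ι : (i : Fin (n a)) → Fin (d a i) =>
    aeval (app (fun i => r i (ι i)) 0) (W a)) h2 (fun k => ?_) ι
  · have h4 : (2 : ℝ) * (2 ^ 2 ^ m' a) ^ 2 = 2 ^ (2 ^ m' a * 2 + 1) := by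
      rw [pow_succ' (2 : ℝ) (2 ^ m' a * 2), pow_mul]
    rwa [h4] at h3
  rw [← h1, Polynomial.coeff_map]
  set c := (ev (0 : ℕ → ℚ) (tupProd (n a) (fun i => (F a i).map (C : ℚ →+* MP)) (d a)
    (W a))).coeff k with hc
  have h5 : ‖algebraMap ℚ ℂ c‖ = ((|c| : ℚ) : ℝ) := by
    rw [eq_ratCast, Complex.norm_ratCast, Rat.cast_abs]
  rw [h5]
  by_cases hk : k ≤ B a
  · have h6 : |c| ≤ 2 ^ 2 ^ m (a, k) ∧ (c ≠ 0 → 1 ≤ 2 ^ 2 ^ m (a, k) * |c|) := hbd (a, k)
    have h7 : (2 : ℚ) ^ 2 ^ m (a, k) ≤ 2 ^ 2 ^ m' a :=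
      pow_le_pow_right₀ one_le_two (Nat.pow_le_pow_right two_pos (hm' a k hk))
    refine ⟨by exact_mod_cast h6.1.trans h7, fun h0 => ?_⟩
    have h8 : c ≠ 0 := fun h => h0 (by rw [h, map_zero])
    exact_mod_cast (h6.2 h8).trans (mul_le_mul_of_nonneg_right h7 (abs_nonneg _))
  · have h6 : c = 0 := Polynomial.coeff_eq_zero_of_natDegree_lt ((hdeg a).trans_lt (by omega))
    rw [h6]
    simp

open Classical in
/-- With `f = N / Dn`, the predicate is `(ev 0 (tupProd n F d N)).leadingCoeff < 0`: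
`ev_tupProd`, `leadingCoeff_prod_one_add`, `exists_conj_perm`, `prod_neg_iff_odd`. -/
theorem exists_parity {n : α → ℕ} {F : α → ℕ → Polynomial ℚ} {d : α → ℕ → ℕ}
    {f : α → (ℕ → ℝ) → ℝ} (hn : CHF n) (hb : PB n) (hF : CHX fun q : α × ℕ => F q.1 q.2)
    (hd : CHF fun q : α × ℕ => d q.1 q.2) (hf : CHR f) :
    ∃ Q : α → Prop, CH Q ∧ ∀ a (r : (i : Fin (n a)) → Fin (d a i) → ℂ),
      (∀ i : Fin (n a), (F a i).map (algebraMap ℚ ℂ) =
        ∏ j, (Polynomial.X - Polynomial.C (r i j))) →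
      (Q a ↔ Odd (Finset.univ.filter fun ι : (i : Fin (n a)) → Fin (d a i) =>
        (∀ i, (r i (ι i)).im = 0) ∧ f a (app (fun i => (r i (ι i)).re) 0) < 0).card) := by
  obtain ⟨N, Dn, hN, -, h⟩ := hf
  have hT := Oracle_chx hn hb hF hd hN
  refine ⟨_, CH.qlt (CHQ.leadingCoeff hT) (CHQ.const 0), fun a r hr => ?_⟩
  have h1 := Oracle_map_ev0 (N a) hr
  choose σ hσ using fun i => exists_conj_perm (hr i)
  set c := (ev (0 : ℕ → ℚ) (tupProd (n a) (fun i => (F a i).map (C : ℚ →+* MP)) (d a)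
    (N a))).leadingCoeff with hc
  have h2 : (((c : ℝ)) : ℂ) = ∏ ι ∈ Finset.univ.filter
      (fun ι : (i : Fin (n a)) → Fin (d a i) => aeval (app (fun i => r i (ι i)) 0) (N a) ≠ 0),
        aeval (app (fun i => r i (ι i)) 0) (N a) := by
    rw [← leadingCoeff_prod_one_add, ← h1,
      Polynomial.leadingCoeff_map_of_injective (algebraMap ℚ ℂ).injective]
    simp [hc]
  have h3 : ∀ ι : (i : Fin (n a)) → Fin (d a i), (∀ i, (r i (ι i)).im = 0) →
      aeval (app (fun i => r i (ι i)) 0) (N a) =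
        ((aeval (app (fun i => (r i (ι i)).re) 0) (N a) : ℝ) : ℂ) := by
    intro ι hι
    rw [ofReal_aeval, map_app (fun t : ℝ => (t : ℂ))]
    congr 3
    funext i
    exact Complex.ext (by simp) (by simp [hι i])
  have h4 := prod_neg_iff_odd (fun (ι : (i : Fin (n a)) → Fin (d a i)) i => r i (ι i))
    (fun ι => aeval (app (fun i => r i (ι i)) 0) (N a)) (Equiv.piCongrRight σ)
    (fun ι k => hσ k (ι k)) (fun ι => ?_) (fun ι hι => by rw [h3 ι hι, Complex.ofReal_im]) h2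
  · rw [← Rat.cast_lt (K := ℝ), Rat.cast_zero, h4]
    refine iff_of_eq (congrArg (fun s : Finset _ => Odd s.card) (Finset.filter_congr fun ι _ => ?_))
    refine and_congr_right fun hι => ?_
    rw [h3 ι hι, Complex.ofReal_re, (h a _).2, div_lt_iff₀ (h a _).1, zero_mul]
  · rw [conj_aeval, map_app (starRingEnd ℂ)]
    congr 3
    · funext i
      exact hσ i (ι i)
    · funext i
      simp

end Crest.Agent.R316
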