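import Crest.Agent.R316.Rat

/-! Row 316: ring operations on `CHP`. -/

set_option autoImplicit false

namespace Crest.Agent.R316

open Crest.Agent.Lib.PT MvPolynomial

variable {α β : Type} [Enc α] [Enc β]

theorem toF_map_range {d : ℕ →₀ ℕ} {n : ℕ} (h : ∀ i, n ≤ i → d i = 0) :
    toF ((List.range n).map d) = d := by
  ext i
  rw [toF_apply]
  by_cases hi : i < n
  · simp [List.getD, hi]
  · rw [List.getD_eq_default _ _ (by simpa using hi), h i (by omega)]

theorem poly_toF_digs (n K c i : ℕ) :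
    toF (digs n K c) i = if i < n then c / K ^ i % K else 0 := by
  rw [toF_apply]
  split_ifs with hi
  · simp [digs, List.getD, hi]
  · exact List.getD_eq_default _ _ (by simpa [digs] using hi)

theorem poly_digs_inj (K : ℕ) : ∀ n c c' : ℕ, c < K ^ n → c' < K ^ n →
    (∀ i < n, c / K ^ i % K = c' / K ^ i % K) → c = c' := by
  intro n
  induction n with
  | zero => intro c c' h h' _; simp at h h'; omega
  | succ n ih =>
    intro c c' h h' hd
    have h0 := hd 0 (by omega)
    simp only [pow_zero, Nat.div_one] at h0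
    have h1 : c / K = c' / K := by
      refine ih _ _ (Nat.div_lt_of_lt_mul (by rwa [pow_succ'] at h))
        (Nat.div_lt_of_lt_mul (by rwa [pow_succ'] at h')) fun i hi => ?_
      have := hd (i + 1) (by omega)
      rwa [pow_succ', ← Nat.div_div_eq_div_mul, ← Nat.div_div_eq_div_mul] at this
    rw [← Nat.div_add_mod c K, ← Nat.div_add_mod c' K, h0, h1]

theorem poly_digs_injOn (n K : ℕ) :
    Set.InjOn (fun c => toF (digs n K c)) (Finset.range (K ^ n) : Set ℕ) := by
  intro c hc c' hc' h
  refine poly_digs_inj K n c c' (by simpa using hc) (by simpa using hc') fun i hi => ?_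
  have := congrArg (fun d : ℕ →₀ ℕ => d i) h
  simpa only [poly_toF_digs, if_pos hi] using this

theorem poly_box_eq (n K : ℕ) :
    box n K = (Finset.range (K ^ n)).image fun c => toF (digs n K c) := by
  symm
  refine Finset.eq_of_subset_of_card_le ?_ ?_
  · intro d hd
    obtain ⟨c, hc, rfl⟩ := Finset.mem_image.1 hd
    rw [mem_box]
    refine ⟨fun i hi => by rw [poly_toF_digs, if_neg (by omega)], fun i hi => ?_⟩
    rw [poly_toF_digs, if_pos hi]
    refine Nat.mod_lt _ (Nat.pos_of_ne_zero ?_)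
    rintro rfl
    rw [zero_pow (by omega)] at hc
    simp at hc
  · rw [Finset.card_image_of_injOn (poly_digs_injOn n K), box, Finset.card_finsupp]
    simp

/-- digits give a bijection from `range (K ^ n)` onto the box (`Nat.ofDigits`-style induction, or
`finFunctionFinEquiv`) -/
theorem sum_box {A : Type} [AddCommMonoid A] (n K : ℕ) (f : (ℕ →₀ ℕ) → A) :
    ∑ d ∈ box n K, f d = ∑ c ∈ Finset.range (K ^ n), f (toF (digs n K c)) := by
  rw [poly_box_eq, Finset.sum_image (poly_digs_injOn n K)]

theorem prod_box {A : Type} [CommMonoid A] (n K : ℕ) (f : (ℕ →₀ ℕ) → A) :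
    ∏ d ∈ box n K, f d = ∏ c ∈ Finset.range (K ^ n), f (toF (digs n K c)) := by
  rw [poly_box_eq, Finset.prod_image (poly_digs_injOn n K)]

theorem box_mono {n n' K K' : ℕ} (hn : n ≤ n') (hK : K ≤ K') (h0 : 0 < K') :
    box n K ⊆ box n' K' := by
  intro d hd
  rw [mem_box] at hd ⊢
  refine ⟨fun i hi => hd.1 i (by omega), fun i _ => ?_⟩
  by_cases h : i < n
  · exact (hd.2 i h).trans_le hK
  · rw [hd.1 i (by omega)]; exact h0

theorem poly_box_mono {m m' : ℕ} (h : m ≤ m') : box m (2 ^ m) ⊆ box m' (2 ^ m') :=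
  box_mono h (Nat.pow_le_pow_right two_pos h) (Nat.two_pow_pos _)

theorem poly_toF_nil : toF [] = 0 := by
  ext i; simp

theorem poly_fst {γ : Type} [Enc γ] {f : α → β} (hf : CHF f) : CHF fun q : α × γ => f q.1 :=
  fun_comp_pt hf PT.id.fst

theorem poly_snd : CHF fun q : α × β => q.2 := CHF.of_pt PT.id.snd

@[fun_prop] protected theorem CH.toF_eq {l l' : α → List ℕ} (hl : CHF l) (hl' : CHF l') :
    CH fun a => toF (l a) = toF (l' a) := by
  refine (CH.ball (B := fun a i => (l a).getD i 0 = (l' a).getD i 0) (hl.length.add hl'.length)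
    (CH.eq (CHF.getD (poly_fst hl) poly_snd (CHF.const 0))
      (CHF.getD (poly_fst hl') poly_snd (CHF.const 0)))).congr fun a => ?_
  constructor
  · intro h i _
    exact congrArg (fun d : ℕ →₀ ℕ => d i) h
  · intro h
    ext i
    by_cases hi : i < (l a).length + (l' a).length
    · exact h i hi
    · rw [toF_apply, toF_apply, List.getD_eq_default _ _ (by omega),
        List.getD_eq_default _ _ (by omega)]

theorem poly_replicate {n : α → ℕ} (hn : CHF n) (hb : PB n) (x : β) :
    CHF fun a => List.replicate (n a) x := by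
  have h : PT fun l : List ℕ => List.replicate l.length x := by fun_prop
  exact ((CHF.of_pt h).comp (CHF.range hn hb)).congr fun a => by simp

@[fun_prop] protected theorem CHF.unary {n : α → ℕ} (hn : CHF n) (hb : PB n) :
    CHF fun a => List.replicate (n a) () := by
  exact poly_replicate hn hb ()

theorem poly_digs_pair {n K : α → ℕ} (hn : CHF n) (hb : PB n) (hK : CHF K) :
    CHF fun q : α × ℕ => (q.1, digs (n q.1) (K q.1) q.2) :=
  CHF.pair (poly_fst CHF.id)
    (CHF.digs (poly_fst hn) (PB.comp hb PT.id.fst) (poly_fst hK) poly_snd)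

protected theorem CHQ.sum_box {n K : α → ℕ} {f : α → (ℕ →₀ ℕ) → ℚ} (hn : CHF n) (hb : PB n)
    (hK : CHF K) (hf : CHQ fun q : α × List ℕ => f q.1 (toF q.2)) :
    CHQ fun a => ∑ d ∈ box (n a) (K a), f a d := by
  exact (CHQ.sum (F := fun a c => f a (toF (digs (n a) (K a) c))) (CHF.pow hK hn hb)
    (hf.comp (poly_digs_pair hn hb hK))).congr fun a => sum_box _ _ _

protected theorem CHP.congr {P Q : α → MP} (h : CHP Q) (e : ∀ a, P a = Q a) : CHP P := by
  rw [show P = Q from funext e]; exact h

protected theorem CHP.bound {P : α → MP} (h : CHP P) :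
    ∃ m : α → ℕ, PT m ∧ PB m ∧ ∀ a, (P a).support ⊆ box (m a) (2 ^ m a) := by
  obtain ⟨m, hm, h1⟩ := h.1
  obtain ⟨m', h2, h3, h4⟩ := pb_exists_pt hm
  exact ⟨m', h2, h3, fun a => (h1 a).trans (poly_box_mono (h4 a))⟩

protected theorem CHP.totalDegree_le {P : α → MP} (h : CHP P) :
    ∃ B : α → ℕ, CHF B ∧ ∀ a, (P a).totalDegree ≤ B a := by
  obtain ⟨m, h1, h2, h3⟩ := h.bound
  refine ⟨fun a => m a * 2 ^ m a,
    (CHF.of_pt h1).mul (CHF.pow (CHF.const 2) (CHF.of_pt h1) h2), fun a => ?_⟩
  refine Finset.sup_le fun d hd => ?_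
  have hd' := mem_box.1 (h3 a hd)
  rw [Finsupp.sum_of_support_subset d (s := Finset.range (m a)) (fun i hi => by
    by_contra hh
    exact Finsupp.mem_support_iff.1 hi (hd'.1 i (by simpa using hh))) _ (fun _ _ => rfl)]
  refine (Finset.sum_le_card_nsmul _ _ (2 ^ m a) fun i hi =>
    (hd'.2 i (Finset.mem_range.1 hi)).le).trans ?_
  simp

@[fun_prop] protected theorem CHP.comp {P : β → MP} {g : α → β} (h : CHP P) (hg : CHF g) :
    CHP fun a => P (g a) := by
  obtain ⟨⟨m, hm, h1⟩, h2⟩ := h
  exact ⟨⟨fun a => m (g a), pb_comp_chf hm hg, fun a => h1 _⟩,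
    h2.comp (g := fun q : α × List ℕ => (g q.1, q.2)) ((poly_fst hg).pair poly_snd)⟩

@[fun_prop] protected theorem CHQ.coeff {P : α → MP} {l : α → List ℕ} (h : CHP P) (hl : CHF l) :
    CHQ fun a => coeff (toF (l a)) (P a) := by
  exact h.2.comp (g := fun a => (a, l a)) (CHF.id.pair hl)

@[fun_prop] protected theorem CHQ.constantCoeff {P : α → MP} (h : CHP P) :
    CHQ fun a => constantCoeff (P a) := by
  refine (CHQ.coeff h (CHF.const [])).congr fun a => ?_
  rw [poly_toF_nil, constantCoeff_eq]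

@[fun_prop] protected theorem CHP.monomial {l : α → List ℕ} {c : α → ℚ} (hl : CHF l) (hc : CHQ c) :
    CHP fun a => monomial (toF (l a)) (c a) := by
  classical
  refine ⟨⟨fun a => sz (l a), hl.1, fun a => support_monomial_subset.trans ?_⟩, ?_⟩
  · rw [Finset.singleton_subset_iff, mem_box]
    refine ⟨fun i hi => List.getD_eq_default _ _ ((length_le_sz _).trans hi), fun i _ => ?_⟩
    rw [toF_apply]
    by_cases hi : i < (l a).length
    · rw [List.getD_eq_getElem _ _ hi]
      exact (lt_two_pow_sz _).trans_le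
        (Nat.pow_le_pow_right two_pos (sz_le_of_mem (List.getElem_mem hi)))
    · rw [List.getD_eq_default _ _ (by omega)]
      exact Nat.two_pow_pos _
  · exact (CHQ.ite (CH.toF_eq (poly_fst hl) poly_snd) (hc.comp (poly_fst CHF.id))
      (CHQ.const 0)).congr fun q => coeff_monomial _ _ _

@[fun_prop] protected theorem CHP.C {c : α → ℚ} (hc : CHQ c) : CHP fun a => (C (c a) : MP) := by
  refine (CHP.monomial (CHF.const []) hc).congr fun a => ?_
  rw [poly_toF_nil, C_apply]

@[fun_prop] protected theorem CHP.X {i : α → ℕ} (hi : CHF i) (hb : PB i) :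
    CHP fun a => (X (i a) : MP) := by
  refine (CHP.monomial ((poly_replicate hi hb 0).append (CHF.const [1]))
    (CHQ.const 1)).congr fun a => ?_
  have : toF (List.replicate (i a) 0 ++ [1]) = Finsupp.single (i a) 1 := by
    ext j
    rw [toF_apply, Finsupp.single_apply]
    rcases lt_trichotomy j (i a) with h | h | h
    · rw [List.getD_append _ _ _ _ (by simpa using h), if_neg h.ne']
      simp [List.getD, h]
    · subst h
      rw [List.getD_append_right _ _ _ _ (by simp)]
      simp
    · rw [List.getD_eq_default _ _ (by simpa using h), if_neg h.ne]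
  rw [this]
  rfl

theorem poly_two {P Q R : α → MP} (hP : CHP P) (hQ : CHP Q)
    (h : ∀ a, (R a).support ⊆ (P a).support ∪ (Q a).support) :
    ∃ m : α → ℕ, PB m ∧ ∀ a, (R a).support ⊆ box (m a) (2 ^ m a) := by
  obtain ⟨m, hm, h1⟩ := hP.1
  obtain ⟨m', hm', h2⟩ := hQ.1
  exact ⟨fun a => m a + m' a, hm.add hm', fun a => (h a).trans (Finset.union_subset
    ((h1 a).trans (poly_box_mono (Nat.le_add_right _ _)))
    ((h2 a).trans (poly_box_mono (Nat.le_add_left _ _))))⟩

@[fun_prop] protected theorem CHP.add {P Q : α → MP} (hP : CHP P) (hQ : CHP Q) :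
    CHP fun a => P a + Q a := by
  exact ⟨poly_two hP hQ fun a => support_add, (hP.2.add hQ.2).congr fun q => coeff_add _ _ _⟩

@[fun_prop] protected theorem CHP.const (p : MP) : CHP fun _ : α => p := by
  induction p using MvPolynomial.induction_on' with
  | monomial d c =>
    refine (CHP.monomial (CHF.const ((List.range (d.support.sup id + 1)).map d))
      (CHQ.const c)).congr fun _ => ?_
    rw [toF_map_range]
    intro i hi
    by_contra h
    have := Finset.le_sup (f := id) (Finsupp.mem_support_iff.2 h)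
    simp only [id] at this
    omega
  | add p q hp hq => exact hp.add hq

@[fun_prop] protected theorem CHP.neg {P : α → MP} (hP : CHP P) : CHP fun a => -P a := by
  obtain ⟨⟨m, hm, h1⟩, h2⟩ := hP
  exact ⟨⟨m, hm, fun a => by rw [support_neg]; exact h1 a⟩,
    h2.neg.congr fun q => coeff_neg _ _ _⟩

@[fun_prop] protected theorem CHP.sub {P Q : α → MP} (hP : CHP P) (hQ : CHP Q) :
    CHP fun a => P a - Q a := by
  exact (hP.add hQ.neg).congr fun a => sub_eq_add_neg _ _

@[fun_prop] protected theorem CHP.smul {c : α → ℚ} {P : α → MP} (hc : CHQ c) (hP : CHP P) :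
    CHP fun a => c a • P a := by
  obtain ⟨⟨m, hm, h1⟩, h2⟩ := hP
  exact ⟨⟨m, hm, fun a => support_smul.trans (h1 a)⟩,
    ((hc.comp (poly_fst CHF.id)).mul h2).congr fun q => coeff_smul _ _ _⟩

@[fun_prop] protected theorem CHP.ite {c : α → Prop} [∀ a, Decidable (c a)] {P Q : α → MP}
    (hc : CH c) (hP : CHP P) (hQ : CHP Q) : CHP fun a => if c a then P a else Q a := by
  refine ⟨poly_two hP hQ fun a => ?_,
    (CHQ.ite (P := fun q : α × List ℕ => c q.1) (hc.comp (poly_fst CHF.id)) hP.2 hQ.2).congr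
      fun q => ?_⟩
  · split_ifs
    · exact Finset.subset_union_left
    · exact Finset.subset_union_right
  · beta_reduce
    split_ifs <;> rfl

@[fun_prop] protected theorem CHP.sum {N : α → ℕ} {P : α → ℕ → MP} (hN : CHF N)
    (hP : CHP fun q : α × ℕ => P q.1 q.2) : CHP fun a => ∑ y ∈ Finset.range (N a), P a y := by
  obtain ⟨⟨m, hm, h1⟩, h2⟩ := hP
  obtain ⟨m', _, hm', h3⟩ := pb_uniform_range hm hN
  refine ⟨⟨m', hm', fun a => support_sum.trans (Finset.biUnion_subset.2 fun y hy => ?_)⟩, ?_⟩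
  · exact (h1 (a, y)).trans (poly_box_mono (h3 a y (Finset.mem_range.1 hy).le))
  · refine (CHQ.sum (N := fun q : α × List ℕ => N q.1)
      (F := fun q y => coeff (toF q.2) (P q.1 y)) (poly_fst hN)
      (h2.comp (g := fun r : (α × List ℕ) × ℕ => ((r.1.1, r.2), r.1.2))
        (CHF.of_pt (by fun_prop)))).congr fun q => coeff_sum _ _ _

protected theorem CHP.sum_box {n K : α → ℕ} {T : α → (ℕ →₀ ℕ) → MP} (hn : CHF n) (hb : PB n)
    (hK : CHF K) (hT : CHP fun q : α × List ℕ => T q.1 (toF q.2)) :
    CHP fun a => ∑ d ∈ box (n a) (K a), T a d := by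
  exact (CHP.sum (P := fun a c => T a (toF (digs (n a) (K a) c))) (CHF.pow hK hn hb)
    (hT.comp (poly_digs_pair hn hb hK))).congr fun a => sum_box _ _ _

/-- operators defined monomial by monomial -/
protected theorem CHP.linear {W : α → MP} {T : α → (ℕ →₀ ℕ) → MP} (hW : CHP W)
    (hT : CHP fun q : α × List ℕ => T q.1 (toF q.2)) :
    CHP fun a => ∑ d ∈ (W a).support, coeff d (W a) • T a d := by
  obtain ⟨m, h1, h2, h3⟩ := hW.bound
  refine (CHP.sum_box (T := fun a d => coeff d (W a) • T a d) (CHF.of_pt h1) h2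
    (CHF.pow (CHF.const 2) (CHF.of_pt h1) h2) (CHP.smul hW.2 hT)).congr fun a => ?_
  refine Finset.sum_subset (h3 a) fun d _ hd => ?_
  rw [notMem_support_iff.1 hd, zero_smul]

protected theorem CH.peq {P Q : α → MP} (hP : CHP P) (hQ : CHP Q) : CH fun a => P a = Q a := by
  obtain ⟨m, h1, h2, h3⟩ := (hP.sub hQ).bound
  refine (CH.forall_list (P := fun a l => coeff (toF l) (P a) = coeff (toF l) (Q a))
    (CHF.of_pt h1) h2 (CHF.pow (CHF.const 2) (CHF.of_pt h1) h2)
    (CH.qeq hP.2 hQ.2)).congr fun a => ⟨fun h l _ _ => by rw [h], fun h => ?_⟩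
  rw [← sub_eq_zero]
  by_contra hne
  obtain ⟨d, hd⟩ := support_nonempty.2 hne
  have hd' := mem_box.1 (h3 a hd)
  have := h ((List.range (m a)).map d) (by simp) (fun x hx => by
    obtain ⟨i, hi, rfl⟩ := List.mem_map.1 hx
    exact hd'.2 i (List.mem_range.1 hi))
  rw [toF_map_range hd'.1] at this
  exact mem_support_iff.1 hd (by rw [coeff_sub, this, sub_self])

end Crest.Agent.R316
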