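import Crest.Agent.R316.CRT

/-! Row 316: field operations on big rationals. -/

set_option autoImplicit false

namespace Crest.Agent.R316

open Crest.Agent.Lib.PT

variable {α β : Type} [Enc α] [Enc β]

protected theorem CHQ.congr {F G : α → ℚ} (h : CHQ G) (e : ∀ a, F a = G a) : CHQ F := by
  rwa [show F = G from funext e]

@[fun_prop] protected theorem CHQ.intCast {F : α → ℤ} (h : CHZ F) : CHQ fun a => (F a : ℚ) := by
  exact ⟨F, fun _ => 1, h, CHZ.const 1, fun a => ⟨one_pos, by simp⟩⟩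

@[fun_prop] protected theorem CHQ.of_chf {F : α → ℚ} (h : CHF F) : CHQ F := by
  have h1 : CHF fun a => (F a).num := CHF.comp (g := fun q : ℚ => q.num) (.of_pt (by fun_prop)) h
  have h2 : CHF fun a => (F a).den := CHF.comp (g := fun q : ℚ => q.den) (.of_pt (by fun_prop)) h
  exact ⟨fun a => (F a).num, fun a => (F a).den, CHZ.of_chf h1, CHZ.natCast h2,
    fun a => ⟨Int.natCast_pos.2 (F a).den_pos, by simp [Rat.num_div_den]⟩⟩

@[fun_prop] protected theorem CHQ.natCast {n : α → ℕ} (h : CHF n) : CHQ fun a => (n a : ℚ) :=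
  CHQ.of_chf h.ratNatCast

@[fun_prop] protected theorem CHQ.const (c : ℚ) : CHQ fun _ : α => c := CHQ.of_chf (CHF.const c)

@[fun_prop] protected theorem CHQ.comp {F : β → ℚ} {g : α → β} (h : CHQ F) (hg : CHF g) :
    CHQ fun a => F (g a) := by
  obtain ⟨N, D, hN, hD, h⟩ := h
  exact ⟨_, _, hN.comp hg, hD.comp hg, fun a => h (g a)⟩

@[fun_prop] protected theorem CHQ.add {F G : α → ℚ} (hF : CHQ F) (hG : CHQ G) : CHQ fun a => F a + G a := by
  obtain ⟨N, D, hN, hD, h⟩ := hF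
  obtain ⟨N', D', hN', hD', h'⟩ := hG
  refine ⟨_, _, (hN.mul hD').add (hN'.mul hD), hD.mul hD',
    fun a => ⟨mul_pos (h a).1 (h' a).1, ?_⟩⟩
  have h1 : (D a : ℚ) ≠ 0 := by exact_mod_cast (h a).1.ne'
  have h2 : (D' a : ℚ) ≠ 0 := by exact_mod_cast (h' a).1.ne'
  beta_reduce
  rw [(h a).2, (h' a).2]
  push_cast
  field_simp

@[fun_prop] protected theorem CHQ.neg {F : α → ℚ} (hF : CHQ F) : CHQ fun a => -F a := by
  obtain ⟨N, D, hN, hD, h⟩ := hF
  refine ⟨_, _, hN.neg, hD, fun a => ⟨(h a).1, ?_⟩⟩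
  beta_reduce
  rw [(h a).2]
  push_cast
  ring

@[fun_prop] protected theorem CHQ.sub {F G : α → ℚ} (hF : CHQ F) (hG : CHQ G) : CHQ fun a => F a - G a := by
  exact (hF.add hG.neg).congr fun a => sub_eq_add_neg _ _

@[fun_prop] protected theorem CHQ.mul {F G : α → ℚ} (hF : CHQ F) (hG : CHQ G) : CHQ fun a => F a * G a := by
  obtain ⟨N, D, hN, hD, h⟩ := hF
  obtain ⟨N', D', hN', hD', h'⟩ := hG
  refine ⟨_, _, hN.mul hN', hD.mul hD', fun a => ⟨mul_pos (h a).1 (h' a).1, ?_⟩⟩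
  beta_reduce
  rw [(h a).2, (h' a).2]
  push_cast
  ring

@[fun_prop] protected theorem CHQ.ite {P : α → Prop} [∀ a, Decidable (P a)] {F G : α → ℚ} (hP : CH P)
    (hF : CHQ F) (hG : CHQ G) : CHQ fun a => if P a then F a else G a := by
  obtain ⟨N, D, hN, hD, h⟩ := hF
  obtain ⟨N', D', hN', hD', h'⟩ := hG
  refine ⟨_, _, CHZ.ite hP hN hN', CHZ.ite hP hD hD', fun a => ?_⟩
  beta_reduce
  split_ifs
  · exact h a
  · exact h' a

protected theorem CH.qpos {F : α → ℚ} (h : CHQ F) : CH fun a => 0 < F a := by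
  obtain ⟨N, D, hN, hD, h⟩ := h
  refine (CH.zpos hN).congr fun a => ?_
  have h1 : (0 : ℚ) < D a := by exact_mod_cast (h a).1
  rw [(h a).2, div_pos_iff_of_pos_right h1, Int.cast_pos]

protected theorem CH.qlt {F G : α → ℚ} (hF : CHQ F) (hG : CHQ G) : CH fun a => F a < G a := by
  exact (CH.qpos (hG.sub hF)).congr fun a => sub_pos.symm

protected theorem CH.qle {F G : α → ℚ} (hF : CHQ F) (hG : CHQ G) : CH fun a => F a ≤ G a := by
  exact (CH.qlt hG hF).not.congr fun a => not_lt.symm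

protected theorem CH.qeq {F G : α → ℚ} (hF : CHQ F) (hG : CHQ G) : CH fun a => F a = G a := by
  exact ((CH.qle hF hG).and (CH.qle hG hF)).congr fun a => le_antisymm_iff

/-- case distinction on the sign of the numerator -/
@[fun_prop] protected theorem CHQ.inv {F : α → ℚ} (hF : CHQ F) : CHQ fun a => (F a)⁻¹ := by
  obtain ⟨N, D, hN, hD, h⟩ := hF
  have h1 := CH.zpos hN
  have h2 := CH.zpos hN.neg
  refine ⟨_, _, CHZ.ite h1 hD (CHZ.ite h2 hD.neg (CHZ.const 0)),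
    CHZ.ite h1 hN (CHZ.ite h2 hN.neg (CHZ.const 1)), fun a => ?_⟩
  beta_reduce
  rw [(h a).2, inv_div]
  split_ifs with h3 h4
  · exact ⟨h3, rfl⟩
  · exact ⟨h4, by push_cast; rw [neg_div_neg_eq]⟩
  · have h5 : N a = 0 := by omega
    simp [h5]

@[fun_prop] protected theorem CHQ.div {F G : α → ℚ} (hF : CHQ F) (hG : CHQ G) : CHQ fun a => F a / G a := by
  exact (hF.mul hG.inv).congr fun a => div_eq_mul_inv _ _

/-- a common denominator: the product of all denominators -/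
protected theorem CHQ.common {N : α → ℕ} {F : α → ℕ → ℚ} (hN : CHF N)
    (hF : CHQ fun q : α × ℕ => F q.1 q.2) :
    ∃ (Dn : α → ℤ) (Z : α × ℕ → ℤ), CHZ Dn ∧ CHZ Z ∧
      ∀ a, 0 < Dn a ∧ ∀ y < N a, (Z (a, y) : ℚ) = Dn a * F a y := by
  obtain ⟨A, D, hA, hD, h⟩ := hF
  have h1 : CHZ fun a => ∏ y ∈ Finset.range (N a), D (a, y) :=
    CHZ.prod (F := fun a y => D (a, y)) hN hD
  have h2 : CHZ fun q : α × ℕ =>
      ∏ z ∈ Finset.range (N q.1), if z = q.2 then A (q.1, z) else D (q.1, z) := by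
    refine CHZ.prod (F := fun (q : α × ℕ) z => if z = q.2 then A (q.1, z) else D (q.1, z))
      (by fun_prop) ?_
    exact CHZ.ite (by fun_prop) (hA.comp (by fun_prop)) (hD.comp (by fun_prop))
  refine ⟨_, _, h1, h2, fun a => ⟨Finset.prod_pos fun y _ => (h (a, y)).1, fun y hy => ?_⟩⟩
  have hy' := Finset.mem_range.2 hy
  have h3 : (D (a, y) : ℚ) ≠ 0 := by exact_mod_cast (h (a, y)).1.ne'
  have h4 : F a y = A (a, y) / D (a, y) := (h (a, y)).2
  have h5 : ∏ z ∈ (Finset.range (N a)).erase y, (if z = y then A (a, z) else D (a, z))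
      = ∏ z ∈ (Finset.range (N a)).erase y, D (a, z) :=
    Finset.prod_congr rfl fun z hz => if_neg (Finset.ne_of_mem_erase hz)
  simp only
  rw [← Finset.mul_prod_erase _ _ hy', ← Finset.mul_prod_erase _ _ hy', if_pos rfl, h5, h4]
  push_cast
  field_simp

@[fun_prop] protected theorem CHQ.sum {N : α → ℕ} {F : α → ℕ → ℚ} (hN : CHF N)
    (hF : CHQ fun q : α × ℕ => F q.1 q.2) : CHQ fun a => ∑ y ∈ Finset.range (N a), F a y := by
  obtain ⟨D, Z, hD, hZ, h⟩ := CHQ.common hN hF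
  refine ⟨_, _, CHZ.sum (F := fun a y => Z (a, y)) hN hZ, hD, fun a => ⟨(h a).1, ?_⟩⟩
  have h1 : (D a : ℚ) ≠ 0 := by exact_mod_cast (h a).1.ne'
  beta_reduce
  rw [eq_div_iff h1, Finset.sum_mul, Int.cast_sum]
  refine Finset.sum_congr rfl fun y hy => ?_
  rw [(h a).2 y (Finset.mem_range.1 hy), mul_comm]

@[fun_prop] protected theorem CHQ.prod {N : α → ℕ} {F : α → ℕ → ℚ} (hN : CHF N)
    (hF : CHQ fun q : α × ℕ => F q.1 q.2) : CHQ fun a => ∏ y ∈ Finset.range (N a), F a y := by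
  obtain ⟨A, D, hA, hD, h⟩ := hF
  refine ⟨_, _, CHZ.prod (F := fun a y => A (a, y)) hN hA,
    CHZ.prod (F := fun a y => D (a, y)) hN hD,
    fun a => ⟨Finset.prod_pos fun y _ => (h (a, y)).1, ?_⟩⟩
  beta_reduce
  rw [Int.cast_prod, Int.cast_prod, ← Finset.prod_div_distrib]
  exact Finset.prod_congr rfl fun y _ => (h (a, y)).2

@[fun_prop] protected theorem CHQ.pow {F : α → ℚ} {e : α → ℕ} (hF : CHQ F) (he : CHF e) :
    CHQ fun a => F a ^ e a := by
  exact (CHQ.prod (F := fun a _ => F a) he (hF.comp (by fun_prop))).congr fun a => by simp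

@[fun_prop] protected theorem CHQ.factorial {n : α → ℕ} (hn : CHF n) :
    CHQ fun a => ((n a).factorial : ℚ) := by
  refine (CHQ.prod (F := fun _ y => ((y + 1 : ℕ) : ℚ)) hn
    (CHQ.natCast (by fun_prop))).congr fun a => ?_
  rw [← Finset.prod_range_add_one_eq_factorial, Nat.cast_prod]

/-- `L = 2 ^ m` -/
protected theorem CHQ.bound {F : α → ℚ} (h : CHQ F) :
    ∃ m : α → ℕ, PT m ∧ PB m ∧ ∀ a, |F a| ≤ 2 ^ 2 ^ m a ∧ (F a ≠ 0 → 1 ≤ 2 ^ 2 ^ m a * |F a|) := by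
  obtain ⟨A, D, hA, hD, h⟩ := h
  obtain ⟨m, hm1, hm2, hm⟩ := hA.bound
  obtain ⟨n, hn1, hn2, hn⟩ := hD.bound
  refine ⟨fun a => m a + n a, by fun_prop, by fun_prop, fun a => ?_⟩
  have h1 : (1 : ℚ) ≤ D a := by exact_mod_cast (h a).1
  have h2 : |(A a : ℚ)| ≤ 2 ^ 2 ^ (m a + n a) := by
    exact_mod_cast (hm a).trans (int_tower_mono (Nat.le_add_right _ _))
  have h3 : (D a : ℚ) ≤ 2 ^ 2 ^ (m a + n a) := by
    exact_mod_cast (le_abs_self _).trans ((hn a).trans (int_tower_mono (Nat.le_add_left _ _)))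
  have h4 : |F a| = |(A a : ℚ)| / D a := by
    rw [(h a).2, abs_div, abs_of_pos (a := (D a : ℚ)) (by linarith)]
  rw [h4]
  refine ⟨(div_le_self (abs_nonneg _) h1).trans h2, fun h0 => ?_⟩
  have h5 : A a ≠ 0 := fun h5 => h0 (by rw [(h a).2, h5]; simp)
  have h6 : (1 : ℚ) ≤ |(A a : ℚ)| := by exact_mod_cast Int.one_le_abs h5
  rw [← mul_div_assoc, le_div_iff₀ (by linarith), one_mul]
  exact h3.trans (le_mul_of_one_le_right (by positivity) h6)

example {F : α → ℚ} {G : α × ℕ → ℚ} {n : α → ℕ} (hF : CHQ F) (hG : CHQ G) (hn : CHF n) :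
    CHQ fun a => ∑ j ∈ Finset.range (n a + 1),
      ((-1) ^ j / ((j : ℚ) + 1)) * (F a ^ (j + 1) - G (a, j + n a)) / (j.factorial : ℚ) := by
  fun_prop

end Crest.Agent.R316
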